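import Vale.Agent.P231.S2T.Inst2
import Vale.Agent.P231.X3.Dat

/-!
# P231, stage 2, S2-T: the classes of the tangent bundle over `V`
-/

set_option maxSynthPendingDepth 3
set_option linter.unusedSectionVars false
set_option linter.unusedVariables false

open Bundle Manifold Set Filter Module Matrix
open scoped ContDiff Manifold Topology

namespace Vale.Agent.P231.S2T

noncomputable section

open Vale.Agent.P234 Vale.Agent.P231 Vale.Agent.P231.Fm Vale.Agent.P231.W Vale.Agent.P231.WR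
  Vale.Agent.P231.ChW Vale.Agent.P231.X3

variable {E : Type*} [NormedAddCommGroup E] [NormedSpace ℝ E] [FiniteDimensional ℝ E]
  {M : Type*} [MetricSpace M] [ChartedSpace E M] [IsManifold 𝓘(ℝ, E) ∞ M]
  [RiemannianBundle (fun x : M => TangentSpace 𝓘(ℝ, E) x)]
  [IsContMDiffRiemannianBundle 𝓘(ℝ, E) ∞ E (fun x : M => TangentSpace 𝓘(ℝ, E) x)]
  [CompactSpace M] [ConnectedSpace M] [IsRiemannianManifold 𝓘(ℝ, E) M]
  {e : ∀ x : M, TangentSpace 𝓘(ℝ, E) x → M} {K : ℕ} {D : ℝ} {l : ℕ}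

theorem qc_tF (G : Geo e D l) (P : PF E M K) {Om : Form (dM E M)} (hO : Om.d = 0)
    (hOe : Om.sg = Om) {k j : ℕ} {t : ℝ} {η : Form (dM E M)}
    (h : tcl P (2 * k) = t • Om ^ j + η.d) :
    (ib_tF G P).qc (2 * k) = Cx.of (t • xf G hO hOe ^ j) := by
  have hib : ChW.IB G.R G.map_R ((rM (tF P) (sm_tF G P)).map Cx.of) := by
    rw [rM_map_of]
    exact ib_tF G P
  have h1 : (ib_tF G P).qc (2 * k) = hib.qc (2 * k) :=
    ChW.IB.qc_congr _ _ (rM_map_of _).symm _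
  rw [h1, ChW.IB.qc, hib.cl_real (even_two_mul k), mapR_of]
  congr 1
  refine qm_eq_of (b := t • (invB G G.map_foot G.foot_R hO hOe) ^ j)
    (η := Form.pull (fun p : Pr e D => foot p.v) G.map_foot η)
    (H584.basic_pull G.map_foot G.foot_R η) ?_
  have h2 : sF (2 * k) ((rM (tF P) (sm_tF G P)).map Cx.of) =
      Form.pull (fun p : Pr e D => foot p.v) G.map_foot (tcl P (2 * k)) := by
    rw [tcl, ← IB.sF_pull, map_pullC_cR, ← cR_eq]
    rfl
  change sF (2 * k) ((rM (tF P) (sm_tF G P)).map Cx.of) -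
    t • (Form.pull (fun p : Pr e D => foot p.v) G.map_foot Om) ^ j = _
  have h3 := map_add (Form.pullA (fun p : Pr e D => foot p.v) G.map_foot) (t • Om ^ j) η.d
  rw [map_smul, map_pow] at h3
  rw [h2, h]
  refine (congrArg (fun w => w - t • (Form.pull (fun p : Pr e D => foot p.v) G.map_foot Om) ^ j)
    h3).trans ?_
  change t • (Form.pull (fun p : Pr e D => foot p.v) G.map_foot Om) ^ j +
    Form.pull (fun p : Pr e D => foot p.v) G.map_foot η.d - _ = _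
  rw [add_sub_cancel_left, Form.pull_d]

/-- **S2-T**: the classes of the tangent bundle over `V` -/
theorem qc_tF_tau (G : Geo e D l) (P : PF E M K) {n : ℕ} (hl : l = 3)
    (hn : finrank ℝ E = 4 * n) (hn2 : 2 ≤ n) {Om : Form (dM E M)} (hO : Om.d = 0)
    (hOe : Om.sg = Om) (hO4 : Form.IsDeg 4 Om)
    (hgen : CoC.Gen (dM E M) Om 4 (finrank ℝ E - 1)) (hne : ∀ Γ : Form (dM E M), Om ^ n ≠ Γ.d)
    {c : ℝ} {y z : Hb G.R G.map_R}
    (hsq : y ^ 2 + z ^ 2 = (2 * c) • (xf G hO hOe + xb G hO hOe))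
    (hyz : y ^ 2 * z ^ 2 = (xf G hO hOe - xb G hO hOe) ^ 2)
    (hp : ∀ j, 1 ≤ j → qm G.R G.map_R (pcl G P (2 * j)) = 2 * (y ^ (2 * j) + z ^ (2 * j)))
    {κ : ℝ} (hκ : κ ≠ 0) {L : HV2 G →ₗ[ℝ] ℝ}
    (V : Val n κ (Q1 G (xf G hO hOe)) (Q1 G (xb G hO hOe)) (Q2 G (xb G hO hOe)) (Q1 G y)
      (Q2 G y) L) {k : ℕ} (hk : 1 ≤ k) (hkn : k ≤ n) :
    (ib_tF G P).qc (2 * k) = Cx.of (S2X.tau n c k • xf G hO hOe ^ k) := by
  obtain ⟨t, ht⟩ := exists_t G P hn hO hO4 hgen hne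
  obtain ⟨g, R⟩ := exists_rel G P hl hn hn2 hO hOe hO4 ht hsq hyz hp
  obtain ⟨η, hη⟩ := ht k hk
  rw [qc_tF G P hO hOe hη, R.tau_eq hn2 hκ V hk hkn]

end

end Vale.Agent.P231.S2T
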