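import Vale.Agent.P231.S2T.Nex
import Vale.Agent.P231.S2T.Last
import Vale.Agent.P231.Co.AngC

/-!
# P231, stage 2, block S2-T: conclusion
-/

set_option maxSynthPendingDepth 3
set_option linter.unusedSectionVars false
set_option linter.unusedVariables false

open Bundle Manifold Set Filter Module Topology MeasureTheory
open scoped ContDiff Manifold Topology

namespace Vale.Agent.P231.S2T

noncomputable section

open Vale.Agent.P234 Vale.Agent.P231 Vale.Agent.P231.Fm Vale.Agent.P231.W Vale.Agent.P231.H775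
  Vale.Agent.P231.WG Vale.Agent.P231.WR Vale.Agent.P231.X3 Vale.Agent.P231.ChW
  Vale.Agent.P231.WQ
open Vale.Agent.P231.Fm (Sm Dif Form Lam)

/-- rescaling the generator -/
theorem gen_smul {X : Type*} {D : Dif X} {G : Form D} {m n₀ : ℕ} (h : CoC.Gen D G m n₀) {r : ℝ}
    (hr : r ≠ 0) : CoC.Gen D (r⁻¹ • G) m n₀ := by
  intro j w hj hwd hw
  obtain ⟨c, Γ, h1, h2⟩ := h j w hj hwd hw
  refine ⟨c * r ^ (j / m), Γ, ?_, fun h3 => by rw [h2 h3, zero_mul]⟩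
  rw [h1, smul_pow, smul_smul, mul_assoc, ← mul_pow, mul_inv_cancel₀ hr, one_pow, mul_one]

variable {E : Type*} [NormedAddCommGroup E] [NormedSpace ℝ E] [FiniteDimensional ℝ E]
  {M : Type*} [MetricSpace M] [ChartedSpace E M] [IsManifold 𝓘(ℝ, E) ∞ M]
  [RiemannianBundle (fun x : M => TangentSpace 𝓘(ℝ, E) x)]
  [IsContMDiffRiemannianBundle 𝓘(ℝ, E) ∞ E (fun x : M => TangentSpace 𝓘(ℝ, E) x)]
  [CompactSpace M] [ConnectedSpace M] [IsRiemannianManifold 𝓘(ℝ, E) M]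
  {e : ∀ x : M, TangentSpace 𝓘(ℝ, E) x → M} {D : ℝ} {K' : ℕ}
  {n : ℕ} (G : Geo e D 3) (hE : finrank ℝ E = 4 * n) {p : M}
  {Pi : TangentSpace 𝓘(ℝ, E) p → TangentSpace 𝓘(ℝ, E) p →L[ℝ] TangentSpace 𝓘(ℝ, E) p}
  {o : TangentSpace 𝓘(ℝ, E) p → Fm.Lam (TangentSpace 𝓘(ℝ, E) p)}
  {ρ : TangentSpace 𝓘(ℝ, E) p → ℝ} {r₀ : ℝ}
  (hJ : FE.LineP e D p 1 Pi o) (hρ : WE.Rho e D p ρ r₀) {a : ℝ} (ha : a ≠ 0)

include hE ha in
/-- **the cohomology of `M` below the dimension** -/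
theorem gen_O3 (hn : 1 ≤ n) {κ : ℝ} (hκ : κ ≠ 0) :
    CoC.Gen (dM E M) (O3 G hJ hρ a κ) 4 (finrank ℝ E - 1) :=
  gen_smul (CoC.gen_FF G.F G.hD G.hB G.hdiam (Geo.hl (m := 1) G) hJ hρ a (by omega) ha) hκ

include hE ha in
/-- **the top power of the closed form is not exact** -/
theorem O3_pow_ne (hn : 1 ≤ n) {κ : ℝ} (hκ : κ ≠ 0) (Γ : Form (dM E M)) :
    (O3 G hJ hρ a κ) ^ n ≠ Γ.d := by
  intro h
  refine FG_pow_ne (m := 1) G hJ hρ a ha le_rfl hn hE (κ ^ n • Γ) ?_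
  rw [Form.d_smul, ← h, O3, smul_pow, smul_smul, ← mul_pow, mul_inv_cancel₀ hκ, one_pow, one_smul]

include hE ha in
/-- **S2-T**: the classes of the tangent bundle over `V`, in terms of the closed form -/
theorem qc_tau_FF (hn : 2 ≤ n) (P : PF E M K') {κ c : ℝ} (hκ : κ ≠ 0)
    {Yb Zb : H584.Bas G.R G.map_R}
    (eZ : (Zb : Form (dPr e D)) = κ⁻¹ • L3.b0P G.F G.hD G.hB G.hdiam (F3 G hJ hρ a))
    (hyz : qm G.R G.map_R Yb * qm G.R G.map_R Zb =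
      xb G (O3_d G hJ hρ a κ) (O3_sg G hJ hρ a κ) - xf G (O3_d G hJ hρ a κ) (O3_sg G hJ hρ a κ))
    (hsq : qm G.R G.map_R Yb ^ 2 + qm G.R G.map_R Zb ^ 2 =
      (2 * c) • (xf G (O3_d G hJ hρ a κ) (O3_sg G hJ hρ a κ) +
        xb G (O3_d G hJ hρ a κ) (O3_sg G hJ hρ a κ)))
    (hp : ∀ j, 1 ≤ j → qm G.R G.map_R (pcl G P (2 * j)) =
      2 * (qm G.R G.map_R Yb ^ (2 * j) + qm G.R G.map_R Zb ^ (2 * j)))
    {k : ℕ} (hk : 1 ≤ k) (hkn : k ≤ n) :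
    (ib_tF G P).qc (2 * k) =
      Cx.of (S2X.tau n c k • xf G (O3_d G hJ hρ a κ) (O3_sg G hJ hρ a κ) ^ k) := by
  obtain ⟨κ', Φ, hκ', hV⟩ := val_FF (m := 1) G hE hJ hρ ha le_rfl hn P hκ (c := c)
    (Xf := invB G G.map_foot G.foot_R (O3_d G hJ hρ a κ) (O3_sg G hJ hρ a κ))
    (Xb := invB G G.map_bar G.bar_R (O3_d G hJ hρ a κ) (O3_sg G hJ hρ a κ)) (Yb := Yb) (Zb := Zb)
    (map_smul (Form.pullA (fun p : Pr e D => foot p.v) G.map_foot) κ⁻¹ (F3 G hJ hρ a))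
    (map_smul (Form.pullA (fun p : Pr e D => bar e D p.v) G.map_bar) κ⁻¹ (F3 G hJ hρ a))
    eZ hsq
  refine qc_tF_tau G P rfl hE hn (O3_d G hJ hρ a κ) (O3_sg G hJ hρ a κ) (O3_deg G hJ hρ a κ)
    (gen_O3 G hE hJ hρ ha (by omega) hκ) (O3_pow_ne G hE hJ hρ ha (by omega) hκ) hsq ?_ hp hκ'
    hV hk hkn
  rw [← mul_pow, hyz]
  ring

end

end Vale.Agent.P231.S2T
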