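import Vale.Agent.P231.S2T.Val6
import Vale.Agent.P231.L3.Inst
import Vale.Agent.P231.X3.Line

/-!
# P231, stage 2, block S2-T (T3, part 12): the values of the functional for the closed form of the
Blaschke manifold
-/

set_option maxSynthPendingDepth 3
set_option linter.unusedSectionVars false
set_option linter.unusedVariables false

open Bundle Manifold Set Filter Module Topology MeasureTheory
open scoped ContDiff Manifold Topology

namespace Vale.Agent.P231.S2T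

noncomputable section

open Vale.Agent.P234 Vale.Agent.P231 Vale.Agent.P231.Fm Vale.Agent.P231.W Vale.Agent.P231.H775
  Vale.Agent.P231.WG Vale.Agent.P231.WR Vale.Agent.P231.X3 Vale.Agent.P231.ChW
  Vale.Agent.P231.WQ
open Vale.Agent.P231.Fm (Sm Dif Form Lam)

variable {E : Type*} [NormedAddCommGroup E] [NormedSpace ℝ E] [FiniteDimensional ℝ E]
  {M : Type*} [MetricSpace M] [ChartedSpace E M] [IsManifold 𝓘(ℝ, E) ∞ M]
  [RiemannianBundle (fun x : M => TangentSpace 𝓘(ℝ, E) x)]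
  [IsContMDiffRiemannianBundle 𝓘(ℝ, E) ∞ E (fun x : M => TangentSpace 𝓘(ℝ, E) x)]
  [CompactSpace M] [ConnectedSpace M] [IsRiemannianManifold 𝓘(ℝ, E) M]
  {e : ∀ x : M, TangentSpace 𝓘(ℝ, E) x → M} {D : ℝ} {K' : ℕ}

theorem isDeg_nu (P : PF E M K') : Form.IsDeg 1 (nu e D P) := by
  rw [nu, conn]
  refine Form.IsDeg.sum fun i _ => ?_
  have h1 : Form.IsDeg 0 (X3.fr _ (sm_ww (e := e) (D := D) P i)) :=
    Form.isDeg_fn _ (sm_ww (e := e) (D := D) P i).mp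
  have h2 : Form.IsDeg 0 (X3.fr _ (sm_vv (e := e) (D := D) P i)) :=
    Form.isDeg_fn _ (sm_vv (e := e) (D := D) P i).mp
  exact h1.mul h2.d

variable {m n : ℕ} (G : Geo e D (2 * m + 1))

theorem Geo.hl (G : Geo e D (2 * m + 1)) (x y : M) (h : dist x y = D) :
    finrank ℝ (H775.Pl e D x y) = 2 * m + 2 := G.hP x y h

variable (hE : finrank ℝ E = (2 * m + 2) * n) {p : M}
  {Pi : TangentSpace 𝓘(ℝ, E) p → TangentSpace 𝓘(ℝ, E) p →L[ℝ] TangentSpace 𝓘(ℝ, E) p}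
  {o : TangentSpace 𝓘(ℝ, E) p → Fm.Lam (TangentSpace 𝓘(ℝ, E) p)}
  {ρ : TangentSpace 𝓘(ℝ, E) p → ℝ} {r₀ : ℝ}
  (hJ : FE.LineP e D p m Pi o) (hρ : WE.Rho e D p ρ r₀) {a : ℝ} (ha : a ≠ 0)

/-- the closed form -/
abbrev FG (a : ℝ) : Form (dM E M) := FE.FF G.F G.hD G.hB G.hdiam (Geo.hl G) hJ hρ a

include hE ha in
/-- **the values of the functional for the closed form `F`** -/
theorem val_FF (hm : 1 ≤ m) (hn : 2 ≤ n) (P : PF E M K') {κ c : ℝ} (hκ : κ ≠ 0)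
    {Xf Xb Zb Yb : H584.Bas G.R G.map_R}
    (eXf : (Xf : Form (dPr e D)) =
      κ⁻¹ • Form.pull (fun p => foot p.v) G.map_foot (FG G hJ hρ a))
    (eXb : (Xb : Form (dPr e D)) =
      κ⁻¹ • Form.pull (fun p => bar e D p.v) G.map_bar (FG G hJ hρ a))
    (eZ : (Zb : Form (dPr e D)) = κ⁻¹ • L3.b0P G.F G.hD G.hB G.hdiam (FG G hJ hρ a))
    (hsq : qm G.R G.map_R Yb ^ 2 + qm G.R G.map_R Zb ^ 2 =
      (2 * c) • (qm G.R G.map_R Xf + qm G.R G.map_R Xb)) :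
    ∃ (κ' : ℝ) (Φ : HV2 G →ₗ[ℝ] ℝ), κ' ≠ 0 ∧ Val n κ' (Q1 G (qm G.R G.map_R Xf))
      (Q1 G (qm G.R G.map_R Xb)) (Q2 G (qm G.R G.map_R Xb)) (Q1 G (qm G.R G.map_R Yb))
      (Q2 G (qm G.R G.map_R Yb)) Φ := by
  have hE2 : 2 ≤ finrank ℝ E := by
    rw [hE]
    nlinarith
  have hnt : Nontrivial E := nontrivial_of_finrank_pos (R := ℝ) (by omega)
  have hNZ : NeZero (2 * m + 1) := ⟨by omega⟩
  obtain ⟨v0, -⟩ := S2II.exists_foot (E := E) p
  obtain ⟨X⟩ := nonempty_fr G.F G.hD G.hB p (D + 1)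
  obtain ⟨r, K, hr, hrad⟩ := exists_radCut (V := Eu E)
  have hDR : D < D + 1 := lt_add_one D
  let b : OrthonormalBasis (Fin (finrank ℝ E)) ℝ (Eu E) :=
    (stdOrthonormalBasis ℝ (Eu E)).reindex (finCongr (by
      rw [finrank_euclideanSpace, Fintype.card_fin]))
  have hd := FE.FF_d G.F G.hD G.hB G.hdiam (Geo.hl G) hJ hρ a
  have hOd : Form.IsDeg (2 * m + 2) (FG G hJ hρ a) :=
    S2II.isDeg_FF G.F G.hD G.hB G.hdiam (Geo.hl G) hJ hρ a
  have hOn : FG G hJ hρ a ^ (n + 1) = 0 := by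
    have h1 : WA.DimLE (dM E M) (finrank ℝ E) := L.dimLE_bridge (WF.dimLE_M E M rfl)
    refine h1.pow_eq_zero (j := 2 * m + 2) ?_ hOd
    rw [hE]
    nlinarith
  have hP : ∀ x y : M, dist x y = D → 2 ≤ finrank ℝ (H775.Pl e D x y) := fun x y h => by
    rw [G.hP x y h]
    omega
  have hev : Even (2 * m + 2) := ⟨m + 1, by ring⟩
  have hAA : AA X v0 b.toBasis hr hDR G.F (FG G hJ hρ a) n (n - 1) (n - 1) ≠ 0 := by
    rw [AA_val X v0 b.toBasis hr hDR G.F G.hD G.hB G.hdiam hP hd hev (by omega) hE hrad hOd hOn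
      (by omega) (FE.FF_deg G.F G.hD G.hB G.hdiam (Geo.hl G) hJ hρ a) (FE.ang_PsiE hJ.os a)
      (WQ.cut_rho hρ) (WQ.closedBall_sub hρ)
      (fun x hx => FE.FF_ef G.F G.hD G.hB G.hdiam (Geo.hl G) hJ hρ a hx)
      (fun y hy => FE.B0_cc G.F G.hD G.hB G.hdiam (Geo.hl G) hJ hρ a (G.hD.trans hDR) X v0 hy)]
    exact neg_ne_zero.2 (pow_ne_zero _ (FE.q_le hJ.os ha hm (by omega) hE b hr).2)
  exact exists_val G (S2II.orn_b0P G.F G.hD G.hB G.hdiam hE2 (Geo.hl G) hJ hρ ha) ⟨m, rfl⟩ X v0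
    b.toBasis hr hDR hd hev (by omega) hE hrad hOd hOn hn (by omega)
    (s := 2 * S2II.kappa m a) (mul_ne_zero two_ne_zero (S2II.kappa_pos (n := m) ha).ne')
    (S2II.SL_b0P G.F G.hD G.hB G.hdiam hE2 (Geo.hl G) hJ hρ ha) hAA (nu_R G P) (isDeg_nu P)
    hκ eXf eXb eZ hsq

end

end Vale.Agent.P231.S2T
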