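import Vale.Agent.P231.S2T.Rank
import Vale.Agent.P231.WA.Deg

/-!
# P231, stage 2: the degrees of the Chern character forms
-/

set_option linter.unusedSectionVars false
set_option linter.unusedVariables false

open Matrix Set Filter Topology
open scoped ContDiff

namespace Vale.Agent.P231.S2T

open Fm W ChW H584 X3

variable {X : Type*} {D : Dif X}
variable {l m n : Type*} [Fintype l] [Fintype m] [Fintype n]

/-- homogeneous complex forms -/
structure DegC (k : ℕ) (w : CF D) : Prop where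
  re : Form.IsDeg k w.re
  im : Form.IsDeg k w.im

namespace DegC

theorem zero (k : ℕ) : DegC k (0 : CF D) := ⟨Form.IsDeg.zero k, Form.IsDeg.zero k⟩

theorem one : DegC 0 (1 : CF D) := ⟨Form.IsDeg.one, Form.IsDeg.zero 0⟩

theorem add {k : ℕ} {v w : CF D} (hv : DegC k v) (hw : DegC k w) : DegC k (v + w) :=
  ⟨hv.re.add hw.re, hv.im.add hw.im⟩

theorem mul {j k : ℕ} {v w : CF D} (hv : DegC j v) (hw : DegC k w) : DegC (j + k) (v * w) :=
  ⟨(hv.re.mul hw.re).sub (hv.im.mul hw.im), (hv.re.mul hw.im).add (hv.im.mul hw.re)⟩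

theorem smul {k : ℕ} (c : ℂ) {w : CF D} (hw : DegC k w) : DegC k (c • w) :=
  ⟨(hw.re.smul _).sub (hw.im.smul _), (hw.im.smul _).add (hw.re.smul _)⟩

theorem d {k : ℕ} {w : CF D} (hw : DegC k w) : DegC (k + 1) (GDA.d w) :=
  ⟨hw.re.d, hw.im.d⟩

theorem sum {ι : Type*} {s : Finset ι} {f : ι → CF D} {k : ℕ} (h : ∀ i ∈ s, DegC k (f i)) :
    DegC k (∑ i ∈ s, f i) := by
  classical
  induction s using Finset.induction_on with
  | empty => exact zero k
  | insert a s ha ih =>
    rw [Finset.sum_insert ha]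
    exact (h a (Finset.mem_insert_self a s)).add
      (ih fun i hi => h i (Finset.mem_insert_of_mem hi))

end DegC

/-- homogeneous matrices of complex forms -/
def DegM (k : ℕ) (A : Matrix m n (CF D)) : Prop := ∀ i j, DegC k (A i j)

namespace DegM

theorem mul {j k : ℕ} {A : Matrix l m (CF D)} {B : Matrix m n (CF D)} (hA : DegM j A)
    (hB : DegM k B) : DegM (j + k) (A * B) := fun i j => by
  rw [Matrix.mul_apply]
  exact DegC.sum fun x _ => (hA i x).mul (hB x j)

theorem one [DecidableEq n] : DegM 0 (1 : Matrix n n (CF D)) := fun i j => by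
  rw [Matrix.one_apply]
  split_ifs
  · exact DegC.one
  · exact DegC.zero 0

theorem d {k : ℕ} {A : Matrix m n (CF D)} (hA : DegM k A) : DegM (k + 1) (dM A) :=
  fun i j => (hA i j).d

theorem pow [DecidableEq n] {k : ℕ} {A : Matrix n n (CF D)} (hA : DegM k A) (j : ℕ) :
    DegM (k * j) (A ^ j) := by
  induction j with
  | zero => exact one
  | succ j ih =>
    rw [pow_succ, mul_add, mul_one]
    exact ih.mul hA

theorem trace {k : ℕ} {A : Matrix n n (CF D)} (hA : DegM k A) : DegC k (Matrix.trace A) :=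
  DegC.sum fun i _ => hA i i

theorem ch [DecidableEq n] {A : Matrix n n (CF D)} (hA : DegM 0 A) (k : ℕ) :
    DegC (2 * k) (ChW.ch k A) := by
  have h1 : DegM 2 (dd A) := hA.d.mul hA.d
  have h2 := (hA.mul (h1.pow k)).trace
  rwa [zero_add] at h2

end DegM

variable [DecidableEq n]

/-- **the class forms are homogeneous** -/
theorem isDeg_sF {A : Matrix n n (CF D)} (hA : DegM 0 A) (k : ℕ) :
    Form.IsDeg (2 * k) (sF k A) := ((hA.ch k).smul _).re

theorem isDeg_fr (f : X → ℝ) (hf : SmF D f) : Form.IsDeg 0 (fr f hf) := Form.isDeg_fn f hf.mp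

theorem degC_cf (f : X → ℂ) (hf : SmF D f) : DegC 0 (cf f hf) :=
  ⟨by rw [cf_re]; exact isDeg_fr (fun x => (f x).re) hf.re,
    by rw [cf_im]; exact isDeg_fr (fun x => (f x).im) hf.im⟩

theorem degM_cM {a : X → Matrix m n ℂ} (ha : SmM D a) : DegM 0 (cM a ha) := fun i j => by
  rw [cM_apply]
  exact degC_cf (fun x => a x i j) (ha i j)

theorem degM_cR {A : X → Matrix m n ℝ} (hA : SmM D A) : DegM 0 (cR A hA) := degM_cM _

theorem isDeg_sF_cR {A : X → Matrix n n ℝ} (hA : SmM D A) (k : ℕ) :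
    Form.IsDeg (2 * k) (sF k (cR A hA)) := isDeg_sF (degM_cR hA) k

end Vale.Agent.P231.S2T
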