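import Vale.Agent.P231.S2T.Ser

/-!
# P231, stage 2, block S2-T (algebra, part 2): the Pontryagin classes of `M`

In a commutative real algebra `H` (closed even forms on `V ×_M V`, basic for both rotations, modulo
exact ones) with the classes `x₀, x₁, x₂` of the form on `M` and the Chern roots `± yᵢ, ± zᵢ` of the
two planes, the rank condition `(x₁ - x₂) C_k(T - P₁ - P₂) = 0`, `k > 4 n - 8`, and the values of the
integral determine the power sums of the tangent bundle.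
-/

namespace Vale.Agent.P231.S2T

open PowerSeries Finset

noncomputable section

/-! ### uniqueness for logarithmic derivatives -/

section Uniq

variable {H : Type*} [CommRing H] [Algebra ℝ H]

theorem LD.coeff_succ {F S : PowerSeries H} (h : LD F S) (k : ℕ) :
    (2 * ((k : ℝ) + 1)) • coeff (k + 1) F = -∑ p ∈ antidiagonal (k + 1),
      coeff p.1 F * coeff p.2 S := by
  have h0 : 2 * X * d⁄dX H F = C 2 * (X * d⁄dX H F) := mul_assoc _ _ _
  have h1 := congrArg (coeff (k + 1)) (h0.symm.trans h)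
  rw [coeff_C_mul, coeff_succ_X_mul, coeff_derivative, map_neg, coeff_mul] at h1
  rw [← h1, Algebra.smul_def, map_mul, map_add, map_one, map_natCast, map_ofNat]
  ring

theorem LD.unique {F G S : PowerSeries H} (h : LD F S) (h' : LD G S) (h0 : coeff 0 S = 0)
    (hFG : coeff 0 F = coeff 0 G) : F = G := by
  ext k
  induction k using Nat.strong_induction_on with
  | _ k ih =>
    cases k with
    | zero => exact hFG
    | succ k =>
      have h1 := h.coeff_succ k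
      have h2 := h'.coeff_succ k
      have h3 : ∑ p ∈ antidiagonal (k + 1), coeff p.1 F * coeff p.2 S =
          ∑ p ∈ antidiagonal (k + 1), coeff p.1 G * coeff p.2 S := by
        refine Finset.sum_congr rfl fun p hp => ?_
        rw [HasAntidiagonal.mem_antidiagonal] at hp
        rcases Nat.eq_zero_or_pos p.2 with h4 | h4
        · rw [h4, h0, mul_zero, mul_zero]
        · rw [ih p.1 (by omega)]
      rw [h3, ← h2] at h1
      have h5 : (2 * ((k : ℝ) + 1)) ≠ 0 := by positivity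
      have h6 := congrArg (fun a => (2 * ((k : ℝ) + 1))⁻¹ • a) h1
      simp only [smul_smul, inv_mul_cancel₀ h5, one_smul] at h6
      exact h6

/-- evaluation of a power series at `x₀ X` -/
def ev (x₀ : H) : PowerSeries ℝ →+* PowerSeries H :=
  (rescale x₀).comp (PowerSeries.map (algebraMap ℝ H))

theorem coeff_ev (x₀ : H) (f : PowerSeries ℝ) (k : ℕ) :
    coeff k (ev x₀ f) = x₀ ^ k * algebraMap ℝ H (coeff k f) := by
  rw [ev, RingHom.comp_apply, coeff_rescale, coeff_map]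

theorem ev_X (x₀ : H) : ev x₀ X = C x₀ * X := by
  ext k
  rw [coeff_ev, coeff_X, coeff_C_mul, coeff_X]
  split_ifs with h
  · rw [h, pow_one, map_one]
  · rw [map_zero, mul_zero, mul_zero]

theorem ev_C (x₀ : H) (a : ℝ) : ev x₀ (C a) = C (algebraMap ℝ H a) := by
  ext k
  rw [coeff_ev, coeff_C, coeff_C]
  split_ifs with h
  · rw [h, pow_zero, one_mul]
  · rw [map_zero, mul_zero]

theorem ev_LD {x₀ : H} {F S : PowerSeries ℝ} (h : LD F S) : LD (ev x₀ F) (ev x₀ S) := by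
  have h1 : X * d⁄dX H (ev x₀ F) = ev x₀ (X * d⁄dX ℝ F) := by
    ext k
    cases k with
    | zero => rw [coeff_zero_X_mul, coeff_ev, coeff_zero_X_mul, map_zero, mul_zero]
    | succ k =>
      rw [coeff_succ_X_mul, coeff_derivative, coeff_ev, coeff_ev, coeff_succ_X_mul,
        coeff_derivative, map_mul, map_add, map_one, map_natCast]
      ring
  have h2 : ev x₀ (2 * X * d⁄dX ℝ F) = ev x₀ (-(F * S)) := congrArg (ev x₀) h
  rw [map_neg, map_mul (ev x₀) F S, mul_assoc, map_mul, map_ofNat, ← h1, ← mul_assoc] at h2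
  exact h2

end Uniq

/-! ### the total Pontryagin series -/

/-- the coefficients determined by the power sums -/
def pit (t : ℕ → ℝ) : ℕ → ℝ
  | 0 => 1
  | (k + 1) => -(∑ j : Fin (k + 1), t (j + 1) * pit t (k - j)) / (2 * (k + 1))
  termination_by k => k
  decreasing_by omega

/-- the total series -/
def Pit (t : ℕ → ℝ) : PowerSeries ℝ := PowerSeries.mk (pit t)

/-- the power sums as a series -/
def Tt (t : ℕ → ℝ) : PowerSeries ℝ := X * PowerSeries.mk fun j => t (j + 1)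

theorem coeff_Tt (t : ℕ → ℝ) (j : ℕ) : coeff (j + 1) (Tt t) = t (j + 1) := by
  rw [Tt, coeff_succ_X_mul, coeff_mk]

theorem coeff_zero_Tt (t : ℕ → ℝ) : coeff 0 (Tt t) = 0 := by
  rw [Tt, coeff_zero_X_mul]

/-- Newton's recursion as a logarithmic derivative -/
theorem LD_mk {H : Type*} [CommRing H] [Algebra ℝ H] {g s : ℕ → H}
    (h : ∀ k : ℕ, (2 * ((k : ℝ) + 1)) • g (k + 1) =
      -∑ j ∈ range (k + 1), s (j + 1) * g (k - j)) :
    LD (PowerSeries.mk g) (X * PowerSeries.mk fun j => s (j + 1)) := by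
  ext k
  rw [map_neg, mul_assoc]
  have h2 : (2 : PowerSeries H) = C 2 := rfl
  rw [h2, coeff_C_mul, mul_left_comm]
  cases k with
  | zero => rw [coeff_zero_X_mul, coeff_zero_X_mul, mul_zero, neg_zero]
  | succ k =>
    rw [coeff_succ_X_mul, coeff_derivative, coeff_succ_X_mul, coeff_mk]
    have h3 := h k
    have h4 : coeff k (PowerSeries.mk g * PowerSeries.mk fun j => s (j + 1)) =
        ∑ j ∈ range (k + 1), s (j + 1) * g (k - j) := by
      rw [mul_comm, coeff_mul, Finset.Nat.sum_antidiagonal_eq_sum_range_succ_mk]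
      exact Finset.sum_congr rfl fun j _ => by rw [coeff_mk, coeff_mk]
    rw [h4, ← h3, Algebra.smul_def, map_mul, map_add, map_one, map_natCast, map_ofNat]
    ring

theorem LD_Pit (t : ℕ → ℝ) : LD (Pit t) (Tt t) := by
  refine LD_mk (H := ℝ) (g := pit t) (s := t) fun k => ?_
  rw [pit, smul_eq_mul, mul_div_cancel₀ _ (by positivity),
    Fin.sum_univ_eq_sum_range (fun j => t (j + 1) * pit t (k - j)) (k + 1)]

theorem Pit_zero (t : ℕ → ℝ) : coeff 0 (Pit t) = 1 := by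
  rw [Pit, coeff_mk, pit]

/-! ### the geometric relations -/

variable {H : Type*} [CommRing H] [Algebra ℝ H]

/-- the relations -/
structure Rel (n : ℕ) (c : ℝ) (x₀ x₁ x₂ y₁ z₁ y₂ z₂ : H) (t : ℕ → ℝ) (g : ℕ → H) : Prop where
  n₁ : x₁ ^ (n + 1) = 0
  n₂ : x₂ ^ (n + 1) = 0
  s₁ : y₁ ^ 2 + z₁ ^ 2 = (2 * c) • (x₀ + x₁)
  s₂ : y₂ ^ 2 + z₂ ^ 2 = (2 * c) • (x₀ + x₂)
  p₁ : y₁ ^ 2 * z₁ ^ 2 = (x₀ - x₁) ^ 2
  p₂ : y₂ ^ 2 * z₂ ^ 2 = (x₀ - x₂) ^ 2
  g0 : g 0 = 1
  newton : ∀ k : ℕ, (2 * ((k : ℝ) + 1)) • g (k + 1) = -∑ j ∈ range (k + 1),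
    (t (j + 1) • x₀ ^ (j + 1) - 2 * (y₁ ^ (2 * (j + 1)) + z₁ ^ (2 * (j + 1))) -
      2 * (y₂ ^ (2 * (j + 1)) + z₂ ^ (2 * (j + 1)))) * g (k - j)
  rel : ∀ k, 2 * n < k + 4 → (x₁ - x₂) * g k = 0

/-- the coefficient of `x₀ⁿ x₁ⁿ x₂ⁿ` in `x₀ᵃ x₁ᵇ x₂ᵈ (x₀ - x₁) (x₀ - x₂)` -/
def NN (n a b d : ℕ) : ℝ :=
  (if a + 2 = n ∧ b = n ∧ d = n then 1 else 0) - (if a + 1 = n ∧ b + 1 = n ∧ d = n then 1 else 0) -
    (if a + 1 = n ∧ b = n ∧ d + 1 = n then 1 else 0) +
    (if a = n ∧ b + 1 = n ∧ d + 1 = n then 1 else 0)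

/-- the values of the integral -/
structure Val (n : ℕ) (κ : ℝ) (x₀ x₁ x₂ y₁ y₂ : H) (L : H →ₗ[ℝ] ℝ) : Prop where
  v : ∀ a b d, L (x₀ ^ a * x₁ ^ b * x₂ ^ d * (y₁ ^ 2 * y₂ ^ 2)) = κ * NN n a b d

/-- the series `1 - 2 c (x₀ + x) s + (x₀ - x)² s²` -/
def Ds (c : ℝ) (x₀ x : H) : PowerSeries H :=
  ev x₀ (Q c) - ev x₀ (B c) * (C x * X) + (C x * X) ^ 2

theorem ev_Q (c : ℝ) (x₀ : H) :
    ev x₀ (Q c) = 1 - C (algebraMap ℝ H (2 * c)) * (C x₀ * X) + (C x₀ * X) ^ 2 := by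
  rw [Q, map_add, map_sub, map_one, map_mul (ev x₀) (C (2 * c)) X, map_pow, ev_C, ev_X]

theorem ev_B (c : ℝ) (x₀ : H) :
    ev x₀ (B c) = C (algebraMap ℝ H (2 * c)) + 2 * (C x₀ * X) := by
  rw [B, map_add, map_mul (ev x₀) (C 2) X, ev_C, ev_C, ev_X, map_ofNat, map_ofNat]

theorem Ds_eq (c : ℝ) {x₀ x y z : H} (hs : y ^ 2 + z ^ 2 = (2 * c) • (x₀ + x))
    (hp : y ^ 2 * z ^ 2 = (x₀ - x) ^ 2) :
    Ds c x₀ x = (1 - C (y ^ 2) * X) * (1 - C (z ^ 2) * X) := by
  have h1 : (C (y ^ 2) + C (z ^ 2) : PowerSeries H) =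
      C (algebraMap ℝ H (2 * c)) * (C x₀ + C x) := by
    rw [← map_add, hs, Algebra.smul_def, map_mul, map_add]
  have h2 : (C (y ^ 2) * C (z ^ 2) : PowerSeries H) = (C x₀ - C x) ^ 2 := by
    rw [← map_mul, hp, map_pow, map_sub]
  rw [Ds, ev_Q, ev_B]
  linear_combination X * h1 - X ^ 2 * h2

theorem LD_Ds (c : ℝ) {x₀ x y z : H} (hs : y ^ 2 + z ^ 2 = (2 * c) • (x₀ + x))
    (hp : y ^ 2 * z ^ 2 = (x₀ - x) ^ 2) : LD (Ds c x₀ x) (ps (y ^ 2) + ps (z ^ 2)) := by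
  rw [Ds_eq c hs hp]
  exact (LD_lin _).mul (LD_lin _)

/-- the truncated inverse -/
def Es (n : ℕ) (c : ℝ) (x₀ x : H) : PowerSeries H :=
  ∑ j ∈ range (n + 1), ev x₀ (E c j) * (C x * X) ^ j

theorem Ds_mul_sum (c : ℝ) (x₀ x : H) (N : ℕ) :
    Ds c x₀ x * ∑ j ∈ range (N + 2), ev x₀ (E c j) * (C x * X) ^ j =
      1 - (ev x₀ (B c) * ev x₀ (E c (N + 1)) - ev x₀ (E c N)) * (C x * X) ^ (N + 2) +
        ev x₀ (E c (N + 1)) * (C x * X) ^ (N + 3) := by
  induction N with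
  | zero =>
    have h0 : ev x₀ (Q c) * ev x₀ (E c 0) = 1 := by rw [← map_mul, Q_E_zero, map_one]
    have h1 : ev x₀ (Q c) * ev x₀ (E c 1) = ev x₀ (B c) * ev x₀ (E c 0) := by
      rw [← map_mul, Q_E_one, map_mul]
    rw [Finset.sum_range_succ, Finset.sum_range_succ, Finset.sum_range_zero, Ds]
    linear_combination h0 + (C x * X) * h1
  | succ N ih =>
    have h1 : ev x₀ (Q c) * ev x₀ (E c (N + 2)) =
        ev x₀ (B c) * ev x₀ (E c (N + 1)) - ev x₀ (E c N) := by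
      rw [← map_mul, Q_E, map_sub, map_mul]
    rw [Finset.sum_range_succ, mul_add, ih, Ds]
    linear_combination ((C x * X) ^ (N + 2)) * h1

theorem Ds_mul_Es {n : ℕ} (hn : 1 ≤ n) (c : ℝ) (x₀ : H) {x : H} (hx : x ^ (n + 1) = 0) :
    Ds c x₀ x * Es n c x₀ x = 1 := by
  obtain ⟨m, rfl⟩ := Nat.exists_eq_add_of_le' hn
  have h1 : (C x * X : PowerSeries H) ^ (m + 2) = 0 := by
    rw [mul_pow, ← map_pow, hx, map_zero, zero_mul]
  have h2 : (C x * X : PowerSeries H) ^ (m + 3) = 0 := by rw [pow_succ, h1, zero_mul]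
  rw [Es, Ds_mul_sum, h1, h2, mul_zero, mul_zero, sub_zero, add_zero]

/-- the total class of `T - P₁ - P₂` -/
theorem Rel.mk_eq {n : ℕ} {c : ℝ} {x₀ x₁ x₂ y₁ z₁ y₂ z₂ : H} {t : ℕ → ℝ} {g : ℕ → H}
    (R : Rel n c x₀ x₁ x₂ y₁ z₁ y₂ z₂ t g) :
    PowerSeries.mk g * (Ds c x₀ x₁ * Ds c x₀ x₂) = ev x₀ (Pit t) := by
  have h1 := LD_mk (g := g) (s := fun j => t j • x₀ ^ j - 2 * (y₁ ^ (2 * j) + z₁ ^ (2 * j)) -
      2 * (y₂ ^ (2 * j) + z₂ ^ (2 * j))) R.newton
  have h2 := h1.mul ((LD_Ds c R.s₁ R.p₁).mul (LD_Ds c R.s₂ R.p₂))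
  have h3 : (X * PowerSeries.mk fun j => (t (j + 1) • x₀ ^ (j + 1) -
      2 * (y₁ ^ (2 * (j + 1)) + z₁ ^ (2 * (j + 1))) -
      2 * (y₂ ^ (2 * (j + 1)) + z₂ ^ (2 * (j + 1))))) +
      (ps (y₁ ^ 2) + ps (z₁ ^ 2) + (ps (y₂ ^ 2) + ps (z₂ ^ 2))) = ev x₀ (Tt t) := by
    ext k
    cases k with
    | zero =>
      simp only [map_add, coeff_zero_X_mul, coeff_ev, coeff_zero_Tt, ps, map_zero, mul_zero]
      simp
    | succ k =>
      have h4 : ∀ y : H, coeff (k + 1) (ps (y ^ 2)) = 2 * y ^ (2 * (k + 1)) := fun y => by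
        have h5 : (2 : PowerSeries H) = C 2 := rfl
        rw [ps, h5, coeff_C_mul, mul_assoc, coeff_C_mul, coeff_succ_X_mul, coeff_mk, ← pow_mul,
          mul_add, mul_one, pow_add]
        ring
      simp only [map_add, h4]
      rw [coeff_succ_X_mul, coeff_mk, coeff_ev, coeff_Tt, Algebra.smul_def]
      ring
  refine LD.unique (h2.congr h3) (ev_LD (LD_Pit t)) ?_ ?_
  · rw [coeff_ev, coeff_zero_Tt, map_zero, mul_zero]
  · rw [coeff_zero_eq_constantCoeff_apply, map_mul, map_mul,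
      ← coeff_zero_eq_constantCoeff_apply (PowerSeries.mk g), coeff_mk, R.g0, one_mul, Ds_eq c R.s₁
      R.p₁, Ds_eq c R.s₂ R.p₂, coeff_ev, Pit_zero]
    simp

theorem Rel.mk_eq' {n : ℕ} (hn : 1 ≤ n) {c : ℝ} {x₀ x₁ x₂ y₁ z₁ y₂ z₂ : H} {t : ℕ → ℝ}
    {g : ℕ → H} (R : Rel n c x₀ x₁ x₂ y₁ z₁ y₂ z₂ t g) :
    PowerSeries.mk g = ev x₀ (Pit t) * (Es n c x₀ x₁ * Es n c x₀ x₂) := by
  have h1 := Ds_mul_Es hn c x₀ R.n₁
  have h2 := Ds_mul_Es hn c x₀ R.n₂
  rw [← R.mk_eq]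
  linear_combination (-PowerSeries.mk g * (Ds c x₀ x₂ * Es n c x₀ x₂)) * h1 -
    PowerSeries.mk g * h2

/-- the functional on power series -/
def ell (n m : ℕ) (x₀ y₁ y₂ : H) (L : H →ₗ[ℝ] ℝ) (F : PowerSeries H) : ℝ :=
  L (y₁ ^ 2 * y₂ ^ 2 * x₀ ^ (n - m) * coeff (2 * n - 2 + m) F)

theorem ell_sub (n m : ℕ) (x₀ y₁ y₂ : H) (L : H →ₗ[ℝ] ℝ) (F G : PowerSeries H) :
    ell n m x₀ y₁ y₂ L (F - G) = ell n m x₀ y₁ y₂ L F - ell n m x₀ y₁ y₂ L G := by
  rw [ell, map_sub, mul_sub, map_sub]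
  rfl

theorem ell_sum (n m : ℕ) (x₀ y₁ y₂ : H) (L : H →ₗ[ℝ] ℝ) {ι : Type*} (s : Finset ι)
    (F : ι → PowerSeries H) :
    ell n m x₀ y₁ y₂ L (∑ i ∈ s, F i) = ∑ i ∈ s, ell n m x₀ y₁ y₂ L (F i) := by
  rw [ell, map_sum, Finset.mul_sum, map_sum]
  rfl

theorem coeff_ev_mul (x₀ x₁ x₂ : H) (f : PowerSeries ℝ) (b d K : ℕ) :
    coeff K (ev x₀ f * ((C x₁ * X) ^ b * (C x₂ * X) ^ d)) =
      if b + d ≤ K then coeff (K - b - d) f • (x₀ ^ (K - b - d) * (x₁ ^ b * x₂ ^ d)) else 0 := by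
  have h1 : ev x₀ f * ((C x₁ * X) ^ b * (C x₂ * X) ^ d) =
      C (x₁ ^ b * x₂ ^ d) * (ev x₀ f * X ^ (b + d)) := by
    rw [map_mul, map_pow, map_pow]
    ring
  rw [h1, coeff_C_mul, coeff_mul_X_pow']
  split_ifs with h
  · rw [coeff_ev, Nat.sub_sub, Algebra.smul_def]
    ring
  · rw [mul_zero]

theorem ell_ev {n m : ℕ} (hm : m ≤ n) (hn : 2 ≤ n) {κ : ℝ} {x₀ x₁ x₂ y₁ y₂ : H} {L : H →ₗ[ℝ] ℝ}
    (V : Val n κ x₀ x₁ x₂ y₁ y₂ L) (f : PowerSeries ℝ) (b d : ℕ) :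
    ell n m x₀ y₁ y₂ L (ev x₀ f * ((C x₁ * X) ^ b * (C x₂ * X) ^ d)) =
      κ * coeff m (f * (th n b * th n d)) := by
  rw [ell, coeff_ev_mul]
  by_cases hbd : b + d ≤ 2 * n - 2 + m
  · rw [if_pos hbd]
    have h1 : y₁ ^ 2 * y₂ ^ 2 * x₀ ^ (n - m) * (coeff (2 * n - 2 + m - b - d) f •
        (x₀ ^ (2 * n - 2 + m - b - d) * (x₁ ^ b * x₂ ^ d))) =
        coeff (2 * n - 2 + m - b - d) f • (x₀ ^ (n - m + (2 * n - 2 + m - b - d)) * x₁ ^ b *
          x₂ ^ d * (y₁ ^ 2 * y₂ ^ 2)) := by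
      rw [mul_smul_comm, pow_add]
      congr 1
      ring
    rw [h1, map_smul, V.v, smul_eq_mul, NN, th, th]
    rcases eq_or_ne b n with hb | hb
    · rcases eq_or_ne d n with hd | hd
      · rw [if_pos hb, if_pos hd, if_pos ⟨by omega, hb, hd⟩, if_neg (by omega), if_neg (by omega),
          if_neg (by omega)]
        obtain ⟨j, hj⟩ : ∃ j, m = j + 2 := ⟨m - 2, by omega⟩
        have h2 : 2 * n - 2 + m - b - d = j := by omega
        rw [h2, hj, ← mul_assoc f X X, coeff_succ_mul_X, coeff_succ_mul_X]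
        ring
      · rcases eq_or_ne (d + 1) n with hd' | hd'
        · rw [if_pos hb, if_neg hd, if_pos hd', if_neg (by omega), if_neg (by omega),
            if_pos ⟨by omega, hb, hd'⟩, if_neg (by omega)]
          obtain ⟨j, hj⟩ : ∃ j, m = j + 1 := ⟨m - 1, by omega⟩
          have h2 : 2 * n - 2 + m - b - d = j := by omega
          rw [h2, hj, mul_neg, mul_one, mul_neg, map_neg, coeff_succ_mul_X]
          ring
        · rw [if_neg hd, if_neg hd', if_neg (by omega), if_neg (by omega),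
            if_neg (by omega), if_neg (by omega), mul_zero, mul_zero, map_zero]
          ring
    · rcases eq_or_ne (b + 1) n with hb' | hb'
      · rcases eq_or_ne d n with hd | hd
        · rw [if_neg hb, if_pos hb', if_pos hd, if_neg (by omega), if_pos ⟨by omega, hb', hd⟩,
            if_neg (by omega), if_neg (by omega)]
          obtain ⟨j, hj⟩ : ∃ j, m = j + 1 := ⟨m - 1, by omega⟩
          have h2 : 2 * n - 2 + m - b - d = j := by omega
          rw [h2, hj, neg_one_mul, mul_neg, map_neg, coeff_succ_mul_X]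
          ring
        · rcases eq_or_ne (d + 1) n with hd' | hd'
          · rw [if_neg hb, if_pos hb', if_neg hd, if_pos hd', if_neg (by omega), if_neg (by omega),
              if_neg (by omega), if_pos ⟨by omega, hb', hd'⟩]
            have h2 : 2 * n - 2 + m - b - d = m := by omega
            rw [h2, neg_mul_neg, mul_one, mul_one]
            ring
          · rw [if_neg hd, if_neg hd', if_neg (by omega), if_neg (by omega),
              if_neg (by omega), if_neg (by omega), mul_zero, mul_zero, map_zero]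
            ring
      · rw [if_neg hb, if_neg hb', if_neg (by omega), if_neg (by omega),
          if_neg (by omega), if_neg (by omega), zero_mul, mul_zero, map_zero]
        ring
  · rw [if_neg hbd, mul_zero, map_zero, th, th]
    rcases eq_or_ne b n with hb | hb
    · rcases eq_or_ne d n with hd | hd
      · rw [if_pos hb, if_pos hd]
        have h2 : (X * X : PowerSeries ℝ) = X ^ 2 := by ring
        rw [h2, coeff_mul_X_pow', if_neg (by omega), mul_zero]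
      · rcases eq_or_ne (d + 1) n with hd' | hd'
        · rw [if_pos hb, if_neg hd, if_pos hd']
          have h2 : m = 0 := by omega
          rw [h2, mul_neg, mul_one, mul_neg, map_neg, coeff_zero_mul_X, neg_zero, mul_zero]
        · rw [if_neg hd, if_neg hd', mul_zero, mul_zero, map_zero, mul_zero]
    · rcases eq_or_ne (b + 1) n with hb' | hb'
      · rcases eq_or_ne d n with hd | hd
        · rw [if_neg hb, if_pos hb', if_pos hd]
          have h2 : m = 0 := by omega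
          rw [h2, neg_one_mul, mul_neg, map_neg, coeff_zero_mul_X, neg_zero, mul_zero]
        · rcases eq_or_ne (d + 1) n with hd' | hd'
          · exfalso; omega
          · rw [if_neg hd, if_neg hd', mul_zero, mul_zero, map_zero, mul_zero]
      · rw [if_neg hb, if_neg hb', zero_mul, mul_zero, map_zero, mul_zero]

/-- the integral of the relation -/
theorem Rel.det {n : ℕ} (hn : 2 ≤ n) {c κ : ℝ} (hκ : κ ≠ 0) {x₀ x₁ x₂ y₁ z₁ y₂ z₂ : H}
    {t : ℕ → ℝ} {g : ℕ → H} (R : Rel n c x₀ x₁ x₂ y₁ z₁ y₂ z₂ t g) {L : H →ₗ[ℝ] ℝ}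
    (V : Val n κ x₀ x₁ x₂ y₁ y₂ L) {m : ℕ} (hm0 : 1 ≤ m) (hm : m ≤ n) :
    coeff m (Pit t * (al c n 1 ^ 2 - al c n 0 * al c n 2)) = 0 := by
  set u₁ : PowerSeries H := C x₁ * X with hu₁
  set u₂ : PowerSeries H := C x₂ * X with hu₂
  have key : ell n m x₀ y₁ y₂ L (PowerSeries.mk g * (u₁ ^ 1 * u₂ ^ 1) -
      PowerSeries.mk g * (u₁ ^ 0 * u₂ ^ 2)) = 0 := by
    have h1 : PowerSeries.mk g * (u₁ ^ 1 * u₂ ^ 1) - PowerSeries.mk g * (u₁ ^ 0 * u₂ ^ 2) =
        C (x₂ * (x₁ - x₂)) * (PowerSeries.mk g * X ^ 2) := by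
      rw [hu₁, hu₂, map_mul, map_sub]
      ring
    rw [h1, ell, coeff_C_mul]
    obtain ⟨j, hj⟩ : ∃ j, 2 * n - 2 + m = j + 2 := ⟨2 * n - 4 + m, by omega⟩
    rw [hj, coeff_mul_X_pow, coeff_mk]
    have h2 := R.rel j (by omega)
    have h3 : y₁ ^ 2 * y₂ ^ 2 * x₀ ^ (n - m) * (x₂ * (x₁ - x₂) * g j) =
        y₁ ^ 2 * y₂ ^ 2 * x₀ ^ (n - m) * x₂ * ((x₁ - x₂) * g j) := by ring
    rw [h3, h2, mul_zero, map_zero]
  have expand : ∀ p q : ℕ, ell n m x₀ y₁ y₂ L (PowerSeries.mk g * (u₁ ^ p * u₂ ^ q)) =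
      κ * coeff m (Pit t * (al c n p * al c n q)) := by
    intro p q
    have h1 : PowerSeries.mk g * (u₁ ^ p * u₂ ^ q) = ∑ i ∈ range (n + 1), ∑ j ∈ range (n + 1),
        ev x₀ (Pit t * (E c i * E c j)) * (u₁ ^ (i + p) * u₂ ^ (j + q)) := by
      rw [R.mk_eq' (by omega), Es, Es, Finset.sum_mul_sum, Finset.mul_sum, Finset.sum_mul]
      refine Finset.sum_congr rfl fun i _ => ?_
      rw [Finset.mul_sum, Finset.sum_mul]
      refine Finset.sum_congr rfl fun j _ => ?_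
      rw [map_mul, map_mul, ← hu₁, ← hu₂]
      ring
    rw [h1, ell_sum]
    have h2 : al c n p * al c n q = ∑ i ∈ range (n + 1), ∑ j ∈ range (n + 1),
        (E c i * E c j) * (th n (i + p) * th n (j + q)) := by
      rw [al, al, Finset.sum_mul_sum]
      refine Finset.sum_congr rfl fun i _ => Finset.sum_congr rfl fun j _ => ?_
      ring
    rw [h2, Finset.mul_sum, map_sum, Finset.mul_sum]
    refine Finset.sum_congr rfl fun i _ => ?_
    rw [ell_sum, Finset.mul_sum, map_sum, Finset.mul_sum]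
    refine Finset.sum_congr rfl fun j _ => ?_
    rw [hu₁, hu₂, ell_ev hm hn V, mul_assoc]
  rw [ell_sub, expand, expand] at key
  have h5 : κ * coeff m (Pit t * (al c n 1 ^ 2 - al c n 0 * al c n 2)) = 0 := by
    rw [mul_sub, map_sub, mul_sub, sq]
    exact key
  exact (mul_eq_zero.1 h5).resolve_left hκ

/-! ### the power sums -/

theorem X_mul_dvd {N : ℕ} {F : PowerSeries ℝ} (h : X ^ N ∣ F) : X ^ N ∣ X * d⁄dX ℝ F := by
  rw [X_pow_dvd_iff] at h ⊢
  intro m hm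
  cases m with
  | zero => rw [coeff_zero_X_mul]
  | succ m => rw [coeff_succ_X_mul, coeff_derivative, h (m + 1) hm, zero_mul]

theorem LD.trunc {F G S T : PowerSeries ℝ} (h : LD F S) (h' : LD G T) {N : ℕ}
    (hd : X ^ N ∣ F - G) (hG : constantCoeff G ≠ 0) : X ^ N ∣ S - T := by
  have h1 : G * (S - T) = -((F - G) * S) - 2 * (X * d⁄dX ℝ (F - G)) := by
    unfold LD at h h'
    rw [map_sub]
    linear_combination h - h'
  have h2 : X ^ N ∣ G * (S - T) := by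
    rw [h1]
    exact dvd_sub ((hd.mul_right S).neg_right) ((X_mul_dvd hd).mul_left 2)
  have h3 : S - T = G⁻¹ * (G * (S - T)) := by
    rw [← mul_assoc, PowerSeries.inv_mul_cancel _ hG, one_mul]
  rw [h3]
  exact h2.mul_left _

theorem LD.pow {F S : PowerSeries ℝ} (h : LD F S) (n : ℕ) : LD (F ^ n) ((n : PowerSeries ℝ) * S) := by
  induction n with
  | zero =>
    unfold LD
    rw [pow_zero, Nat.cast_zero, zero_mul, mul_zero, neg_zero]
    have : d⁄dX ℝ (1 : PowerSeries ℝ) = 0 := by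
      rw [← map_one (C (R := ℝ))]
      exact derivative_C
    rw [this, mul_zero]
  | succ n ih =>
    rw [pow_succ]
    refine (ih.mul h).congr ?_
    push_cast
    ring

theorem Q_mul_uu (c : ℝ) :
    Q c * PowerSeries.mk (fun k => S2X.uu c (k + 1)) = C (2 * c) - C 2 * X := by
  ext k
  rw [Q, add_mul, sub_mul, one_mul, mul_assoc, pow_two, mul_assoc, map_add, map_sub, coeff_C_mul,
    map_sub, coeff_C_mul, coeff_C]
  rcases k with _ | _ | k
  · rw [coeff_zero_X_mul, coeff_zero_X_mul, coeff_zero_X, coeff_mk, if_pos rfl, S2X.uu]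
    ring
  · rw [coeff_succ_X_mul, coeff_succ_X_mul, coeff_zero_X_mul, coeff_one_X, coeff_mk, coeff_mk,
      if_neg (by omega), show S2X.uu c (0 + 1 + 1) = 2 * c * (2 * c) - 2 from rfl,
      show S2X.uu c (0 + 1) = 2 * c from rfl]
    ring
  · rw [coeff_succ_X_mul, coeff_succ_X_mul, coeff_succ_X_mul, coeff_mk, coeff_mk, coeff_mk,
      if_neg (by omega), coeff_X, if_neg (by omega), S2X.uu]
    ring

theorem LD_Q (c : ℝ) :
    LD (Q c) (C 2 * (X * PowerSeries.mk (fun k => S2X.uu c (k + 1)))) := by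
  have h1 : d⁄dX ℝ (Q c) = -(C (2 * c) - C 2 * X) := by
    ext k
    rw [coeff_derivative, Q, map_add, map_sub, coeff_one, if_neg (by omega), coeff_C_mul,
      map_neg, map_sub, coeff_C, coeff_C_mul, coeff_X, coeff_X_pow, coeff_X]
    rcases k with _ | _ | k
    · simp
    · norm_num
    · simp
  unfold LD
  rw [h1, ← Q_mul_uu]
  have h2 : (2 : PowerSeries ℝ) = C 2 := rfl
  rw [h2]
  ring

/-- **the power sums of the tangent bundle** -/
theorem Rel.tau_eq {n : ℕ} (hn : 2 ≤ n) {c κ : ℝ} (hκ : κ ≠ 0) {x₀ x₁ x₂ y₁ z₁ y₂ z₂ : H}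
    {t : ℕ → ℝ} {g : ℕ → H} (R : Rel n c x₀ x₁ x₂ y₁ z₁ y₂ z₂ t g) {L : H →ₗ[ℝ] ℝ}
    (V : Val n κ x₀ x₁ x₂ y₁ y₂ L) {j : ℕ} (hj0 : 1 ≤ j) (hj : j ≤ n) :
    t j = S2X.tau n c j := by
  set K := al c n 1 ^ 2 - al c n 0 * al c n 2 with hK
  have h1 : Q c ^ (n + 1) * K = 1 - C (4 * c) * X := al_det c hn
  have hQ0 : constantCoeff (Q c) = 1 := by simp [Q]
  have hK0 : constantCoeff K = 1 := by
    have := congrArg constantCoeff h1
    rw [map_mul, map_pow, hQ0, one_pow, one_mul] at this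
    rw [this]
    simp
  have h2 : X ^ (n + 1) ∣ Pit t * K - 1 := by
    rw [X_pow_dvd_iff]
    intro m hm
    rcases Nat.eq_zero_or_pos m with h0 | h0
    · rw [h0, map_sub, coeff_zero_eq_constantCoeff_apply, map_mul, hK0,
        ← coeff_zero_eq_constantCoeff_apply (Pit t), Pit_zero]
      simp
    · rw [map_sub, R.det hn hκ V h0 (by omega), coeff_one, if_neg (by omega), sub_zero]
  have h3 : X ^ (n + 1) ∣ Pit t * (1 - C (4 * c) * X) - Q c ^ (n + 1) := by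
    have : Pit t * (1 - C (4 * c) * X) - Q c ^ (n + 1) = (Pit t * K - 1) * Q c ^ (n + 1) := by
      rw [← h1]
      ring
    rw [this]
    exact h2.mul_right _
  have h4 := ((LD_Pit t).mul (LD_lin (4 * c))).trunc ((LD_Q c).pow (n + 1)) h3
    (by rw [map_pow, hQ0, one_pow]; exact one_ne_zero)
  obtain ⟨i, rfl⟩ := Nat.exists_eq_add_of_le' hj0
  have h5 := X_pow_dvd_iff.1 h4 (i + 1) (by omega)
  have h6 : (2 : PowerSeries ℝ) = C 2 := rfl
  have h7 : ((n + 1 : ℕ) : PowerSeries ℝ) = C ((n + 1 : ℕ) : ℝ) := (map_natCast C _).symm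
  rw [map_sub, map_add, coeff_Tt, ps, h6, coeff_C_mul, mul_assoc, coeff_C_mul, coeff_succ_X_mul,
    coeff_mk, h7, coeff_C_mul, coeff_C_mul, coeff_succ_X_mul, coeff_mk] at h5
  rw [S2X.tau, pow_succ]
  push_cast at h5
  linarith

end

end Vale.Agent.P231.S2T
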