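import Vale.Agent.P231.S2T.Fam
import Vale.Agent.P231.X3.SF

/-!
# P231, stage 2, S2-T (T1, part 2): classes of idempotents which are basic for a family of flows
-/

set_option linter.unusedSectionVars false
set_option linter.unusedVariables false

open Matrix Set Filter Topology
open scoped ContDiff

namespace Vale.Agent.P231.S2T

open Fm W ChW H584 X3

variable {X Y : Type*} {D : Dif X} {D' : Dif Y} {ι : Type*}
variable {n m : Type*} [Fintype n] [DecidableEq n] [Fintype m] [DecidableEq m]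

/-- basic idempotents -/
structure IB (Ψ : Fam D ι) (P : Matrix n n (CF D)) : Prop where
  idem : Idem P
  bas : ∀ i, BasicM (Ψ.Φ i) (Ψ.map i) P

namespace IB

variable {Ψ : Fam D ι} {P : Matrix n n (CF D)} {Q : Matrix m m (CF D)}

/-- the real Chern character forms -/
noncomputable def cl (h : IB Ψ P) (k : ℕ) : Ψ.Bas :=
  ⟨sF k P, sF_even h.idem k, sF_closed h.idem k, fun i => sF_basic (h.bas i) k⟩

theorem coe_cl (h : IB Ψ P) (k : ℕ) : (h.cl k : Form D) = sF k P := rfl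

theorem cl_congr {P' : Matrix n n (CF D)} (h : IB Ψ P) (h' : IB Ψ P') (e : P = P') (k : ℕ) :
    h.cl k = h'.cl k := by
  subst e
  rfl

/-- isomorphic bundles have the same classes -/
theorem cl_iso (hP : IB Ψ P) (hQ : IB Ψ Q) {a : Matrix m n (CF D)} {b : Matrix n m (CF D)}
    (h : IsoData P Q a b) (ba : ∀ i, BasicM (Ψ.Φ i) (Ψ.map i) a)
    (bb : ∀ i, BasicM (Ψ.Φ i) (Ψ.map i) b) (k : ℕ) : Ψ.qm (hQ.cl k) = Ψ.qm (hP.cl k) := by
  refine Ψ.qm_eq_of (η := (nrm k • Tiso k P Q a b).re)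
    (fun i => ((((hP.bas i).Tiso (hQ.bas i) (ba i) (bb i) k)).smul _).re) ?_
  have h1 : sC k Q - sC k P = GDA.d (nrm k • Tiso k P Q a b) := by
    rw [mapA_smulC, ← ch_iso h, smul_sub]
    rfl
  exact congrArg Cx.re h1

theorem fromBlocks (hP : IB Ψ P) (hQ : IB Ψ Q) : IB Ψ (fromBlocks P 0 0 Q) :=
  ⟨⟨Ev.fromBlocks hP.idem.ev Ev.zero Ev.zero hQ.idem.ev, by
    rw [fromBlocks_multiply, hP.idem.idem, hQ.idem.idem, Matrix.mul_zero, Matrix.zero_mul,
      Matrix.mul_zero, Matrix.zero_mul, Matrix.mul_zero, Matrix.zero_mul, add_zero, add_zero,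
      zero_add, zero_add]⟩, fun i => (hP.bas i).fromBlocks (hQ.bas i)⟩

theorem cl_fromBlocks (hP : IB Ψ P) (hQ : IB Ψ Q) (k : ℕ) :
    (hP.fromBlocks hQ).cl k = hP.cl k + hQ.cl k := Subtype.ext (sF_fromBlocks P Q k)

theorem add {P Q : Matrix n n (CF D)} (hP : IB Ψ P) (hQ : IB Ψ Q) (h1 : P * Q = 0)
    (h2 : Q * P = 0) : IB Ψ (P + Q) :=
  ⟨⟨hP.idem.ev.add hQ.idem.ev, by
    rw [Matrix.add_mul, Matrix.mul_add, Matrix.mul_add, h1, h2, hP.idem.idem, hQ.idem.idem,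
      add_zero, zero_add]⟩, fun i => (hP.bas i).add (hQ.bas i)⟩

theorem cl_add {P Q : Matrix n n (CF D)} (hP : IB Ψ P) (hQ : IB Ψ Q) (h1 : P * Q = 0)
    (h2 : Q * P = 0) (k : ℕ) :
    Ψ.qm ((hP.add hQ h1 h2).cl k) = Ψ.qm (hP.cl k) + Ψ.qm (hQ.cl k) := by
  rw [← map_add, ← cl_fromBlocks]
  exact (cl_iso (hP.add hQ h1 h2) (hP.fromBlocks hQ) (IsoData.of_add hP.idem hQ.idem h1 h2)
    (fun i => (hP.bas i).fromRows (hQ.bas i)) (fun i => (hP.bas i).fromCols (hQ.bas i)) k).symm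

theorem cl_odd {P : Matrix n n (Form D)} (hP : IB Ψ (P.map Cx.of)) {k : ℕ} (hk : Odd k) :
    hP.cl k = 0 := Subtype.ext (sF_real_odd P hk)

/-- naturality -/
theorem pull {Θ : Fam D' ι} {P : Matrix n n (CF D')} (hP : IB Θ P) {f : X → Y} (hf : D.Map D' f)
    (h : ∀ i x t, f (Ψ.Φ i (x, t)) = Θ.Φ i (f x, t)) : IB Ψ (P.map (pullC f hf)) := by
  refine ⟨⟨?_, ?_⟩, fun i => ?_⟩
  · unfold Ev
    ext1 a b
    have h1 := hP.idem.ev.apply a b
    change GDA.sg (pullC f hf (P a b)) = pullC f hf (P a b)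
    ext1
    · change (Form.pull f hf (P a b).re).sg = Form.pull f hf (P a b).re
      rw [← Form.pull_sg]
      congr 1
      exact congrArg Cx.re h1
    · change (Form.pull f hf (P a b).im).sg = Form.pull f hf (P a b).im
      rw [← Form.pull_sg]
      congr 1
      exact congrArg Cx.im h1
  · rw [← Matrix.map_mul, hP.idem.idem]
  · unfold BasicM
    ext1 a b
    have h1 : pullC (Θ.Φ i) (Θ.map i) (P a b) = prC (P a b) :=
      congrFun (congrFun (hP.bas i) a) b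
    change pullC (Ψ.Φ i) (Ψ.map i) (pullC f hf (P a b)) = prC (pullC f hf (P a b))
    ext1
    · exact Fam.basic_pull_eqv (hΦ := Ψ.map i) (hΦ' := Θ.map i) hf (h i) (congrArg Cx.re h1)
    · exact Fam.basic_pull_eqv (hΦ := Ψ.map i) (hΦ' := Θ.map i) hf (h i) (congrArg Cx.im h1)

theorem pullC_dd (f : X → Y) (hf : D.Map D' f) (a : CF D') :
    pullC f hf (GDA.d a) = GDA.d (pullC f hf a) := pullC_d _ hf a

theorem sC_pull (P : Matrix n n (CF D')) (f : X → Y) (hf : D.Map D' f) (k : ℕ) :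
    sC k (P.map (pullC f hf)) = pullC f hf (sC k P) := by
  rw [sC, sC, pullC_smul f hf, map_ch (pullC f hf) (pullC_d _ hf)]

theorem sF_pull (P : Matrix n n (CF D')) (f : X → Y) (hf : D.Map D' f) (k : ℕ) :
    sF k (P.map (pullC f hf)) = Form.pull f hf (sF k P) :=
  congrArg Cx.re (sC_pull P f hf k)

theorem pl_cl {Θ : Fam D' ι} {P : Matrix n n (CF D')} (hP : IB Θ P) {f : X → Y}
    (hf : D.Map D' f) (h : ∀ i x t, f (Ψ.Φ i (x, t)) = Θ.Φ i (f x, t)) (k : ℕ) :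
    Fam.pl hf h (hP.cl k) = (hP.pull hf h).cl k :=
  Subtype.ext (sF_pull P f hf k).symm

/-- Newton's recursion stops at the rank -/
theorem newton (hP : IB Ψ P) (hher : Pᵀ = ChW.cj P) {r : ℕ} {p : X → Matrix n n ℂ}
    (hp : RankLE r P p) {C : ℕ → Ψ.H} (hC : NewtonRec ℝ (fun k => Ψ.qm (hP.cl k)) C) {j : ℕ}
    (hj : r < j) : C j = 0 :=
  hp.newton_quot (Complex.I / (2 * Real.pi)) Ψ.Bas.val Subtype.val_injective
    Ψ.qm (σ := fun k => hP.cl k) (fun k => by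
      change (Cx.of (sF (k + 1) P) : CF D) = _
      rw [← sC_of_herm hP.idem hher]
      rfl) hC hj

end IB

end Vale.Agent.P231.S2T
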