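import Vale.Agent.P231.S2T.Ret2
import Vale.Agent.P231.WG.Stokes

/-!
# P231, stage 2, block S2-T (T3, part 2): the fundamental cycle of `UT ×_M UT`, Stokes
-/

set_option maxSynthPendingDepth 3
set_option linter.unusedSectionVars false
set_option linter.unusedVariables false

open Bundle Manifold Set Filter Module Topology MeasureTheory
open scoped ContDiff Manifold Topology

namespace Vale.Agent.P231.S2T

noncomputable section

open Vale.Agent.P234 Vale.Agent.P231 Vale.Agent.P231.Fm Vale.Agent.P231.W Vale.Agent.P231.H775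
  Vale.Agent.P231.WG

variable {E : Type*} [NormedAddCommGroup E] [NormedSpace ℝ E]
  {M : Type*} [MetricSpace M] [ChartedSpace E M]
  [RiemannianBundle (fun x : M => TangentSpace 𝓘(ℝ, E) x)]
  {e : ∀ x : M, TangentSpace 𝓘(ℝ, E) x → M}
  [FiniteDimensional ℝ E] [IsManifold 𝓘(ℝ, E) ∞ M]
  [IsContMDiffRiemannianBundle 𝓘(ℝ, E) ∞ E (fun x : M => TangentSpace 𝓘(ℝ, E) x)]

variable {p : M} {R : ℝ}

/-- the coordinates of `UT ×_M UT` -/
def cc2 (X : Fr e p R) (v0 : UT E M) (z : (Eu E × Eu E) × Eu E) : UT E M × UT E M :=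
  (cc X v0 z.1, cc X v0 (z.1.1, z.2))

variable (E) in
/-- the open set of the first two variables -/
def dom (R : ℝ) : Set (Eu E × Eu E) := Metric.ball 0 R ×ˢ {0}ᶜ

theorem isOpen_dom' (R : ℝ) : IsOpen (dom E R) := Metric.isOpen_ball.prod isOpen_compl_singleton

theorem mem_dom {R : ℝ} {z : Eu E × Eu E} : z ∈ dom E R ↔ ‖z.1‖ < R ∧ z.2 ≠ 0 := by
  rw [dom, mem_prod, mem_ball_zero_iff]
  rfl

theorem at_cc2 (X : Fr e p R) (v0 : UT E M) {z : (Eu E × Eu E) × Eu E} (h1 : z.1 ∈ dom E R)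
    (h2 : z.2 ≠ 0) : (dU2 E M).At (cc2 X v0) z := by
  have h3 := mem_dom.1 h1
  refine ⟨⟨?_, ?_⟩, ?_⟩
  · exact (dUT E M).comp (u := cc X v0) (g := fun z : (Eu E × Eu E) × Eu E => z.1)
      (at_cc X v0 h3.1 h3.2) (Sm.of_contDiff contDiff_fst _)
  · exact (dUT E M).comp (u := cc X v0)
      (g := fun z : (Eu E × Eu E) × Eu E => ((z.1.1, z.2) : Eu E × Eu E))
      (at_cc X v0 (z := (z.1.1, z.2)) h3.1 h2)
      (Sm.of_contDiff ((contDiff_fst.comp contDiff_fst).prodMk contDiff_snd) _)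
  · have h4 : ((dom E R) ×ˢ ({0}ᶜ : Set (Eu E))) ∈ 𝓝 z :=
      ((isOpen_dom' R).prod isOpen_compl_singleton).mem_nhds ⟨h1, h2⟩
    filter_upwards [h4] with y hy
    have h5 := mem_dom.1 hy.1
    change foot (cc X v0 y.1) = foot (cc X v0 (y.1.1, y.2))
    rw [foot_cc X v0 h5.1 h5.2, foot_cc X v0 (z := (y.1.1, y.2)) h5.1 hy.2]

theorem contDiffOn_val2 (X : Fr e p R) (v0 : UT E M) (w : Form (dU2 E M)) :
    ContDiffOn ℝ ∞ (w.val (cc2 X v0)) (dom E R ×ˢ {0}ᶜ) := by
  rintro z ⟨h1, h2⟩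
  exact (w.smooth (at_cc2 X v0 h1 h2)).contDiffWithinAt

variable {k : ℕ}

/-- the inner fibre integral -/
def thi (X : Fr e p R) (v0 : UT E M) (b : Basis (Fin k) ℝ (Eu E)) (r : Eu E → ℝ)
    (w : Form (dU2 E M)) : Eu E × Eu E → Lam (Eu E × Eu E) :=
  Q.phi volume b r (w.val (cc2 X v0))

/-- the double fibre integral -/
def th2 (X : Fr e p R) (v0 : UT E M) (b : Basis (Fin k) ℝ (Eu E)) (r : Eu E → ℝ)
    (w : Form (dU2 E M)) : Eu E → Lam (Eu E) := Q.phi volume b r (thi X v0 b r w)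

section Gen

variable {V : Type*} [NormedAddCommGroup V] [NormedSpace ℝ V] [FiniteDimensional ℝ V]
variable {F : Type*} [NormedAddCommGroup F] [NormedSpace ℝ F] [FiniteDimensional ℝ F]
  [MeasurableSpace F] [BorelSpace F]

theorem phi_add (μ : Measure F) [μ.IsAddHaarMeasure] {k : ℕ} (b : Fin k → F) {r : F → ℝ}
    {K : Set F} (h : Q.Cut r K) {U : Set V} (hU : IsOpen U)
    {w w' : V × F → Lam (V × F)} (hw : ContDiffOn ℝ ∞ w (U ×ˢ {0}ᶜ))
    (hw' : ContDiffOn ℝ ∞ w' (U ×ˢ {0}ᶜ)) {x : V} (hx : x ∈ U) :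
    Q.phi μ b r (fun z => w z + w' z) x = Q.phi μ b r w x + Q.phi μ b r w' x := by
  have h1 := Q.integrable_slice μ b h hU hw hx
  have h2 := Q.integrable_slice μ b h hU hw' hx
  refine Eq.trans ?_ (integral_add h1 h2)
  refine integral_congr_ae (Eventually.of_forall fun y => ?_)
  change slice b (Q.ps (Q.dR r y) * (w (x, y) + w' (x, y))) =
    slice b (Q.ps (Q.dR r y) * w (x, y)) + slice b (Q.ps (Q.dR r y) * w' (x, y))
  rw [mul_add, map_add]

theorem phi_smul (μ : Measure F) {k : ℕ} (b : Fin k → F) (r : F → ℝ) (c : ℝ)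
    (w : V × F → Lam (V × F)) (x : V) :
    Q.phi μ b r (fun z => c • w z) x = c • Q.phi μ b r w x := by
  refine Eq.trans ?_ (integral_smul c _)
  refine integral_congr_ae (Eventually.of_forall fun y => ?_)
  change slice b (Q.ps (Q.dR r y) * (c • w (x, y))) = c • slice b (Q.ps (Q.dR r y) * w (x, y))
  rw [mul_smul_comm, map_smul]

end Gen

section Th

variable (X : Fr e p R) (v0 : UT E M) (b : Basis (Fin k) ℝ (Eu E)) {r : Eu E → ℝ}
  {K : Set (Eu E)} (hr : Q.Cut r K)

include hr in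
theorem contDiffOn_thi (w : Form (dU2 E M)) : ContDiffOn ℝ ∞ (thi X v0 b r w) (dom E R) :=
  Q.contDiffOn_phi volume b hr (isOpen_dom' R) (contDiffOn_val2 X v0 w)

include hr in
theorem contDiffOn_th2 (w : Form (dU2 E M)) :
    ContDiffOn ℝ ∞ (th2 X v0 b r w) (Metric.ball 0 R) :=
  Q.contDiffOn_phi volume b hr Metric.isOpen_ball (contDiffOn_thi X v0 b hr w)

include hr in
theorem thi_add (v w : Form (dU2 E M)) {x : Eu E × Eu E} (hx : x ∈ dom E R) :
    thi X v0 b r (v + w) x = thi X v0 b r v x + thi X v0 b r w x :=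
  phi_add volume b hr (isOpen_dom' R) (contDiffOn_val2 X v0 v) (contDiffOn_val2 X v0 w) hx

theorem thi_smul (c : ℝ) (w : Form (dU2 E M)) (x : Eu E × Eu E) :
    thi X v0 b r (c • w) x = c • thi X v0 b r w x :=
  phi_smul volume b r c (w.val (cc2 X v0)) x

include hr in
theorem th2_add (v w : Form (dU2 E M)) {x : Eu E} (hx : x ∈ Metric.ball 0 R) :
    th2 X v0 b r (v + w) x = th2 X v0 b r v x + th2 X v0 b r w x := by
  have h1 := phi_add volume b hr Metric.isOpen_ball (contDiffOn_thi X v0 b hr v)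
    (contDiffOn_thi X v0 b hr w) hx
  refine Eq.trans (Q.phi_congr volume b hr fun y hy => ?_) h1
  exact thi_add X v0 b hr v w (mem_dom.2 ⟨mem_ball_zero_iff.1 hx, hy⟩)

include hr in
theorem th2_smul (c : ℝ) (w : Form (dU2 E M)) (x : Eu E) :
    th2 X v0 b r (c • w) x = c • th2 X v0 b r w x := by
  refine Eq.trans (Q.phi_congr volume b hr fun y hy => ?_)
    (phi_smul volume b r c (thi X v0 b r w) x)
  exact thi_smul X v0 b c w (x, y)

include hr in
theorem integrableOn_th2 {D : ℝ} (hDR : D < R) (w : Form (dU2 E M)) :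
    IntegrableOn (fun x => evalForm (th2 X v0 b r w x) b) (Metric.ball 0 D) volume := by
  have h1 : ContinuousOn (fun x => evalL (b : Fin k → Eu E) (th2 X v0 b r w x))
      (Metric.closedBall 0 D) :=
    (evalL (b : Fin k → Eu E)).continuous.comp_continuousOn
      ((contDiffOn_th2 X v0 b hr w).continuousOn.mono (Metric.closedBall_subset_ball hDR))
  exact (h1.integrableOn_compact (isCompact_closedBall 0 D)).mono_set Metric.ball_subset_closedBall

/-- **the fundamental cycle of `UT ×_M UT`**, as a linear form -/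
def II2 {D : ℝ} (hDR : D < R) : Form (dU2 E M) →ₗ[ℝ] ℝ where
  toFun w := ∫ x in Metric.ball 0 D, evalForm (th2 X v0 b r w x) b
  map_add' v w := by
    rw [← integral_add (integrableOn_th2 X v0 b hr hDR v) (integrableOn_th2 X v0 b hr hDR w)]
    refine setIntegral_congr_fun measurableSet_ball fun x hx => ?_
    have h := th2_add X v0 b hr v w (Metric.ball_subset_ball hDR.le hx)
    rw [h, Q.evalForm_add]
  map_smul' c w := by
    rw [RingHom.id_apply, smul_eq_mul, ← integral_const_mul]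
    refine setIntegral_congr_fun measurableSet_ball fun x hx => ?_
    have h := th2_smul X v0 b hr c w x
    rw [h, Q.evalForm_smul]

theorem II2_apply {D : ℝ} (hDR : D < R) (w : Form (dU2 E M)) :
    II2 X v0 b hr hDR w = ∫ x in Metric.ball 0 D, evalForm (th2 X v0 b r w x) b := rfl

end Th

/-! ### kernel vectors -/

/-- the radial kernel vector of the second variable -/
theorem iprod_rad2 (X : Fr e p R) (v0 : UT E M) (w : Form (dU2 E M)) {x : Eu E × Eu E}
    {y : Eu E} (hx : x ∈ dom E R) (hy : y ≠ 0) :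
    iprod ((0, y) : (Eu E × Eu E) × Eu E) (w.val (cc2 X v0) (x, y)) = 0 := by
  have hγ : HasDerivAt (fun t : ℝ => ((x, (1 + t) • y) : (Eu E × Eu E) × Eu E)) (0, y) 0 := by
    have h1 : HasDerivAt (fun t : ℝ => (1 + t) • y) ((1 : ℝ) • y) 0 :=
      ((hasDerivAt_id (0 : ℝ)).const_add 1).smul_const y
    rw [one_smul] at h1
    exact (hasDerivAt_const 0 x).prodMk h1
  refine kernel2 w (u := cc2 X v0) (x := (x, y)) (at_cc2 X v0 hx hy) hγ (by simp) ?_
  filter_upwards [Ioi_mem_nhds (show (-1 : ℝ) < 0 by norm_num)] with t ht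
  have h1 := cc_smul X v0 (z := (x.1, y)) (mem_dom.1 hx).1 hy (by linarith [mem_Ioi.1 ht] : 0 < 1 + t)
  exact Prod.ext rfl h1

/-- the radial kernel vector of the first variable -/
theorem iprod_rad1 (X : Fr e p R) (v0 : UT E M) (w : Form (dU2 E M)) {x : Eu E × Eu E}
    {y : Eu E} (hx : x ∈ dom E R) (hy : y ≠ 0) :
    iprod (((0, x.2), 0) : (Eu E × Eu E) × Eu E) (w.val (cc2 X v0) (x, y)) = 0 := by
  have hx' := mem_dom.1 hx
  have hγ : HasDerivAt (fun t : ℝ => (((x.1, (1 + t) • x.2), y) : (Eu E × Eu E) × Eu E))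
      ((0, x.2), 0) 0 := by
    have h1 : HasDerivAt (fun t : ℝ => (1 + t) • x.2) ((1 : ℝ) • x.2) 0 :=
      ((hasDerivAt_id (0 : ℝ)).const_add 1).smul_const x.2
    rw [one_smul] at h1
    exact ((hasDerivAt_const 0 x.1).prodMk h1).prodMk (hasDerivAt_const 0 y)
  refine kernel2 w (u := cc2 X v0) (x := (x, y)) (at_cc2 X v0 hx hy) hγ (by simp) ?_
  filter_upwards [Ioi_mem_nhds (show (-1 : ℝ) < 0 by norm_num)] with t ht
  have h1 := cc_smul X v0 (z := x) hx'.1 hx'.2 (by linarith [mem_Ioi.1 ht] : 0 < 1 + t)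
  exact Prod.ext h1 rfl

variable [CompactSpace M] [ConnectedSpace M] [IsRiemannianManifold 𝓘(ℝ, E) M]

/-- the kernel curve on the boundary sphere -/
theorem exists_curve (F : Facts e) {D : ℝ} (hD : 0 < D) (hB : InjGE e D)
    (hdiam : ∀ p q : M, dist p q ≤ D)
    (hP : ∀ x y : M, dist x y = D → 2 ≤ finrank ℝ (H775.Pl e D x y))
    (X : Fr e p R) (v0 : UT E M) (hDR : D < R) {x : Eu E} (hx : ‖x‖ = D) :
    ∃ (κ : Eu E) (c : ℝ → Eu E), κ ≠ 0 ∧ inner ℝ x κ = (0 : ℝ) ∧ HasDerivAt c κ 0 ∧ c 0 = x ∧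
      ∀ y, y ≠ 0 → ∃ η : ℝ → Eu E, η 0 = y ∧ DifferentiableAt ℝ η 0 ∧
        ∀ᶠ t in 𝓝 0, cc X v0 (c t, η t) = cc X v0 (x, y) := by
  have hn : nm p (D⁻¹ • fr p x : E) = 1 := by
    have h1 := nm_smul (E := E) p (fr p x) D⁻¹
    rw [nm_fr, hx, abs_of_pos (inv_pos.2 hD), inv_mul_cancel₀ hD.ne'] at h1
    exact h1
  set v : UT E M := mk p (D⁻¹ • fr p x : E) hn with hv
  obtain ⟨w, hw⟩ := WR.exists_isL F hD hB hdiam hP v
  set a : E := vec' w with ha
  set ζ : Eu E := (fr p).symm a with hζ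
  have hfζ : fr p ζ = a := (fr p).apply_symm_apply a
  have hfoot : foot v = p := rfl
  have haa : ip p a a = 1 := hw.ip_self
  have hna : ‖ζ‖ = 1 := by
    have h1 := nm_fr p ζ
    rw [hfζ] at h1
    rw [← h1]
    exact WR.nm_eq_one haa
  have hxζ : inner ℝ x ζ = (0 : ℝ) := by
    rw [← ip_fr p x ζ, hfζ]
    have h1 : ip p (D⁻¹ • fr p x : E) a = 0 := hw.orth
    rw [WR.ip_smul_left'] at h1
    exact (mul_eq_zero.1 h1).resolve_left (inv_ne_zero hD.ne')
  -- the curve
  set c : ℝ → Eu E := fun t => Real.cos t • x + Real.sin t • (D • ζ) with hc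
  have hcs : ContDiff ℝ ∞ c :=
    (Real.contDiff_cos.smul contDiff_const).add (Real.contDiff_sin.smul contDiff_const)
  have hcn : ∀ t, ‖c t‖ = D := by
    intro t
    have h1 : ‖c t‖ ^ 2 = D ^ 2 := by
      rw [← real_inner_self_eq_norm_sq]
      simp only [hc, inner_add_left, inner_add_right, inner_smul_left, inner_smul_right,
        real_inner_self_eq_norm_sq, real_inner_comm x ζ, hxζ, hx, hna, conj_trivial]
      have := Real.sin_sq_add_cos_sq t
      linear_combination (D ^ 2) * this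
    exact (sq_eq_sq₀ (norm_nonneg _) hD.le).1 h1
  have hc0 : c 0 = x := by simp [hc]
  have hce' : ∀ t, ef e p (c t) = bar e D v := by
    intro t
    have h1 := hw.comb F hD hB hdiam (a := Real.cos t) (b := Real.sin t)
      (by linarith [Real.sin_sq_add_cos_sq t])
    have h2 : e p (D • (Real.cos t • (D⁻¹ • fr p x) + Real.sin t • a) : E) = bar e D v := h1.2
    have h3 : (fr p (c t) : E) = D • (Real.cos t • (D⁻¹ • fr p x) + Real.sin t • a) := by
      simp only [hc]
      rw [map_add, map_smul, map_smul, map_smul, hfζ, smul_add, smul_smul, smul_smul, smul_smul,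
        smul_smul]
      congr 2
      · field_simp
      · ring
    rw [ef, h3]
    exact h2
  have hcd : HasDerivAt c (D • ζ) 0 := by
    have h1 := ((Real.hasDerivAt_cos 0).smul_const x).add
      ((Real.hasDerivAt_sin 0).smul_const (D • ζ))
    rw [Real.sin_zero, Real.cos_zero, neg_zero, zero_smul, zero_add, one_smul] at h1
    exact h1
  refine ⟨D • ζ, c, ?_, ?_, hcd, hc0, fun y hy => ?_⟩
  · refine smul_ne_zero hD.ne' fun h => ?_
    rw [h, norm_zero] at hna
    exact zero_ne_one hna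
  · rw [inner_smul_right, hxζ, mul_zero]
  · obtain ⟨η, h0, h1, h2⟩ := exists_lift_frame X hcs (fun t => by rw [hcn]; exact hDR)
      (fun t => by rw [hce', hce']) y
    refine ⟨η, h0, h1, ?_⟩
    have hxR : ‖x‖ < R := by rw [hx]; exact hDR
    have h3 : ∀ᶠ t in 𝓝 (0 : ℝ), η t ≠ 0 := h1.continuousAt.eventually_ne (by rw [h0]; exact hy)
    filter_upwards [h2, h3] with t ht ht3
    refine mk_cc_congr X v0 (by rw [hcn]; exact hDR) ht3 hxR hy ?_ ?_
    · change ef e p (c t) = ef e p x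
      rw [hce', ← hc0, hce']
    · rw [← hc0]
      exact ht

/-- **Stokes' theorem for the fundamental cycle of `UT ×_M UT`** -/
theorem II2_d (F : Facts e) {D : ℝ} (hD : 0 < D) (hB : InjGE e D)
    (hdiam : ∀ p q : M, dist p q ≤ D)
    (hP : ∀ x y : M, dist x y = D → 2 ≤ finrank ℝ (H775.Pl e D x y))
    (X : Fr e p R) (v0 : UT E M) {k : ℕ} (b : Basis (Fin k) ℝ (Eu E)) {r : Eu E → ℝ}
    {K : Set (Eu E)} (hr : Q.Cut r K) (hDR : D < R) (w : Form (dU2 E M)) :
    II2 X v0 b hr hDR w.d = 0 := by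
  -- the inner derivative
  have hin : ∀ x ∈ dom E R, thi X v0 b r w.d x =
      (-((-1 : ℝ) ^ k)) • extd (thi X v0 b r w) x := by
    intro x hx
    have h1 : thi X v0 b r w.d x = Q.phi volume b r (extd (w.val (cc2 X v0))) x :=
      Q.phi_congr volume b hr fun y hy => Form.d_val w (at_cc2 X v0 (z := (x, y)) hx hy)
    rw [h1, Q.phi_extd volume b hr (isOpen_dom' R) (contDiffOn_val2 X v0 w) hx, neg_smul]
    rfl
  have hval : ∀ x ∈ Metric.ball (0 : Eu E) R, th2 X v0 b r w.d x =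
      extd (th2 X v0 b r w) x := by
    intro x hx
    have h1 : th2 X v0 b r w.d x =
        Q.phi volume b r (fun z => (-((-1 : ℝ) ^ k)) • extd (thi X v0 b r w) z) x :=
      Q.phi_congr volume b hr fun y hy => hin (x, y) (mem_dom.2 ⟨mem_ball_zero_iff.1 hx, hy⟩)
    rw [h1, phi_smul, Q.phi_extd volume b hr Metric.isOpen_ball (contDiffOn_thi X v0 b hr w) hx,
      smul_neg, neg_smul, neg_neg, smul_smul, ← pow_add, ← two_mul, pow_mul]
    norm_num
    rfl
  have hst := ball_stokes_of_iprod (V := Eu E) volume b hD (U := Metric.ball 0 R)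
    Metric.isOpen_ball (Metric.closedBall_subset_ball hDR) (Φ := th2 X v0 b r w)
    ((contDiffOn_th2 X v0 b hr w).of_le (WithTop.coe_le_coe.2 le_top)) (fun x hx => by
      obtain ⟨κ, c, h1, h2, h3, h4, h5⟩ := exists_curve F hD hB hdiam hP X v0 hDR hx
      refine ⟨κ, h1, h2, ?_⟩
      have hxR : ‖x‖ < R := by rw [hx]; exact hDR
      refine iprod_phi_eq_zero volume b hr (w := thi X v0 b r w) (fun y hy => ?_) fun y hy => ?_
      · refine iprod_phi_eq_zero volume b hr (w := w.val (cc2 X v0)) (x := (x, y))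
          (κ := ((0, y) : Eu E × Eu E)) (fun y' hy' => ?_) fun y' hy' => ⟨0, ?_⟩
        · exact iprod_rad2 X v0 w (x := (x, y)) (mem_dom.2 ⟨hxR, hy⟩) hy'
        · exact iprod_rad1 X v0 w (x := (x, y)) (mem_dom.2 ⟨hxR, hy⟩) hy'
      · obtain ⟨η, hη0, hη1, hη2⟩ := h5 y hy
        refine ⟨deriv η 0, ?_⟩
        refine iprod_phi_eq_zero volume b hr (w := w.val (cc2 X v0)) (x := (x, y))
          (κ := ((κ, deriv η 0) : Eu E × Eu E)) (fun y' hy' => ?_) fun y' hy' => ?_
        · exact iprod_rad2 X v0 w (x := (x, y)) (mem_dom.2 ⟨hxR, hy⟩) hy'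
        · obtain ⟨η', hη0', hη1', hη2'⟩ := h5 y' hy'
          refine ⟨deriv η' 0, ?_⟩
          have hγ : HasDerivAt (fun t : ℝ => (((c t, η t), η' t) : (Eu E × Eu E) × Eu E))
              ((κ, deriv η 0), deriv η' 0) 0 :=
            (h3.prodMk hη1.hasDerivAt).prodMk hη1'.hasDerivAt
          refine kernel2 w (u := cc2 X v0) (x := ((x, y), y'))
            (at_cc2 X v0 (z := ((x, y), y')) (mem_dom.2 ⟨hxR, hy⟩) hy') hγ
            (by rw [h4, hη0, hη0']) ?_
          filter_upwards [hη2, hη2'] with t ht ht'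
          exact Prod.ext ht ht')
  rw [II2_apply]
  have h4 : ∫ x in Metric.ball (0 : Eu E) D, evalForm (th2 X v0 b r w.d x) b =
      ∫ x in Metric.ball (0 : Eu E) D, evalForm (extd (th2 X v0 b r w) x) b := by
    refine setIntegral_congr_fun measurableSet_ball fun x hx => ?_
    have h5 := hval x (Metric.ball_subset_ball hDR.le hx)
    rw [h5]
  rw [h4, hst]

end

end Vale.Agent.P231.S2T
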