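import Vale.Agent.P231.Co.Hom
import Vale.Agent.P231.Co.RelC
import Vale.Agent.P231.WD.GeoInst
import Vale.Agent.P231.H766.Apx1
import Vale.Agent.P231.H584.Flow

/-!
# P231, stage 2, S2-T (T2): on `M × M` the difference of the two pullbacks of a closed form is
cohomologous to a form supported off the diagonal
-/

set_option maxSynthPendingDepth 3
set_option linter.unusedSectionVars false
set_option linter.unusedVariables false

open Bundle Manifold Set Filter Module
open scoped ContDiff Manifold Topology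

namespace Vale.Agent.P231.S2T

noncomputable section

open Vale.Agent.P234 Vale.Agent.P231 Vale.Agent.P231.Fm Vale.Agent.P231.W Vale.Agent.P231.H766

variable {E : Type*} [NormedAddCommGroup E] [NormedSpace ℝ E] [FiniteDimensional ℝ E]
  {M : Type*} [MetricSpace M] [ChartedSpace E M] [IsManifold 𝓘(ℝ, E) ∞ M]
  [RiemannianBundle (fun x : M => TangentSpace 𝓘(ℝ, E) x)]
  [IsContMDiffRiemannianBundle 𝓘(ℝ, E) ∞ E (fun x : M => TangentSpace 𝓘(ℝ, E) x)]
  {e : ∀ x : M, TangentSpace 𝓘(ℝ, E) x → M}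

/-- the space `M × M` -/
abbrev dMM (E : Type*) [NormedAddCommGroup E] [NormedSpace ℝ E] (M : Type*) [MetricSpace M]
    [ChartedSpace E M] : Dif (M × M) := (dM E M).prod (dM E M)

theorem cont_dist {V : Type} [NormedAddCommGroup V] [NormedSpace ℝ V] [FiniteDimensional ℝ V]
    {u : V → M × M} {x : V} (h : (dMM E M).At u x) :
    ContinuousAt (fun y => dist (u y).1 (u y).2) x := by
  have h1 : ∀ᶠ y in 𝓝 x, ContMDiffAt 𝓘(ℝ, V) 𝓘(ℝ, E) ∞ (Prod.fst ∘ u) y := h.1
  have h2 : ∀ᶠ y in 𝓝 x, ContMDiffAt 𝓘(ℝ, V) 𝓘(ℝ, E) ∞ (Prod.snd ∘ u) y := h.2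
  exact h1.self_of_nhds.continuousAt.dist h2.self_of_nhds.continuousAt

theorem map_prf_dist2 (F : Facts e) {D : ℝ} (hD : 0 < D) (hB : InjGE e D) :
    (dMM E M).Map (Dif.lin ℝ) (fun x => Form.prf (dist x.1 x.2 / D)) := by
  intro V _ _ _ u x h
  have h1 : ∀ᶠ y in 𝓝 x, ContMDiffAt 𝓘(ℝ, V) 𝓘(ℝ, E) ∞ (Prod.fst ∘ u) y := h.1
  have h1' : ∀ᶠ y in 𝓝 x, ContMDiffAt 𝓘(ℝ, V) 𝓘(ℝ, E) ∞ (Prod.snd ∘ u) y := h.2
  have hc : ContinuousAt (fun y => dist (u y).1 (u y).2 / D) x := (cont_dist h).div_const D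
  suffices hh : Sm (fun y => Form.prf (dist (u y).1 (u y).2 / D)) x from hh
  rcases lt_or_ge (dist (u x).1 (u x).2 / D) (1 / 3) with h2 | h2
  · have h3 : ∀ᶠ y in 𝓝 x, dist (u y).1 (u y).2 / D < 1 / 3 := hc.eventually (gt_mem_nhds h2)
    refine Sm.congr (f := fun _ => 0) (Sm.of_contDiff contDiff_const _) ?_
    filter_upwards [h3] with y hy
    exact (Form.prf_zero hy.le).symm
  · rcases lt_or_ge (2 / 3) (dist (u x).1 (u x).2 / D) with h4 | h4
    · have h3 : ∀ᶠ y in 𝓝 x, 2 / 3 < dist (u y).1 (u y).2 / D :=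
        hc.eventually (lt_mem_nhds h4)
      refine Sm.congr (f := fun _ => 1) (Sm.of_contDiff contDiff_const _) ?_
      filter_upwards [h3] with y hy
      exact (Form.prf_one hy.le).symm
    · have h5 : ∀ᶠ y in 𝓝 x, 0 < dist (u y).1 (u y).2 / D :=
        hc.eventually (lt_mem_nhds (lt_of_lt_of_le (by norm_num) h2))
      have h6 : ∀ᶠ y in 𝓝 x, dist (u y).1 (u y).2 / D < 1 :=
        hc.eventually (gt_mem_nhds (lt_of_le_of_lt h4 (by norm_num)))
      filter_upwards [h1, h1', h5, h6] with y k1 k1' k2 k3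
      have k4 : dist (u y).1 (u y).2 < D := by rwa [div_lt_one hD] at k3
      have k5 : 0 < dist (u y).1 (u y).2 := by
        rcases (dist_nonneg (x := (u y).1) (y := (u y).2)).lt_or_eq with k6 | k6
        · exact k6
        · rw [← k6, zero_div] at k2
          exact (lt_irrefl _ k2).elim
      have k7 : ContDiffAt ℝ ∞ (fun y => dist (u y).1 (u y).2) y :=
        contDiffAt_dist F hB k1 k1' k4 k5
      exact Form.contDiff_prf.contDiffAt.comp y (k7.div_const D)

/-- the cut-off function: `0` near the diagonal -/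
def pd (F : Facts e) {D : ℝ} (hD : 0 < D) (hB : InjGE e D) : Form (dMM E M) :=
  Form.fn (fun x => Form.prf (dist x.1 x.2 / D)) (map_prf_dist2 F hD hB)

theorem supp_pd (F : Facts e) {D : ℝ} (hD : 0 < D) (hB : InjGE e D) :
    (pd F hD hB).Supp {x | x.1 ≠ x.2} := by
  refine ⟨fun {V} _ _ _ {u x} hu => ?_⟩
  have hc := cont_dist hu
  by_cases hx : (u x).1 = (u x).2
  · right
    have h3 : ∀ᶠ y in 𝓝 x, dist (u y).1 (u y).2 / D < 1 / 3 := by
      refine (hc.div_const D).eventually (gt_mem_nhds ?_)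
      show dist (u x).1 (u x).2 / D < 1 / 3
      rw [hx, dist_self, zero_div]
      norm_num
    filter_upwards [h3, (dMM E M).open' hu] with y hy hu'
    rw [pd, Form.fn_val _ _ hu', Form.prf_zero hy.le, map_zero]
  · left
    have h3 : ∀ᶠ y in 𝓝 x, 0 < dist (u y).1 (u y).2 :=
      hc.eventually (lt_mem_nhds (dist_pos.2 hx))
    filter_upwards [h3] with y hy
    exact dist_pos.1 hy

theorem supp_one_sub_pd (F : Facts e) {D : ℝ} (hD : 0 < D) (hB : InjGE e D) :
    (1 - pd F hD hB).Supp {x | dist x.1 x.2 < D} := by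
  refine ⟨fun {V} _ _ _ {u x} hu => ?_⟩
  have hc := cont_dist hu
  by_cases hx : dist (u x).1 (u x).2 < D
  · left
    exact hc.eventually (gt_mem_nhds hx)
  · right
    have h2 : D ≤ dist (u x).1 (u x).2 := not_lt.1 hx
    have h3 : ∀ᶠ y in 𝓝 x, 2 / 3 < dist (u y).1 (u y).2 / D := by
      refine (hc.div_const D).eventually (lt_mem_nhds ?_)
      show 2 / 3 < dist (u x).1 (u x).2 / D
      rw [lt_div_iff₀ hD]
      linarith
    filter_upwards [h3, (dMM E M).open' hu] with y hy hu'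
    rw [Form.sub_val, Form.one_val hu', pd, Form.fn_val _ _ hu', Form.prf_one hy.le, map_one,
      sub_self]

/-- the geodesic homotopy near the diagonal -/
theorem map_hom (F : Facts e) {D : ℝ} (hB : InjGE e D) :
    (((dMM E M).on {x | dist x.1 x.2 < D}).prod (Dif.lin ℝ)).Map (dM E M)
      (fun p => WD3.gG e p.1.1 p.1.2 p.2) := by
  intro V _ _ _ u s hu
  exact WD3.At_gG F hB hu.1.1.1 hu.1.1.2 hu.2 hu.1.2.self_of_nhds

/-- **(T2)** -/
theorem exists_diag (F : Facts e) {D : ℝ} (hD : 0 < D) (hB : InjGE e D) {Om : Form (dM E M)}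
    (hO : Om.d = 0) (hOe : Om.sg = Om) : ∃ τ β : Form (dMM E M), τ.Supp {x | x.1 ≠ x.2} ∧
      τ.sg = τ ∧ β.sg = -β ∧
      Form.pull Prod.fst Dif.map_fst Om - Form.pull Prod.snd Dif.map_snd Om = τ + β.d := by
  set a : Form (dMM E M) := Form.pull Prod.fst Dif.map_fst Om with ha
  set b : Form (dMM E M) := Form.pull Prod.snd Dif.map_snd Om with hb
  set β₀ : Form ((dMM E M).on {x | dist x.1 x.2 < D}) :=
    Form.K (Form.pull (fun p => WD3.gG e p.1.1 p.1.2 p.2) (map_hom F hB) Om) with hβ₀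
  have h1 : Form.res {x | dist x.1 x.2 < D} b - Form.res {x | dist x.1 x.2 < D} a = β₀.d := by
    have h2 := Form.pull_homotopic (D := dMM E M) (O := {x | dist x.1 x.2 < D})
      (map_hom F hB) (f := Prod.snd) (g := Prod.fst) (Dif.map_snd.on _) (Dif.map_fst.on _)
      (fun x hx => WD3.gG_one F hB hx) (fun x _ => WD3.gG_zero F x.1 x.2) hO
    rw [← h2]
    congr 1
    · exact H584.pull_pull Dif.map_on Dif.map_snd _ (fun _ => rfl) Om
    · exact H584.pull_pull Dif.map_on Dif.map_fst _ (fun _ => rfl) Om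
  have hβs : β₀.sg = -β₀ := by
    rw [hβ₀, H584.K_sg, ← Form.pull_sg, hOe]
  set ψ : Form (dMM E M) := 1 - pd F hD hB with hψ
  have hψs : ψ.Supp {x | dist x.1 x.2 < D} := supp_one_sub_pd F hD hB
  have hps : (pd F hD hB).sg = pd F hD hB := Form.sg_fn _ _
  have hψe : ψ.sg = ψ := by
    rw [hψ, sub_eq_add_neg, Form.sg_add, Form.sg_neg, Form.sg_one, hps]
  have hψd : ψ.d = -(pd F hD hB).d := by
    rw [hψ, sub_eq_add_neg, Form.d_add, Form.d_neg, Form.d_one, zero_add]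
  have hdE : ψ.d.Supp {x | x.1 ≠ x.2} := by
    rw [hψd]
    exact ((supp_pd F hD hB).d).neg
  have has : a.sg = a := by rw [ha, ← Form.pull_sg, hOe]
  have hbs : b.sg = b := by rw [hb, ← Form.pull_sg, hOe]
  have hmd : (Form.mx ψ hψs β₀).d = Form.mx ψ.d hψs.d β₀ + ψ * (b - a) := by
    rw [Form.mx_d]
    congr 1
    rw [← h1, ← Form.res_sub]
    exact (Form.mx_congr hψe rfl).trans (Form.mx_res ψ hψs _)
  refine ⟨pd F hD hB * (a - b) + Form.mx ψ.d hψs.d β₀, -Form.mx ψ hψs β₀, ?_, ?_, ?_, ?_⟩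
  · exact ((supp_pd F hD hB).mul_right _).add (Form.mx_supp _ _ _ hdE)
  · rw [Form.sg_add, Form.sg_mul, hps, sub_eq_add_neg, Form.sg_add, Form.sg_neg, has, hbs,
      Form.mx_sg]
    congr 1
    have h2 : ψ.d.sg = -ψ.d := Form.sg_d_of_even hψe
    have h3 : Form.mx ψ.d.sg hψs.d.sg β₀.sg = Form.mx (-ψ.d) hψs.d.neg (-β₀) :=
      Form.mx_congr h2 hβs
    rw [h3, Form.mx_neg, Form.neg_mx, neg_neg]
  · rw [Form.sg_neg, Form.mx_sg, neg_neg]
    have h3 : Form.mx ψ.sg hψs.sg β₀.sg = Form.mx ψ hψs (-β₀) := Form.mx_congr hψe hβs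
    rw [h3, Form.mx_neg, neg_neg]
  · have h4 : pd F hD hB = 1 - ψ := by rw [hψ]; abel
    have h5 : ψ * (b - a) = -(ψ * (a - b)) := by rw [← mul_neg, neg_sub]
    rw [Form.d_neg, hmd, h4, sub_mul, one_mul, h5]
    abel

end

end Vale.Agent.P231.S2T
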