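import Vale.Agent.P231.S2T.Ret2
import Vale.Agent.P231.WF.Conn
import Vale.Agent.P231.WG.Bas
import Vale.Agent.P231.Co.BunPb

/-!
# P231, stage 2, block S2-T (T3, part 7): the dimension of `UT ×_M UT` and of sphere bundles
-/

set_option maxSynthPendingDepth 3
set_option linter.unusedSectionVars false
set_option linter.unusedVariables false

open Bundle Manifold Set Filter Module Topology MeasureTheory
open scoped ContDiff Manifold Topology

namespace Vale.Agent.P231.S2T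

noncomputable section

open Vale.Agent.P234 Vale.Agent.P231 Vale.Agent.P231.Fm Vale.Agent.P231.W Vale.Agent.P231.H775
  Vale.Agent.P231.WG Vale.Agent.P231.WF

section U2

variable {E : Type*} [NormedAddCommGroup E] [NormedSpace ℝ E] [FiniteDimensional ℝ E]
  {M : Type*} [MetricSpace M] [ChartedSpace E M] [IsManifold 𝓘(ℝ, E) ∞ M]
  [RiemannianBundle (fun x : M => TangentSpace 𝓘(ℝ, E) x)]
  [IsContMDiffRiemannianBundle 𝓘(ℝ, E) ∞ E (fun x : M => TangentSpace 𝓘(ℝ, E) x)]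

open Classical in
variable (E M) in
/-- **the dimension of `UT ×_M UT`** -/
theorem dimEq_U2 {m : ℕ} (hm : finrank ℝ E = m + 1) : DimEq (dU2 E M) (3 * m + 1) := by
  intro E' _ _ _ u x hu
  obtain ⟨c₁, g₁, hg₁, hc₁, hcg₁⟩ := WF.dimEq_UT E M hm (u := fun s => (u s).1) hu.1.1
  have hu' : ∀ᶠ s in 𝓝 x, SmV (fun s => (u s).2.1.1) (fun s => (u s).2.1.2) s := hu.1.2
  have hux : SmV (fun s => (u s).2.1.1) (fun s => (u s).2.1.2) x := hu'.self_of_nhds
  set x₀ : M := (u x).2.1.1 with hx₀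
  have hsrcx : x₀ ∈ (extChartAt 𝓘(ℝ, E) x₀).source := mem_extChartAt_source x₀
  have hsrc : ∀ᶠ s in 𝓝 x, (u s).2.1.1 ∈ (extChartAt 𝓘(ℝ, E) x₀).source :=
    hux.base.continuousAt.eventually ((isOpen_extChartAt_source (I := 𝓘(ℝ, E)) x₀).mem_nhds hsrcx)
  set ξ : E' → E := fun s => crd x₀ (u s).2.1.1 (u s).2.1.2 with hξ
  have hξs : ∀ᶠ s in 𝓝 x, ContDiffAt ℝ ∞ ξ s := by
    filter_upwards [hu', hsrc] with s h1 h2
    exact ((smV_iff (f := fun s => (u s).2.1.1) (u := fun s => (u s).2.1.2) x₀ h2).1 h1).2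
  have hn1 : ∀ s, ‖(u s).2.1.2‖ = 1 := fun s => (u s).2.2
  have hξ0 : ξ x ≠ 0 := by
    intro h
    have h1 : vec x₀ (u x).2.1.1 (ξ x) = (u x).2.1.2 := vec_crd x₀ hsrcx (u x).2.1.2
    have h2 := hn1 x
    rw [← h1, h, map_zero, norm_zero] at h2
    exact zero_ne_one h2
  obtain ⟨l, hl⟩ := exists_normalize hξ0
  have hK : finrank ℝ (LinearMap.ker (l : E →ₗ[ℝ] ℝ)) = m := by
    have h1 := LinearMap.finrank_range_add_finrank_ker (l : E →ₗ[ℝ] ℝ)
    have h2 : LinearMap.range (l : E →ₗ[ℝ] ℝ) = ⊤ := by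
      rw [LinearMap.range_eq_top]
      intro r
      refine ⟨r • ξ x, ?_⟩
      change l (r • ξ x) = r
      rw [map_smul, hl, smul_eq_mul, mul_one]
    rw [h2, finrank_top, finrank_self, hm] at h1
    omega
  set K := LinearMap.ker (l : E →ₗ[ℝ] ℝ) with hKdef
  let P : Type _ := EuclideanSpace ℝ (Fin (2 * m + 1)) × K
  let φ : P ≃L[ℝ] EuclideanSpace ℝ (Fin (3 * m + 1)) :=
    ContinuousLinearEquiv.ofFinrankEq (by
      change finrank ℝ (EuclideanSpace ℝ (Fin (2 * m + 1)) × K) = _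
      rw [finrank_euclideanSpace, Fintype.card_fin, finrank_prod, hK, finrank_euclideanSpace,
        Fintype.card_fin]
      ring)
  -- projection to the kernel along `ξ x`
  let pr : E →L[ℝ] K := LinearMap.toContinuousLinearMap
    (LinearMap.codRestrict K (LinearMap.id - (l : E →ₗ[ℝ] ℝ).smulRight (ξ x)) (fun v => by
      rw [hKdef, LinearMap.mem_ker]
      change l (v - l v • ξ x) = 0
      rw [map_sub, map_smul, hl, smul_eq_mul, mul_one, sub_self]))
  have hpr : ∀ v, ((pr v : K) : E) = v - l v • ξ x := fun v => rfl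
  let W : P → TangentBundle 𝓘(ℝ, E) M := fun p =>
    ⟨foot (c₁ p.1), ‖vec x₀ (foot (c₁ p.1)) (ξ x + (p.2 : E))‖⁻¹ •
        vec x₀ (foot (c₁ p.1)) (ξ x + (p.2 : E))⟩
  let c : EuclideanSpace ℝ (Fin (3 * m + 1)) → UT E M × UT E M := fun z =>
    if h : nm (E := E) (W (φ.symm z)).proj (W (φ.symm z)).snd = 1 then
      (c₁ (φ.symm z).1, ⟨W (φ.symm z), h⟩) else u x
  let g : E' → EuclideanSpace ℝ (Fin (3 * m + 1)) := fun s =>
    φ (g₁ s, pr ((l (ξ s))⁻¹ • ξ s))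
  have hlξ : ContinuousAt (fun s => l (ξ s)) x :=
    l.continuous.continuousAt.comp hξs.self_of_nhds.continuousAt
  have hlpos : ∀ᶠ s in 𝓝 x, 0 < l (ξ s) :=
    hlξ.eventually (lt_mem_nhds (by change 0 < l (ξ x); rw [hl]; exact zero_lt_one))
  have hprx : pr ((l (ξ x))⁻¹ • ξ x) = 0 := by
    refine Subtype.ext ?_
    rw [hpr, hl, inv_one, one_smul, hl, one_smul, sub_self]
    rfl
  have hgx : φ.symm (g x) = ((g₁ x, 0) : P) := by
    simp only [g]
    rw [φ.symm_apply_apply, hprx]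
  have hfx : foot (c₁ (g₁ x)) = x₀ := by
    have h1 : (u x).1 = c₁ (g₁ x) := hcg₁.self_of_nhds
    rw [← h1]
    exact hu.2.self_of_nhds
  have hfoot : ∀ {q : EuclideanSpace ℝ (Fin (2 * m + 1))}, (dUT E M).At c₁ q →
      ContMDiffAt 𝓘(ℝ, EuclideanSpace ℝ (Fin (2 * m + 1))) 𝓘(ℝ, E) ∞ (foot ∘ c₁) q := by
    intro q hq
    have h1 : ∀ᶠ s in 𝓝 q, SmV (fun s => (c₁ s).1.1) (fun s => (c₁ s).1.2) s := hq
    exact h1.self_of_nhds.base
  refine ⟨c, g, ?_, ?_, ?_⟩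
  · -- smoothness of the coordinates
    have h2 : Sm (fun s => pr ((l (ξ s))⁻¹ • ξ s)) x := by
      filter_upwards [hξs, hlpos] with s h1 h2
      have h3 : ContDiffAt ℝ ∞ (fun s => l (ξ s)) s := l.contDiff.contDiffAt.comp s h1
      exact pr.contDiff.contDiffAt.comp s ((h3.inv h2.ne').smul h1)
    exact Sm.comp (f := φ) (Sm.of_contDiff φ.contDiff _) (hg₁.prodMk h2)
  · -- the parametrisation is a plot
    have hcat : ∀ᶠ p in 𝓝 ((g₁ x, 0) : P), (dUT E M).At c₁ p.1 := by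
      have h1 : Tendsto (Prod.fst : P → EuclideanSpace ℝ (Fin (2 * m + 1))) (𝓝 (g₁ x, 0))
          (𝓝 (g₁ x)) := continuous_fst.tendsto' _ _ rfl
      exact h1.eventually ((dUT E M).open' hc₁)
    have hsrc1 : ∀ᶠ p in 𝓝 ((g₁ x, 0) : P), foot (c₁ p.1) ∈
        (extChartAt 𝓘(ℝ, E) x₀).source := by
      have h1 : Tendsto (fun q : P => foot (c₁ q.1)) (𝓝 (g₁ x, 0)) (𝓝 (foot (c₁ (g₁ x)))) :=
        (hfoot hc₁).continuousAt.tendsto.comp (continuous_fst.tendsto' _ _ rfl)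
      rw [hfx] at h1
      exact h1.eventually ((isOpen_extChartAt_source (I := 𝓘(ℝ, E)) x₀).mem_nhds hsrcx)
    have hsm : ∀ᶠ p in 𝓝 ((g₁ x, 0) : P), SmV (fun p : P => foot (c₁ p.1))
          (fun p => vec x₀ (foot (c₁ p.1)) (ξ x + (p.2 : E))) p := by
      filter_upwards [hcat, hsrc1] with p hp hp2
      refine smV_vec (V := P) (f := fun p : P => foot (c₁ p.1)) x₀ hp2 ?_ ?_
      · have h4 : ContMDiffAt 𝓘(ℝ, EuclideanSpace ℝ (Fin (2 * m + 1))) 𝓘(ℝ, E) ∞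
            (foot ∘ c₁) p.1 := hfoot hp
        exact h4.comp p contDiffAt_fst.contMDiffAt
      · exact contDiffAt_const.add (K.subtypeL.contDiff.contDiffAt.comp p contDiffAt_snd)
    have hne : ∀ᶠ p in 𝓝 ((g₁ x, 0) : P),
        vec x₀ (foot (c₁ p.1)) (ξ x + (p.2 : E)) ≠ 0 := by
      filter_upwards [hsrc1] with p hp h0
      have h2 := crd_vec x₀ hp (ξ x + (p.2 : E))
      rw [h0, map_zero] at h2
      have h3 : l (ξ x + (p.2 : E)) = 1 := by
        have h4 : l (p.2 : E) = 0 := p.2.2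
        rw [map_add, hl, h4, add_zero]
      rw [← h2, map_zero] at h3
      exact zero_ne_one h3
    have hW : ∀ᶠ p in 𝓝 ((g₁ x, 0) : P), (dUT E M).At c₁ p.1 ∧
        ContMDiffAt 𝓘(ℝ, P) 𝓘(ℝ, E).tangent ∞ W p ∧
          nm (E := E) (W p).proj (W p).snd = 1 := by
      filter_upwards [hcat, hsm, hne] with p h0 h1 h2
      refine ⟨h0, smV_normalize h1 h2, ?_⟩
      change ‖‖_‖⁻¹ • _‖ = 1
      rw [norm_smul, norm_inv, norm_norm, inv_mul_cancel₀ (norm_ne_zero_iff.2 h2)]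
    have hWz : ∀ᶠ z in 𝓝 (g x), (dUT E M).At c₁ (φ.symm z).1 ∧
        ContMDiffAt 𝓘(ℝ, P) 𝓘(ℝ, E).tangent ∞ W (φ.symm z) ∧
        nm (E := E) (W (φ.symm z)).proj (W (φ.symm z)).snd = 1 := by
      have h1 : Tendsto (fun z => φ.symm z) (𝓝 (g x)) (𝓝 ((g₁ x, 0) : P)) := by
        rw [← hgx]
        exact φ.symm.continuous.continuousAt
      exact h1.eventually hW
    have hcz : ∀ᶠ z in 𝓝 (g x), c z = (c₁ (φ.symm z).1, (c z).2) ∧
        foot (c z).2 = foot (c₁ (φ.symm z).1) := by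
      filter_upwards [hWz] with z h1
      have h3 : c z = _ := dif_pos h1.2.2
      rw [h3]
      exact ⟨rfl, rfl⟩
    refine ⟨⟨?_, ?_⟩, ?_⟩
    · have h1 : (dUT E M).At (fun z => c₁ (φ.symm z).1) (g x) := by
        have h2 : Sm (fun z => (φ.symm z).1) (g x) :=
          Sm.of_contDiff (contDiff_fst.comp φ.symm.contDiff) _
        exact (dUT E M).comp (u := c₁) (hWz.self_of_nhds.1) h2
      refine (dUT E M).congr h1 ?_
      filter_upwards [hcz] with z hz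
      change c₁ (φ.symm z).1 = (c z).1
      rw [hz.1]
    · have h1 : ∀ᶠ z in 𝓝 (g x), ContMDiffAt 𝓘(ℝ, EuclideanSpace ℝ (Fin (3 * m + 1)))
          𝓘(ℝ, E).tangent ∞ (fun z => (c z).2.1) z := by
        filter_upwards [hWz, hWz.eventually_nhds] with z h1 h2
        have h3 : ContMDiffAt 𝓘(ℝ, EuclideanSpace ℝ (Fin (3 * m + 1))) 𝓘(ℝ, E).tangent ∞
            (fun z => W (φ.symm z)) z :=
          h1.2.1.comp z (φ.symm.contDiff.contDiffAt.contMDiffAt)
        refine h3.congr_of_eventuallyEq ?_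
        filter_upwards [h2] with z' h4
        have h5 : c z' = _ := dif_pos h4.2.2
        rw [h5]
      exact h1
    · filter_upwards [hcz] with z hz
      change foot (c z).1 = foot (c z).2
      rw [hz.2, hz.1]
  · -- factorisation
    filter_upwards [hsrc, hlpos, hcg₁, hu.2] with s h1 h2 h1s h2s
    have h1s' : (u s).1 = c₁ (g₁ s) := h1s
    have h2s' : foot (u s).1 = foot (u s).2 := h2s
    have h3s : foot (c₁ (g₁ s)) = foot (u s).2 := by rw [← h1s', h2s']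
    have h3 : φ.symm (g s) = ((g₁ s, pr ((l (ξ s))⁻¹ • ξ s)) : P) :=
      φ.symm_apply_apply _
    have h4 : ξ x + ((pr ((l (ξ s))⁻¹ • ξ s) : K) : E) = (l (ξ s))⁻¹ • ξ s := by
      rw [hpr, map_smul, smul_eq_mul, inv_mul_cancel₀ h2.ne', one_smul]
      abel
    have h5 : W (φ.symm (g s)) = (u s).2.1 := by
      rw [h3]
      have key : ∀ y : M, y = (u s).2.1.1 →
          (⟨y, ‖vec x₀ y ((l (ξ s))⁻¹ • ξ s)‖⁻¹ • vec x₀ y ((l (ξ s))⁻¹ • ξ s)⟩ :
            TangentBundle 𝓘(ℝ, E) M) = (u s).2.1 := by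
        rintro y rfl
        rw [map_smul, vec_crd x₀ h1, norm_smul, hn1,
          mul_one, norm_inv, Real.norm_of_nonneg h2.le, _root_.inv_inv, smul_smul,
          mul_inv_cancel₀ h2.ne', one_smul]
      simp only [W]
      rw [h4]
      exact key _ h3s
    have h6 : nm (E := E) (W (φ.symm (g s))).proj (W (φ.symm (g s))).snd = 1 := by
      rw [h5]
      exact (u s).2.2
    have h7 : c (g s) = (c₁ (φ.symm (g s)).1, ⟨W (φ.symm (g s)), h6⟩) := dif_pos h6
    change u s = c (g s)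
    rw [h7]
    refine Prod.ext ?_ (UT.ext' ?_)
    · change (u s).1 = c₁ (φ.symm (g s)).1
      rw [h3]
      exact h1s'
    · change (u s).2.1 = W (φ.symm (g s))
      rw [h5]

end U2

/-! ### sphere bundles -/

section BunDim

open Vale.Agent.P231.Co Vale.Agent.P231.H584

variable {B S Fr Y : Type*} {DB : Dif B} {DS : Dif S} {DF : Dif Fr} {DY : Dif Y}
variable {G : Type} [NormedAddCommGroup G] [InnerProductSpace ℝ G] [FiniteDimensional ℝ G]

/-- **the dimension of a sphere bundle** -/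
theorem dimEq_bun {pi : S → B} {q : Fr → B} {ev : Fr × G → S} (h : Bun DB DS DF G pi q ev)
    {l : ℕ} (hl : finrank ℝ G = l + 1) {a : ℕ} (hB : DimEq DB a) {m : ℕ} (hm : m = a + l) :
    DimEq DS m := by
  intro E' _ _ _ s x hs
  obtain ⟨c, g, hg, hc, hcg⟩ := hB (h.hπ hs)
  obtain ⟨f, hf, hfc⟩ := h.hq.lift hc
  have hfg : DF.At (f ∘ g) x := DF.comp hf hg
  have hv : q ∘ (f ∘ g) =ᶠ[𝓝 x] pi ∘ s := by
    filter_upwards [hg.continuousAt.eventually hfc, hcg] with y h1 h2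
    change q (f (g y)) = pi (s y)
    have h1' : q (f (g y)) = c (g y) := h1
    have h2' : pi (s y) = c (g y) := h2
    rw [h1', h2']
  obtain ⟨ξ, hξ, h1⟩ := h.lift hs hfg hv
  set ξ0 : G := ξ x with hξ0
  have hn0 : ‖ξ0‖ = 1 := h1.self_of_nhds.1
  have hne : ξ0 ≠ 0 := by
    intro h
    rw [h, norm_zero] at hn0
    exact zero_ne_one hn0
  let T : Submodule ℝ G := (ℝ ∙ ξ0)ᗮ
  have : Fact (finrank ℝ G = l + 1) := ⟨hl⟩
  have hT : finrank ℝ T = l := Submodule.finrank_orthogonal_span_singleton hne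
  let V : Type := EuclideanSpace ℝ (Fin a) × T
  have hV : finrank ℝ V = finrank ℝ (EuclideanSpace ℝ (Fin m)) := by
    change finrank ℝ (EuclideanSpace ℝ (Fin a) × T) = _
    rw [finrank_prod, hT, finrank_euclideanSpace, finrank_euclideanSpace, Fintype.card_fin,
      Fintype.card_fin, hm]
  let φ : V ≃L[ℝ] EuclideanSpace ℝ (Fin m) := ContinuousLinearEquiv.ofFinrankEq hV
  let κ : V → S := fun z => ev (f z.1, (‖ξ0 + (z.2 : G)‖⁻¹ : ℝ) • (ξ0 + (z.2 : G)))
  let τ : E' → T := fun y => (inner ℝ ξ0 (ξ y) : ℝ)⁻¹ • T.orthogonalProjection (ξ y)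
  have hin : Sm (fun y => (inner ℝ ξ0 (ξ y) : ℝ)) x := by
    filter_upwards [hξ] with y hy using contDiffAt_const.inner ℝ hy
  have hin0 : (inner ℝ ξ0 (ξ x) : ℝ) = 1 := by
    rw [← hξ0, real_inner_self_eq_norm_sq, hn0, one_pow]
  have hpos : ∀ᶠ y in 𝓝 x, (0 : ℝ) < inner ℝ ξ0 (ξ y) := by
    refine hin.continuousAt.eventually (lt_mem_nhds ?_)
    change (0 : ℝ) < inner ℝ ξ0 (ξ x)
    rw [hin0]
    exact one_pos
  have hτ : Sm τ x := by
    filter_upwards [hin, hξ, hpos] with y h2 h3 h4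
    exact (h2.inv h4.ne').smul (T.orthogonalProjection.contDiff.contDiffAt.comp y h3)
  have hτe : ∀ y, (0 : ℝ) < inner ℝ ξ0 (ξ y) →
      ξ0 + ((τ y : T) : G) = (inner ℝ ξ0 (ξ y) : ℝ)⁻¹ • ξ y := by
    intro y hy
    have h2 : ((T.orthogonalProjection (ξ y) : T) : G) =
        ξ y - (inner ℝ ξ0 (ξ y) : ℝ) • ξ0 := by
      have h3 : T.starProjection (ξ y) = ξ y - (ℝ ∙ ξ0).starProjection (ξ y) := by
        rw [Submodule.starProjection_orthogonal_val]
      have h4 : (ℝ ∙ ξ0).starProjection (ξ y) = (inner ℝ ξ0 (ξ y) : ℝ) • ξ0 :=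
        Submodule.starProjection_unit_singleton ℝ hn0 (ξ y)
      rw [h4] at h3
      exact h3
    change ξ0 + (inner ℝ ξ0 (ξ y) : ℝ)⁻¹ • ((T.orthogonalProjection (ξ y) : T) : G) = _
    rw [h2, smul_sub, smul_smul, inv_mul_cancel₀ hy.ne', one_smul]
    abel
  have hnz : ∀ z : T, ξ0 + (z : G) ≠ 0 := by
    intro z h3
    have h4 : (inner ℝ ξ0 (z : G) : ℝ) = 0 :=
      Submodule.mem_orthogonal_singleton_iff_inner_right.1 z.2
    have h5 := congrArg (fun w : G => (inner ℝ ξ0 w : ℝ)) h3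
    simp only [inner_add_right, h4, real_inner_self_eq_norm_sq, hn0, inner_zero_right] at h5
    norm_num at h5
  have hκ : ∀ z : V, z.1 = g x → DS.At κ z := by
    intro z hz
    refine h.hev (u := fun z : V => (f z.1, (‖ξ0 + (z.2 : G)‖⁻¹ : ℝ) • (ξ0 + (z.2 : G)))) ?_
    refine ⟨⟨?_, ?_⟩, Eventually.of_forall fun z => ?_⟩
    · have h3 : Sm (Prod.fst : V → EuclideanSpace ℝ (Fin a)) z :=
        Sm.of_contDiff contDiff_fst _
      exact DF.comp (g := (Prod.fst : V → EuclideanSpace ℝ (Fin a)))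
        (u := f) (hz ▸ hf) h3
    · refine Eventually.of_forall fun z => ?_
      have h4 : ContDiffAt ℝ ∞ (fun z : V => ξ0 + (z.2 : G)) z :=
        (contDiff_const.add (T.subtypeL.contDiff.comp contDiff_snd)).contDiffAt
      exact ((h4.norm ℝ (hnz z.2)).inv (norm_ne_zero_iff.2 (hnz z.2))).smul h4
    · change ‖(‖ξ0 + (z.2 : G)‖⁻¹ : ℝ) • (ξ0 + (z.2 : G))‖ = 1
      rw [norm_smul, norm_inv, norm_norm, inv_mul_cancel₀ (norm_ne_zero_iff.2 (hnz z.2))]
  refine ⟨κ ∘ φ.symm, fun y => φ (g y, τ y), ?_, ?_, ?_⟩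
  · exact Sm.comp (f := φ) (g := fun y => (g y, τ y)) (Sm.of_contDiff φ.contDiff _) (hg.prodMk hτ)
  · refine DS.comp (u := κ) (g := φ.symm) ?_ (Sm.of_contDiff φ.symm.contDiff _)
    rw [φ.symm_apply_apply]
    exact hκ _ rfl
  · filter_upwards [h1, hpos] with y h2 h3
    change s y = κ (φ.symm (φ (g y, τ y)))
    rw [φ.symm_apply_apply]
    change s y = ev (f (g y), (‖ξ0 + ((τ y : T) : G)‖⁻¹ : ℝ) • (ξ0 + ((τ y : T) : G)))
    have h4 : ‖(inner ℝ ξ0 (ξ y) : ℝ)⁻¹ • ξ y‖ = (inner ℝ ξ0 (ξ y) : ℝ)⁻¹ := by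
      rw [norm_smul, h2.1, mul_one, norm_inv, Real.norm_of_nonneg h3.le]
    rw [hτe y h3, h4, _root_.inv_inv, smul_smul, mul_inv_cancel₀ h3.ne', one_smul]
    exact h2.2.symm

/-- the dimension under a smooth retraction -/
theorem dimEq_retract {f : S → Y} {g : Y → S} (hf : DS.Map DY f) (hg : DY.Map DS g)
    (hgf : ∀ {E : Type} [NormedAddCommGroup E] [NormedSpace ℝ E] [FiniteDimensional ℝ E]
      {u : E → Y} {x : E}, DY.At u x → f ∘ g ∘ u =ᶠ[𝓝 x] u) {a : ℕ} (hS : DimEq DS a) :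
    DimEq DY a := by
  intro E' _ _ _ s x hs
  obtain ⟨c, k, hk, hc, hck⟩ := hS (hg hs)
  refine ⟨f ∘ c, k, hk, hf hc, ?_⟩
  filter_upwards [hck, hgf hs] with y h1 h2
  have h1' : g (s y) = c (k y) := h1
  have h2' : f (g (s y)) = s y := h2
  change s y = f (c (k y))
  rw [← h1', h2']

end BunDim

end

end Vale.Agent.P231.S2T
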