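import Vale.Agent.P231.ChW.Bun
import Vale.Agent.P231.Co.On

/-!
# P231, stage 2, S2-T (T1, part 1): forms basic for a family of flows, and the classes of basic
idempotents in the ring of closed even such forms modulo exact ones
-/

set_option linter.unusedSectionVars false
set_option linter.unusedVariables false

open Matrix Set Filter Topology
open scoped ContDiff

namespace Vale.Agent.P231.S2T

open Fm W ChW H584

/-- a family of flows -/
structure Fam {X : Type*} (D : Dif X) (ι : Type*) where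
  /-- the flows -/
  Φ : ι → X × ℝ → X
  map : ∀ i, (D.prod (Dif.lin ℝ)).Map D (Φ i)

variable {X Y : Type*} {D : Dif X} {D' : Dif Y} {ι : Type*}

namespace Fam

variable (Ψ : Fam D ι)

/-- basic for all the flows -/
def B (w : Form D) : Prop := ∀ i, Basic (Ψ.Φ i) (Ψ.map i) w

/-- the algebra of closed, even, basic forms -/
def Bas : Subalgebra ℝ (Form D) where
  carrier := {w | w.sg = w ∧ w.d = 0 ∧ Ψ.B w}
  mul_mem' := fun {a b} ha hb => ⟨mul_even ha.1 hb.1, mul_closed ha.2.1 hb.2.1,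
    fun i => Basic.mul (ha.2.2 i) (hb.2.2 i)⟩
  add_mem' := fun {a b} ha hb => ⟨by rw [Form.sg_add, ha.1, hb.1], by
    rw [Form.d_add, ha.2.1, hb.2.1, add_zero], fun i => Basic.add (ha.2.2 i) (hb.2.2 i)⟩
  algebraMap_mem' := fun r => by
    rw [Algebra.algebraMap_eq_smul_one]
    exact ⟨by rw [Form.sg_smul, Form.sg_one], by rw [Form.d_smul, Form.d_one, smul_zero],
      fun i => Basic.smul r Basic.one⟩

noncomputable instance : CommRing Ψ.Bas :=
  { Ψ.Bas.toRing with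
    mul_comm := fun a b => Subtype.ext (even_comm a.2.1 b.1).eq }

/-- the ideal of the differentials of basic forms -/
def Exa : Ideal Ψ.Bas where
  carrier := {w | ∃ u : Form D, Ψ.B u ∧ (w : Form D) = u.d}
  zero_mem' := ⟨0, fun i => Basic.zero, by rw [Form.d_zero]; rfl⟩
  add_mem' := fun {a b} ha hb => by
    obtain ⟨u, hu, hu'⟩ := ha
    obtain ⟨v, hv, hv'⟩ := hb
    exact ⟨u + v, fun i => Basic.add (hu i) (hv i), by rw [Form.d_add, ← hu', ← hv']; rfl⟩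
  smul_mem' := fun c a ha => by
    obtain ⟨u, hu, hu'⟩ := ha
    refine ⟨c.1 * u, fun i => Basic.mul (c.2.2.2 i) (hu i), ?_⟩
    have h1 : ((c • a : Ψ.Bas) : Form D) = c.1 * a.1 := rfl
    rw [h1, Form.d_mul, c.2.2.1, zero_mul, zero_add, c.2.1, ← hu']

/-- the quotient ring -/
abbrev H : Type _ := Ψ.Bas ⧸ Ψ.Exa

/-- the quotient map -/
noncomputable def qm : Ψ.Bas →ₐ[ℝ] Ψ.H := Ideal.Quotient.mkₐ ℝ _

theorem qm_eq_of {a b : Ψ.Bas} {η : Form D} (h : Ψ.B η) (h' : (a : Form D) - b = η.d) :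
    Ψ.qm a = Ψ.qm b := by
  refine (Ideal.Quotient.mk_eq_mk_iff_sub_mem a b).2 ⟨η, h, ?_⟩
  rw [← h']
  rfl

theorem exists_of_qm_eq {a b : Ψ.Bas} (h : Ψ.qm a = Ψ.qm b) :
    ∃ η : Form D, Ψ.B η ∧ (a : Form D) - b = η.d := by
  obtain ⟨η, h1, h2⟩ := (Ideal.Quotient.mk_eq_mk_iff_sub_mem a b).1 h
  exact ⟨η, h1, h2⟩

theorem exists_of_qm_eq_zero {a : Ψ.Bas} (h : Ψ.qm a = 0) :
    ∃ η : Form D, Ψ.B η ∧ (a : Form D) = η.d := by
  obtain ⟨η, h1, h2⟩ := Ψ.exists_of_qm_eq (b := 0) (by rw [h, map_zero])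
  refine ⟨η, h1, ?_⟩
  rw [← h2]
  simp

theorem qm_surj : Function.Surjective Ψ.qm := Ideal.Quotient.mk_surjective

/-! ### pull back along equivariant maps -/

variable {Ψ} {Θ : Fam D' ι}

theorem basic_pull_eqv {Φ : X × ℝ → X} {hΦ : (D.prod (Dif.lin ℝ)).Map D Φ} {Φ' : Y × ℝ → Y}
    {hΦ' : (D'.prod (Dif.lin ℝ)).Map D' Φ'} {f : X → Y} (hf : D.Map D' f)
    (h : ∀ x t, f (Φ (x, t)) = Φ' (f x, t)) {w : Form D'} (hw : Basic Φ' hΦ' w) :
    Basic Φ hΦ (Form.pull f hf w) := by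
  have hk : (D.prod (Dif.lin ℝ)).Map D' (fun p : X × ℝ => f (Φ p)) := fun hu => hf (hΦ hu)
  have hl : (D.prod (Dif.lin ℝ)).Map D' (fun p : X × ℝ => f p.1) := fun hu => hf (Dif.map_fst hu)
  refine (pull_pull hΦ hf hk (fun p => rfl) w).trans ?_
  refine (pull_pull (map_cyl hf) hΦ' hk (fun p => (h p.1 p.2).symm) w).symm.trans ?_
  rw [basic_def] at hw
  rw [hw]
  refine (pull_pull (map_cyl hf) Dif.map_fst hl (fun p => rfl) w).trans ?_
  exact (pull_pull Dif.map_fst hf hl (fun p => rfl) w).symm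

theorem B.pull {f : X → Y} (hf : D.Map D' f)
    (h : ∀ i x t, f (Ψ.Φ i (x, t)) = Θ.Φ i (f x, t)) {w : Form D'} (hw : Θ.B w) :
    Ψ.B (Form.pull f hf w) := fun i => basic_pull_eqv hf (h i) (hw i)

/-- pull back along an equivariant map, on closed even basic forms -/
noncomputable def pl {f : X → Y} (hf : D.Map D' f)
    (h : ∀ i x t, f (Ψ.Φ i (x, t)) = Θ.Φ i (f x, t)) : Θ.Bas →ₐ[ℝ] Ψ.Bas :=
  ((Form.pullA f hf).comp Θ.Bas.val).codRestrict Ψ.Bas fun w =>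
    ⟨by
      change (Form.pull f hf w.1).sg = Form.pull f hf w.1
      rw [← Form.pull_sg, w.2.1], by
      change (Form.pull f hf w.1).d = 0
      rw [← Form.pull_d, w.2.2.1]
      exact map_zero (Form.pullA f hf), B.pull hf h w.2.2.2⟩

theorem coe_pl {f : X → Y} (hf : D.Map D' f)
    (h : ∀ i x t, f (Ψ.Φ i (x, t)) = Θ.Φ i (f x, t)) (w : Θ.Bas) :
    (pl hf h w : Form D) = Form.pull f hf w.1 := rfl

/-! ### restriction to an invariant subset -/

variable (Ψ)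

/-- the restricted family -/
def on (O : Set X) (hO : ∀ i, ∀ x ∈ O, ∀ t, Ψ.Φ i (x, t) ∈ O) : Fam (D.on O) ι where
  Φ := Ψ.Φ
  map i := by
    intro E _ _ _ u x hu
    refine ⟨Ψ.map i ⟨hu.1.1, hu.2⟩, ?_⟩
    filter_upwards [hu.1.2] with y hy
    exact hO i _ hy _

/-- restriction of closed even basic forms -/
noncomputable def rs (O : Set X) (hO : ∀ i, ∀ x ∈ O, ∀ t, Ψ.Φ i (x, t) ∈ O) :
    Ψ.Bas →ₐ[ℝ] (Ψ.on O hO).Bas :=
  pl (Ψ := Ψ.on O hO) (Θ := Ψ) Dif.map_on fun _ _ _ => rfl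

theorem coe_rs (O : Set X) (hO : ∀ i, ∀ x ∈ O, ∀ t, Ψ.Φ i (x, t) ∈ O) (w : Ψ.Bas) :
    (Ψ.rs O hO w : Form (D.on O)) = Form.res O w.1 := rfl

variable {Ψ}

theorem B.mx {O : Set X} {hO : ∀ i, ∀ x ∈ O, ∀ t, Ψ.Φ i (x, t) ∈ O} {τ : Form D}
    (hτ : τ.Supp O) (h : Ψ.B τ) {η : Form (D.on O)} (h' : (Ψ.on O hO).B η) :
    Ψ.B (Form.mx τ hτ η) := by
  intro i
  rw [basic_def]
  refine Form.ext_val fun E _ _ _ u x hu => ?_
  have h1 : (Form.pull (Ψ.Φ i) (Ψ.map i) τ).val u x = (pr τ).val u x := by rw [h i]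
  change _ = (Form.pull Prod.fst Dif.map_fst (Form.mx τ hτ η)).val u x
  change _ = (Form.pull Prod.fst Dif.map_fst τ).val u x at h1
  rw [Form.pull_val _ _ hu, Form.pull_val _ _ hu] at h1
  rw [Form.pull_val _ _ hu, Form.pull_val _ _ hu, Form.mx_val, Form.mx_val, h1]
  rcases hτ.out (Dif.map_fst hu) with h2 | h2
  · have h3 : ((D.on O).prod (Dif.lin ℝ)).At u x := ⟨⟨hu.1, h2⟩, hu.2⟩
    have h4 : (Form.pull ((Ψ.on O hO).Φ i) ((Ψ.on O hO).map i) η).val u x = (pr η).val u x :=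
      congrArg (fun w : Form ((D.on O).prod (Dif.lin ℝ)) => w.val u x) (h' i)
    have h5 : (Form.pull ((Ψ.on O hO).Φ i) ((Ψ.on O hO).map i) η).val u x =
        η.val (Ψ.Φ i ∘ u) x := Form.pull_val _ _ h3
    have h6 : (pr η).val u x = η.val (Prod.fst ∘ u) x := Form.pull_val Dif.map_fst _ h3
    rw [h5.symm.trans (h4.trans h6)]
  · rw [h2.self_of_nhds, zero_mul, zero_mul]

/-- **the cut-off argument** -/
theorem cut {O : Set X} {hO : ∀ i, ∀ x ∈ O, ∀ t, Ψ.Φ i (x, t) ∈ O} {x a : Ψ.Bas}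
    {τ β : Form D} (hτ : τ.Supp O) (hτs : τ.sg = τ) (hβ : Ψ.B β) (hx : (x : Form D) = τ + β.d)
    (h : (Ψ.on O hO).qm (Ψ.rs O hO a) = 0) : Ψ.qm x * Ψ.qm a = 0 := by
  obtain ⟨η, h1, h2⟩ := (Ψ.on O hO).exists_of_qm_eq_zero h
  rw [coe_rs] at h2
  have hτ' : τ = (x : Form D) - β.d := by rw [hx]; abel
  have hτd : τ.d = 0 := by
    rw [hτ', sub_eq_add_neg, Form.d_add, Form.d_neg, Form.d_d, x.2.2.1, neg_zero, add_zero]
  have hτB : Ψ.B τ := by
    intro i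
    rw [hτ']
    exact Basic.sub (x.2.2.2 i) (Basic.d (hβ i))
  have h3 : τ * a = (Form.mx τ hτ η).d := by
    rw [Form.mx_d]
    have e1 : Form.mx τ.d hτ.d η = 0 := by
      have : Form.mx τ.d hτ.d η = Form.mx (0 : Form D) Form.Supp.zero η :=
        Form.mx_congr hτd rfl
      rw [this]
      refine Form.ext_val fun E _ _ _ u x hu => ?_
      rw [Form.mx_val, Form.zero_val, zero_mul]
    have e2 : Form.mx τ.sg hτ.sg η.d = Form.mx τ hτ (Form.res O a.1) :=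
      Form.mx_congr hτs h2.symm
    rw [e1, e2, Form.mx_res, zero_add]
  rw [← map_mul, ← map_zero Ψ.qm]
  refine Ψ.qm_eq_of (η := Form.mx τ hτ η + β * a) (fun i => ?_) ?_
  · exact Basic.add (B.mx hτ hτB h1 i) (Basic.mul (hβ i) (a.2.2.2 i))
  · have e3 : ((x * a : Ψ.Bas) : Form D) = x.1 * a.1 := rfl
    rw [e3, hx, Form.d_add, ← h3, Form.d_mul, a.2.2.1, mul_zero, add_zero, add_mul]
    exact sub_zero _

end Fam

end Vale.Agent.P231.S2T
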