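import Vale.Agent.P231.S2T.Sp
import Vale.Agent.P231.S2T.Alg
import Vale.Agent.P231.WA.Inv

/-!
# P231, stage 2, block S2-T (T3, part 8): the functional on the ring of `V ×_M V`
-/

set_option linter.unusedSectionVars false
set_option linter.unusedVariables false

open Set Module Filter Topology
open scoped ContDiff

namespace Vale.Agent.P231.S2T

open Fm W H584

noncomputable section

/-! ### algebra -/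

theorem NN_zero {n a b d : ℕ} (h : a + b + d + 2 ≠ 3 * n) : NN n a b d = 0 := by
  rw [NN, if_neg (by omega), if_neg (by omega), if_neg (by omega), if_neg (by omega)]
  ring

theorem NN_pow (n a b d : ℕ) (r : ℝ) : r ^ (a + b + d) * NN n a b d =
    r ^ (3 * n - 2) * NN n a b d := by
  by_cases h : a + b + d + 2 = 3 * n
  · rw [show a + b + d = 3 * n - 2 by omega]
  · rw [NN_zero h, mul_zero, mul_zero]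

theorem val_alg {H : Type*} [CommRing H] [Algebra ℝ H] (L : H →ₗ[ℝ] ℝ) {n : ℕ} {c K : ℝ}
    {x₀ x₁ x₂ y₁ y₂ z₁ z₂ : H} (hs₁ : y₁ ^ 2 + z₁ ^ 2 = (2 * c) • (x₀ + x₁))
    (hs₂ : y₂ ^ 2 + z₂ ^ 2 = (2 * c) • (x₀ + x₂))
    (k0 : ∀ a b d, L (x₀ ^ a * x₁ ^ b * x₂ ^ d) = 0)
    (k1 : ∀ a b d, L (x₀ ^ a * x₁ ^ b * x₂ ^ d * z₁ ^ 2) = 0)
    (k2 : ∀ a b d, L (x₀ ^ a * x₁ ^ b * x₂ ^ d * z₂ ^ 2) = 0)
    (k3 : ∀ a b d, L (x₀ ^ a * x₁ ^ b * x₂ ^ d * (z₁ ^ 2 * z₂ ^ 2)) = K * NN n a b d) :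
    Val n K x₀ x₁ x₂ y₁ y₂ L := by
  refine ⟨fun a b d => ?_⟩
  have h1 : y₁ ^ 2 = (2 * c) • (x₀ + x₁) - z₁ ^ 2 := eq_sub_of_add_eq hs₁
  have h2 : y₂ ^ 2 = (2 * c) • (x₀ + x₂) - z₂ ^ 2 := eq_sub_of_add_eq hs₂
  have h3 : x₀ ^ a * x₁ ^ b * x₂ ^ d * (y₁ ^ 2 * y₂ ^ 2) =
      ((2 * c) * (2 * c)) • (x₀ ^ (a + 2) * x₁ ^ b * x₂ ^ d +
        x₀ ^ (a + 1) * x₁ ^ b * x₂ ^ (d + 1) + x₀ ^ (a + 1) * x₁ ^ (b + 1) * x₂ ^ d +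
        x₀ ^ a * x₁ ^ (b + 1) * x₂ ^ (d + 1)) -
      (2 * c) • (x₀ ^ (a + 1) * x₁ ^ b * x₂ ^ d * z₂ ^ 2 +
        x₀ ^ a * x₁ ^ (b + 1) * x₂ ^ d * z₂ ^ 2) -
      (2 * c) • (x₀ ^ (a + 1) * x₁ ^ b * x₂ ^ d * z₁ ^ 2 +
        x₀ ^ a * x₁ ^ b * x₂ ^ (d + 1) * z₁ ^ 2) +
      x₀ ^ a * x₁ ^ b * x₂ ^ d * (z₁ ^ 2 * z₂ ^ 2) := by
    rw [h1, h2]
    simp only [Algebra.smul_def, map_mul]
    ring
  rw [h3]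
  simp only [map_add, map_sub, map_smul, k0, k1, k2, k3]
  simp

section Coe

variable {X : Type*} {D : Dif X} {Φ₁ Φ₂ : X × ℝ → X} {m₁ : (D.prod (Dif.lin ℝ)).Map D Φ₁}
  {m₂ : (D.prod (Dif.lin ℝ)).Map D Φ₂}

theorem coe_mono {κ : ℝ} {F₀ F₁ F₂ w : Form D} {X₀ X₁ X₂ V : Bas2 Φ₁ Φ₂ m₁ m₂}
    (e₀ : (X₀ : Form D) = κ⁻¹ • F₀) (e₁ : (X₁ : Form D) = κ⁻¹ • F₁)
    (e₂ : (X₂ : Form D) = κ⁻¹ • F₂) (eV : (V : Form D) = w) (a b d : ℕ) :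
    ((X₀ ^ a * X₁ ^ b * X₂ ^ d * V : Bas2 Φ₁ Φ₂ m₁ m₂) : Form D) =
      (κ⁻¹) ^ (a + b + d) • (F₀ ^ a * F₁ ^ b * F₂ ^ d * w) := by
  change (X₀ : Form D) ^ a * (X₁ : Form D) ^ b * (X₂ : Form D) ^ d * (V : Form D) = _
  rw [e₀, e₁, e₂, eV, smul_pow, smul_pow, smul_pow, smul_mul_smul_comm, smul_mul_smul_comm,
    smul_mul_assoc, pow_add, pow_add]

end Coe

variable {X : Type*} {D : Dif X} {T : ℝ} {Φ₁ Φ₂ : X × ℝ → X} (h₁ : IsFlow D T Φ₁)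
  (h₂ : IsFlow D T Φ₂)

/-- an integral for two flows with connection forms `ν₁`, `ν₂` -/
structure Two (I : Form D →ₗ[ℝ] ℝ) (N : ℕ) (ν₁ ν₂ : Form D) : Prop where
  Id : ∀ w : Form D, I w.d = 0
  Ib₁ : ∀ w, Basic Φ₁ h₁.map w → I w = 0
  Ib₂ : ∀ w, Basic Φ₂ h₂.map w → I w = 0
  Im : ∀ w, I w = I (Form.part (N + 1) w)
  dim : ∀ w : Form D, Form.part (N + 2) w = 0
  c₁ : Form.pull Φ₁ h₁.map ν₁ = pr ν₁ + dt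
  c₂ : Form.pull Φ₂ h₂.map ν₂ = pr ν₂ + dt
  i₁ : Basic Φ₂ h₂.map ν₁
  i₂ : Basic Φ₁ h₁.map ν₂
  d₁ : Form.IsDeg 1 ν₁
  d₂ : Form.IsDeg 1 ν₂

section

variable {h₁ h₂} {I : Form D →ₗ[ℝ] ℝ} {N : ℕ} {ν₁ ν₂ : Form D} (S : Two h₁ h₂ I N ν₁ ν₂)
include S

theorem Two.o₁ : ν₁.sg = -ν₁ := S.d₁.sg_of_odd odd_one

theorem Two.o₂ : ν₂.sg = -ν₂ := S.d₂.sg_of_odd odd_one

/-- the averaging formula for the first flow -/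
theorem Two.avg₁ (τ : Form D) : I (ν₁ * J Φ₁ h₁.map T τ) = T * I τ := by
  have h3 : (Form.part (N + 1) τ).d = 0 := by rw [← Form.part_succ_d]; exact S.dim _
  have h4 : Basic Φ₁ h₁.map (Form.part (N + 1) τ).d := by rw [h3]; exact Basic.zero
  have h5 := avg h₁ S.c₁ S.o₁ S.Id S.Ib₁ h4
  rw [← S.Im] at h5
  rw [h5, S.Im (ν₁ * J Φ₁ h₁.map T τ), add_comm N 1, S.d₁.part_mul_left, WA.part_J, add_comm 1 N]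

/-- the averaging formula for the second flow -/
theorem Two.avg₂ (τ : Form D) : I (ν₂ * J Φ₂ h₂.map T τ) = T * I τ := by
  have h3 : (Form.part (N + 1) τ).d = 0 := by rw [← Form.part_succ_d]; exact S.dim _
  have h4 : Basic Φ₂ h₂.map (Form.part (N + 1) τ).d := by rw [h3]; exact Basic.zero
  have h5 := avg h₂ S.c₂ S.o₂ S.Id S.Ib₂ h4
  rw [← S.Im] at h5
  rw [h5, S.Im (ν₂ * J Φ₂ h₂.map T τ), add_comm N 1, S.d₂.part_mul_left, WA.part_J, add_comm 1 N]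

/-- exact forms -/
theorem Two.exact {u : Form D} (hu : Basic Φ₁ h₁.map u) (hv : Basic Φ₂ h₂.map u) :
    I (ν₁ * (ν₂ * u.d)) = 0 := by
  have h1 := S.Id (ν₁ * (ν₂ * u))
  have h2 : (ν₁ * (ν₂ * u)).d = ν₁.d * (ν₂ * u) - ν₁ * (ν₂.d * u) + ν₁ * (ν₂ * u.d) := by
    rw [Form.d_mul, Form.d_mul, S.o₁, S.o₂, neg_mul, neg_mul, mul_add, mul_neg]
    abel
  have h3 : I (ν₁.d * (ν₂ * u)) = 0 :=
    S.Ib₁ _ (Basic.mul (basic_d_contact h₁ S.c₁) (Basic.mul S.i₂ hu))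
  have h4 : I (ν₁ * (ν₂.d * u)) = 0 :=
    S.Ib₂ _ (Basic.mul S.i₁ (Basic.mul (basic_d_contact h₂ S.c₂) hv))
  rw [h2, map_add, map_sub, h3, h4, sub_zero, zero_add] at h1
  exact h1

/-- **the functional** `[a] ↦ I (ν₁ ν₂ a)` -/
def Two.L : H2 Φ₁ Φ₂ h₁.map h₂.map →ₗ[ℝ] ℝ where
  toFun q := Quotient.liftOn' q (fun a : Bas2 Φ₁ Φ₂ h₁.map h₂.map => I (ν₁ * (ν₂ * a.1))) (by
    intro a b hab
    have h1 : a - b ∈ Exa2 Φ₁ Φ₂ h₁.map h₂.map := (Submodule.quotientRel_def _).1 hab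
    obtain ⟨u, hu, hv, hu'⟩ := h1
    have h2 : ((a - b : Bas2 Φ₁ Φ₂ h₁.map h₂.map) : Form D) = a.1 - b.1 := rfl
    rw [h2] at hu'
    have h3 : a.1 = b.1 + u.d := by rw [← hu']; abel
    change I (ν₁ * (ν₂ * a.1)) = I (ν₁ * (ν₂ * b.1))
    rw [h3, mul_add, mul_add, map_add, S.exact hu hv, add_zero])
  map_add' p q := by
    obtain ⟨a, rfl⟩ := Ideal.Quotient.mk_surjective p
    obtain ⟨b, rfl⟩ := Ideal.Quotient.mk_surjective q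
    change I (ν₁ * (ν₂ * (a.1 + b.1))) = I (ν₁ * (ν₂ * a.1)) + I (ν₁ * (ν₂ * b.1))
    rw [mul_add, mul_add, map_add]
  map_smul' r q := by
    obtain ⟨a, rfl⟩ := Ideal.Quotient.mk_surjective q
    change I (ν₁ * (ν₂ * (r • a.1))) = r • I (ν₁ * (ν₂ * a.1))
    rw [mul_smul_comm, mul_smul_comm, map_smul]

theorem Two.L_mk (a : Bas2 Φ₁ Φ₂ h₁.map h₂.map) :
    S.L (Ideal.Quotient.mk (Exa2 Φ₁ Φ₂ h₁.map h₂.map) a) = I (ν₁ * (ν₂ * a.1)) := rfl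

/-- **the double averaging formula** -/
theorem Two.avg {B₁ B₂ W : Form D} (hB₁ : B₁.sg = -B₁) (hB₂ : B₂.sg = -B₂)
    (b₁ : Basic Φ₂ h₂.map B₁) (b₂ : Basic Φ₁ h₁.map B₂)
    (j₁ : Basic Φ₂ h₂.map (J Φ₁ h₁.map T B₁)) (j₂ : Basic Φ₁ h₁.map (J Φ₂ h₂.map T B₂))
    (hW : W.sg = W) (w₁ : Basic Φ₁ h₁.map W) (w₂ : Basic Φ₂ h₂.map W) :
    I (ν₁ * (ν₂ * (W * (J Φ₁ h₁.map T B₁ ^ 2 * J Φ₂ h₂.map T B₂ ^ 2)))) =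
      T * (T * I (B₁ * (B₂ * (J Φ₁ h₁.map T B₁ * (J Φ₂ h₂.map T B₂ * W))))) := by
  have e₁ : (J Φ₁ h₁.map T B₁).sg = J Φ₁ h₁.map T B₁ := by
    rw [J_def, KT_sg, ← Form.pull_sg, hB₁]
    have h1 : Form.pull Φ₁ h₁.map (-B₁) = -Form.pull Φ₁ h₁.map B₁ := map_neg (Form.pullA Φ₁ h₁.map) B₁
    rw [h1, KT_neg, neg_neg]
  have e₂ : (J Φ₂ h₂.map T B₂).sg = J Φ₂ h₂.map T B₂ := by
    rw [J_def, KT_sg, ← Form.pull_sg, hB₂]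
    have h1 : Form.pull Φ₂ h₂.map (-B₂) = -Form.pull Φ₂ h₂.map B₂ := map_neg (Form.pullA Φ₂ h₂.map) B₂
    rw [h1, KT_neg, neg_neg]
  set a₁ := J Φ₁ h₁.map T B₁ with ha₁
  set a₂ := J Φ₂ h₂.map T B₂ with ha₂
  have c₁ : ∀ x, a₁ * x = x * a₁ := fun x => (even_comm e₁ x).eq
  have c₂ : ∀ x, a₂ * x = x * a₂ := fun x => (even_comm e₂ x).eq
  have cW : ∀ x, W * x = x * W := fun x => (even_comm hW x).eq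
  have a₁b : Basic Φ₁ h₁.map a₁ := J_basic h₁ _
  have a₂b : Basic Φ₂ h₂.map a₂ := J_basic h₂ _
  -- the first average
  have s1 : ν₁ * (ν₂ * (W * (a₁ ^ 2 * a₂ ^ 2))) =
      ν₁ * J Φ₁ h₁.map T (B₁ * (ν₂ * (a₁ * (a₂ * (a₂ * W))))) := by
    rw [J_mul_basic _ _ (Basic.mul S.i₂ (Basic.mul a₁b (Basic.mul j₂ (Basic.mul j₂ w₁)))), ← ha₁]
    congr 1
    rw [c₁ (ν₂ * _), mul_assoc ν₂]
    congr 1
    rw [cW, sq, sq]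
    simp only [mul_assoc]
    rw [c₁ (a₂ * (a₂ * W))]
    simp only [mul_assoc]
  have s2 : B₁ * (ν₂ * (a₁ * (a₂ * (a₂ * W)))) =
      -(ν₂ * J Φ₂ h₂.map T (B₂ * (B₁ * (a₁ * (a₂ * W))))) := by
    rw [J_mul_basic _ _ (Basic.mul b₁ (Basic.mul j₁ (Basic.mul a₂b w₂))), ← ha₂, ← mul_assoc,
      Form.mul_of_odd hB₁, S.o₂, neg_mul, neg_mul, mul_assoc]
    congr 2
    rw [c₂ (B₁ * _), mul_assoc B₁]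
    congr 1
    rw [mul_assoc]
    congr 1
    rw [← c₂]
  have s3 : B₂ * (B₁ * (a₁ * (a₂ * W))) = -(B₁ * (B₂ * (a₁ * (a₂ * W)))) := by
    rw [← mul_assoc, Form.mul_of_odd hB₂, hB₁, neg_mul, neg_mul, mul_assoc]
  rw [s1, S.avg₁, s2, map_neg, S.avg₂, s3, map_neg]
  ring

/-- the functional on monomials -/
theorem Two.L_mono {κ : ℝ} {F₀ F₁ F₂ w : Form D} {X₀ X₁ X₂ V : Bas2 Φ₁ Φ₂ h₁.map h₂.map}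
    (e₀ : (X₀ : Form D) = κ⁻¹ • F₀) (e₁ : (X₁ : Form D) = κ⁻¹ • F₁)
    (e₂ : (X₂ : Form D) = κ⁻¹ • F₂) (eV : (V : Form D) = w) (a b d : ℕ) :
    S.L (Ideal.Quotient.mk _ X₀ ^ a * Ideal.Quotient.mk _ X₁ ^ b * Ideal.Quotient.mk _ X₂ ^ d *
      Ideal.Quotient.mk _ V) =
      (κ⁻¹) ^ (a + b + d) * I (ν₁ * (ν₂ * (F₀ ^ a * F₁ ^ b * F₂ ^ d * w))) := by
  have h1 : S.L (Ideal.Quotient.mk _ X₀ ^ a * Ideal.Quotient.mk _ X₁ ^ b *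
      Ideal.Quotient.mk _ X₂ ^ d * Ideal.Quotient.mk _ V) =
      I (ν₁ * (ν₂ * ((X₀ ^ a * X₁ ^ b * X₂ ^ d * V : Bas2 Φ₁ Φ₂ h₁.map h₂.map) : Form D))) := rfl
  rw [h1, coe_mono e₀ e₁ e₂ eV, mul_smul_comm, mul_smul_comm, map_smul, smul_eq_mul]

/-- **the values of the functional** -/
theorem Two.val {n : ℕ} {κ c A : ℝ} {F₀ F₁ F₂ B₁ B₂ : Form D}
    {X₀ X₁ X₂ Y₁ Y₂ Z₁ Z₂ : Bas2 Φ₁ Φ₂ h₁.map h₂.map}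
    (e₀ : (X₀ : Form D) = κ⁻¹ • F₀) (e₁ : (X₁ : Form D) = κ⁻¹ • F₁)
    (e₂ : (X₂ : Form D) = κ⁻¹ • F₂) (hF₀ : F₀.sg = F₀) (hF₁ : F₁.sg = F₁) (hF₂ : F₂.sg = F₂)
    (bF₀ : Basic Φ₁ h₁.map F₀ ∧ Basic Φ₂ h₂.map F₀) (bF₁ : Basic Φ₁ h₁.map F₁ ∧ Basic Φ₂ h₂.map F₁)
    (bF₂ : Basic Φ₁ h₁.map F₂ ∧ Basic Φ₂ h₂.map F₂)
    (hB₁ : B₁.sg = -B₁) (hB₂ : B₂.sg = -B₂)
    (b₁ : Basic Φ₂ h₂.map B₁) (b₂ : Basic Φ₁ h₁.map B₂)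
    (z₁ : (Z₁ : Form D) = κ⁻¹ • J Φ₁ h₁.map T B₁) (z₂ : (Z₂ : Form D) = κ⁻¹ • J Φ₂ h₂.map T B₂)
    (j₁ : Basic Φ₂ h₂.map (J Φ₁ h₁.map T B₁)) (j₂ : Basic Φ₁ h₁.map (J Φ₂ h₂.map T B₂))
    (hs₁ : Ideal.Quotient.mk (Exa2 Φ₁ Φ₂ h₁.map h₂.map) Y₁ ^ 2 + Ideal.Quotient.mk _ Z₁ ^ 2 =
      (2 * c) • (Ideal.Quotient.mk _ X₀ + Ideal.Quotient.mk _ X₁))
    (hs₂ : Ideal.Quotient.mk (Exa2 Φ₁ Φ₂ h₁.map h₂.map) Y₂ ^ 2 + Ideal.Quotient.mk _ Z₂ ^ 2 =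
      (2 * c) • (Ideal.Quotient.mk _ X₀ + Ideal.Quotient.mk _ X₂))
    (v₀ : ∀ a b d, I (ν₁ * (ν₂ * (F₀ ^ a * F₁ ^ b * F₂ ^ d))) = 0)
    (v₁ : ∀ a b d, I (ν₁ * (ν₂ * (F₀ ^ a * F₁ ^ b * F₂ ^ d * J Φ₁ h₁.map T B₁ ^ 2))) = 0)
    (v₂ : ∀ a b d, I (ν₁ * (ν₂ * (F₀ ^ a * F₁ ^ b * F₂ ^ d * J Φ₂ h₂.map T B₂ ^ 2))) = 0)
    (v₃ : ∀ a b d, I (B₁ * (B₂ * (J Φ₁ h₁.map T B₁ * (J Φ₂ h₂.map T B₂ *
      (F₀ ^ a * F₁ ^ b * F₂ ^ d))))) = A * NN n a b d) :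
    Val n ((κ⁻¹) ^ (3 * n - 2) * ((κ⁻¹) ^ 4 * (T * (T * A)))) (Ideal.Quotient.mk _ X₀)
      (Ideal.Quotient.mk _ X₁) (Ideal.Quotient.mk _ X₂) (Ideal.Quotient.mk _ Y₁)
      (Ideal.Quotient.mk _ Y₂) S.L := by
  refine val_alg S.L hs₁ hs₂ (fun a b d => ?_) (fun a b d => ?_) (fun a b d => ?_)
    fun a b d => ?_
  · have h := S.L_mono e₀ e₁ e₂ (V := 1) (w := 1) rfl a b d
    rw [mul_one, v₀, mul_zero] at h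
    refine Eq.trans ?_ h
    congr 1
    exact (mul_one _).symm
  · have h := S.L_mono e₀ e₁ e₂ (V := Z₁ ^ 2) (w := (κ⁻¹ • J Φ₁ h₁.map T B₁) ^ 2)
      (by rw [← z₁]; rfl) a b d
    rw [smul_pow, mul_smul_comm, mul_smul_comm, mul_smul_comm, map_smul, v₁, smul_zero,
      mul_zero] at h
    exact h
  · have h := S.L_mono e₀ e₁ e₂ (V := Z₂ ^ 2) (w := (κ⁻¹ • J Φ₂ h₂.map T B₂) ^ 2)
      (by rw [← z₂]; rfl) a b d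
    rw [smul_pow, mul_smul_comm, mul_smul_comm, mul_smul_comm, map_smul, v₂, smul_zero,
      mul_zero] at h
    exact h
  · have h := S.L_mono e₀ e₁ e₂ (V := Z₁ ^ 2 * Z₂ ^ 2)
      (w := (κ⁻¹ • J Φ₁ h₁.map T B₁) ^ 2 * (κ⁻¹ • J Φ₂ h₂.map T B₂) ^ 2)
      (by rw [← z₁, ← z₂]; rfl) a b d
    have hW : (F₀ ^ a * F₁ ^ b * F₂ ^ d).sg = F₀ ^ a * F₁ ^ b * F₂ ^ d :=
      mul_even (mul_even (pow_even hF₀ a) (pow_even hF₁ b)) (pow_even hF₂ d)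
    rw [smul_pow, smul_pow, smul_mul_smul_comm, mul_smul_comm,
      mul_smul_comm, mul_smul_comm, map_smul, S.avg hB₁ hB₂ b₁ b₂ j₁ j₂ hW
        (Basic.mul (Basic.mul (Basic.pow bF₀.1 a) (Basic.pow bF₁.1 b)) (Basic.pow bF₂.1 d))
        (Basic.mul (Basic.mul (Basic.pow bF₀.2 a) (Basic.pow bF₁.2 b)) (Basic.pow bF₂.2 d)),
      v₃, smul_eq_mul] at h
    refine Eq.trans ?_ (h.trans ?_)
    · rfl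
    · linear_combination (κ⁻¹ ^ 4 * (T * (T * A))) * NN_pow n a b d κ⁻¹

end

end

end Vale.Agent.P231.S2T
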