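import Vale.Agent.P231.S2T.Rank

/-!
# P231, stage 2, S2-T (T1 + T2): the rank relation multiplied by a form supported where the two
planes are independent
-/

set_option linter.unusedSectionVars false
set_option linter.unusedVariables false

open Matrix Set Filter Topology
open scoped ContDiff

namespace Vale.Agent.P231.S2T

open Fm W ChW H584 X3

variable {X Y : Type*} {D : Dif X} {D' : Dif Y} {ι : Type*}
variable {n m l : Type*} [Fintype n] [DecidableEq n] [Fintype m] [DecidableEq m] [Fintype l]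
  [DecidableEq l]

/-! ### functions which only matter on a subset -/

theorem fr_congr_on {O : Set X} {f g : X → ℝ} (hf : SmF (D.on O) f) (hg : SmF (D.on O) g)
    (h : ∀ x ∈ O, f x = g x) : fr f hf = fr g hg :=
  Form.ext_val fun E _ _ _ u x hu => by
    rw [fr_val f hf hu, fr_val g hg hu, h _ hu.2.self_of_nhds]

theorem cM_congr_on {O : Set X} {a b : X → Matrix m n ℂ} (ha : SmM (D.on O) a)
    (hb : SmM (D.on O) b) (h : ∀ x ∈ O, a x = b x) : cM a ha = cM b hb := by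
  ext1 i j
  rw [cM_apply, cM_apply]
  ext1
  · exact fr_congr_on (ha i j).re (hb i j).re fun x hx => by simp only [h x hx]
  · exact fr_congr_on (ha i j).im (hb i j).im fun x hx => by simp only [h x hx]

theorem cR_congr_on {O : Set X} {A B : X → Matrix m n ℝ} (hA : SmM (D.on O) A)
    (hB : SmM (D.on O) B) (h : ∀ x ∈ O, A x = B x) : cR A hA = cR B hB :=
  cM_congr_on _ _ fun x hx => by rw [h x hx]

open Classical in
/-- the function cut off outside `O` -/
noncomputable def ind (O : Set X) (A : X → Matrix m n ℝ) (x : X) : Matrix m n ℝ :=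
  if x ∈ O then A x else 0

theorem ind_of_mem {O : Set X} (A : X → Matrix m n ℝ) {x : X} (h : x ∈ O) : ind O A x = A x :=
  if_pos h

theorem ind_of_not_mem {O : Set X} (A : X → Matrix m n ℝ) {x : X} (h : x ∉ O) :
    ind O A x = 0 := if_neg h

theorem SmM.on {O : Set X} {A : X → Matrix m n ℝ} (hA : SmM D A) : SmM (D.on O) A :=
  hA.comp Dif.map_on

theorem SmM.ind {O : Set X} {A : X → Matrix m n ℝ} (hA : SmM (D.on O) A) :
    SmM (D.on O) (ind O A) := by
  intro i j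
  refine SmF.of ?_
  intro E _ _ _ u x hu
  refine ((hA i j).sm hu).congr ?_
  filter_upwards [hu.2] with y hy
  rw [ind_of_mem A hy]

section Main

variable {Ψ : Fam D ι} {O : Set X} {T P Q : X → Matrix n n ℝ}

theorem rs_cl {hO : ∀ i, ∀ x ∈ O, ∀ t, Ψ.Φ i (x, t) ∈ O} {A : X → Matrix n n ℝ} {hA : SmM D A} (bA : IB Ψ (cR A hA))
    (bA' : IB (Ψ.on O hO) (cR (ind O A) (SmM.ind (SmM.on hA)))) (k : ℕ) :
    Ψ.rs O hO (bA.cl k) = bA'.cl k := by
  have h1 := IB.pl_cl (Ψ := Ψ.on O hO) (Θ := Ψ) bA Dif.map_on (fun _ _ _ => rfl) k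
  refine h1.trans (IB.cl_congr _ _ ?_ k)
  rw [map_pullC_cR]
  exact cR_congr_on _ _ fun x hx => (ind_of_mem A hx).symm

theorem glob (hO : ∀ i, ∀ x ∈ O, ∀ t, Ψ.Φ i (x, t) ∈ O) (hT : SmM D T) (hP : SmM D P)
    (hQ : SmM D Q) (h : ∀ x ∈ O, Indep (P x) (Q x))
    (hTT : ∀ x ∈ O, T x * T x = T x) (hTt : ∀ x ∈ O, (T x)ᵀ = T x)
    (hTP : ∀ x ∈ O, T x * P x = P x) (hTQ : ∀ x ∈ O, T x * Q x = Q x)
    (iT : ∀ i, ∀ x ∈ O, ∀ t, T (Ψ.Φ i (x, t)) = T x)
    (iP : ∀ i, ∀ x ∈ O, ∀ t, P (Ψ.Φ i (x, t)) = P x)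
    (iQ : ∀ i, ∀ x ∈ O, ∀ t, Q (Ψ.Φ i (x, t)) = Q x)
    (iO : ∀ i x t, Ψ.Φ i (x, t) ∈ O → x ∈ O)
    (bT : IB Ψ (cR T hT)) (bP : IB Ψ (cR P hP)) (bQ : IB Ψ (cR Q hQ)) {r : ℕ}
    (hr : ∀ x ∈ O, ∃ s : ℕ, s ≤ r ∧ trace (T x) = trace (P x) + trace (Q x) + s)
    {C : ℕ → Ψ.Bas} (hC : NewtonRec ℝ (fun k => bT.cl k - bP.cl k - bQ.cl k) C)
    {x : Ψ.Bas} {τ β : Form D} (hτ : τ.Supp O) (hτs : τ.sg = τ) (hβ : Ψ.B β)
    (hx : (x : Form D) = τ + β.d) {j : ℕ} (hj : r < j) : Ψ.qm x * Ψ.qm (C j) = 0 := by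
  have iind : ∀ {A : X → Matrix n n ℝ} (iA : ∀ i, ∀ x ∈ O, ∀ t, A (Ψ.Φ i (x, t)) = A x)
      (i : ι) (x : X) (t : ℝ), ind O A ((Ψ.on O hO).Φ i (x, t)) = ind O A x := by
    intro A iA i x t
    change ind O A (Ψ.Φ i (x, t)) = ind O A x
    by_cases hx : x ∈ O
    · rw [ind_of_mem A hx, ind_of_mem A (hO i x hx t), iA i x hx]
    · rw [ind_of_not_mem A hx, ind_of_not_mem A fun h => hx (iO i x t h)]
  have mulind : ∀ {A B C : X → Matrix n n ℝ} (h : ∀ x ∈ O, A x * B x = C x) (x : X),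
      ind O A x * ind O B x = ind O C x := by
    intro A B C h x
    by_cases hx : x ∈ O
    · rw [ind_of_mem A hx, ind_of_mem B hx, ind_of_mem C hx, h x hx]
    · rw [ind_of_not_mem A hx, ind_of_not_mem C hx, Matrix.zero_mul]
  have h' : ∀ x, Indep (ind O P x) (ind O Q x) := by
    intro x
    by_cases hx : x ∈ O
    · rw [ind_of_mem P hx, ind_of_mem Q hx]
      exact h x hx
    · rw [ind_of_not_mem P hx, ind_of_not_mem Q hx]
      exact ⟨Matrix.zero_mul _, Matrix.zero_mul _, transpose_zero, transpose_zero,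
        fun v hv _ => by rw [← hv, zero_mulVec]⟩
  have bT' : IB (Ψ.on O hO) (cR (ind O T) (SmM.ind (SmM.on hT))) :=
    ib_cR _ (mulind hTT) (iind iT)
  have bP' : IB (Ψ.on O hO) (cR (ind O P) (SmM.ind (SmM.on hP))) :=
    ib_cR _ (mulind fun x hx => (h x hx).PP) (iind iP)
  have bQ' : IB (Ψ.on O hO) (cR (ind O Q) (SmM.ind (SmM.on hQ))) :=
    ib_cR _ (mulind fun x hx => (h x hx).QQ) (iind iQ)
  refine Fam.cut (hO := hO) hτ hτs hβ hx ?_
  have h1 := (hC.map (Ψ.rs O hO)).map (Ψ.on O hO).qm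
  refine rank_rel (C := fun j => (Ψ.on O hO).qm (Ψ.rs O hO (C j))) (SmM.ind (SmM.on hT))
    (SmM.ind (SmM.on hP)) (SmM.ind (SmM.on hQ)) h' (mulind hTT) (fun x => ?_) (mulind hTP)
    (mulind hTQ) (iind iT) (iind iP) (iind iQ) bT' bP' bQ' (r := r) (fun x => ?_) ?_ hj
  · by_cases hx : x ∈ O
    · rw [ind_of_mem T hx, hTt x hx]
    · rw [ind_of_not_mem T hx, transpose_zero]
  · by_cases hx : x ∈ O
    · rw [ind_of_mem T hx, ind_of_mem P hx, ind_of_mem Q hx]
      exact hr x hx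
    · rw [ind_of_not_mem T hx, ind_of_not_mem P hx, ind_of_not_mem Q hx]
      exact ⟨0, Nat.zero_le _, by simp⟩
  · have h2 : (fun i => (Ψ.on O hO).qm (Ψ.rs O hO (bT.cl i - bP.cl i - bQ.cl i))) =
        fun k => (Ψ.on O hO).qm (bT'.cl k - bP'.cl k - bQ'.cl k) := by
      funext k
      rw [map_sub (Ψ.rs O hO), map_sub (Ψ.rs O hO), rs_cl bT bT', rs_cl bP bP', rs_cl bQ bQ']
    rw [h2] at h1
    exact h1

/-- Newton's recursion with vanishing odd power sums -/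
theorem newton_even {R : Type*} [CommRing R] [Algebra ℝ R] {s C : ℕ → R}
    (hC : NewtonRec ℝ s C) (hs : ∀ k, Odd k → s k = 0) :
    (∀ k, Odd k → C k = 0) ∧ ∀ k : ℕ, (2 * ((k : ℝ) + 1)) • C (2 * (k + 1)) =
      -∑ j ∈ Finset.range (k + 1), s (2 * (j + 1)) * C (2 * (k - j)) := by
  have hodd : ∀ k, Odd k → C k = 0 := by
    intro k
    induction k using Nat.strong_induction_on with
    | _ k ih =>
      intro hk
      obtain ⟨j, rfl⟩ := hk
      have h1 := hC.2 (2 * j)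
      have h2 : ∑ i ∈ Finset.range (2 * j + 1), (-1 : ℝ) ^ i • (s (i + 1) * C (2 * j - i)) = 0 := by
        refine Finset.sum_eq_zero fun i hi => ?_
        have hi' : i < 2 * j + 1 := Finset.mem_range.1 hi
        rcases Nat.even_or_odd i with he | ho
        · rw [hs (i + 1) he.add_one, zero_mul, smul_zero]
        · have h3 : Odd (2 * j - i) := by
            obtain ⟨a, rfl⟩ := ho
            exact ⟨j - a - 1, by omega⟩
          rw [ih _ (by omega) h3, mul_zero, smul_zero]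
      rw [h2] at h1
      have h4 : ((2 * j : ℕ) : ℝ) + 1 ≠ 0 := by positivity
      exact (smul_eq_zero.1 h1).resolve_left h4
  refine ⟨hodd, fun k => ?_⟩
  have h1 := hC.2 (2 * k + 1)
  have h2 : 2 * (k + 1) = 2 * k + 1 + 1 := by ring
  have h3 : (2 * ((k : ℝ) + 1)) = ((2 * k + 1 : ℕ) : ℝ) + 1 := by push_cast; ring
  rw [h2, h3, h1]
  have h4 : ∀ N, ∑ i ∈ Finset.range (2 * (N + 1)), (-1 : ℝ) ^ i •
      (s (i + 1) * C (2 * k + 1 - i)) =
      ∑ j ∈ Finset.range (N + 1), ((-1 : ℝ) ^ (2 * j) • (s (2 * j + 1) * C (2 * k + 1 - 2 * j)) +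
        (-1 : ℝ) ^ (2 * j + 1) • (s (2 * j + 2) * C (2 * k + 1 - (2 * j + 1)))) := by
    intro N
    induction N with
    | zero => simp [Finset.sum_range_succ]
    | succ N ih =>
      rw [show 2 * (N + 1 + 1) = 2 * (N + 1) + 1 + 1 by ring, Finset.sum_range_succ,
        Finset.sum_range_succ, ih, Finset.sum_range_succ _ (N + 1), add_assoc]
  rw [show 2 * k + 1 + 1 = 2 * (k + 1) by ring, h4, ← Finset.sum_neg_distrib]
  refine Finset.sum_congr rfl fun j hj => ?_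
  have hj' : j < k + 1 := Finset.mem_range.1 hj
  rw [hs (2 * j + 1) ⟨j, rfl⟩, zero_mul, smul_zero, zero_add, pow_succ, pow_mul]
  have h5 : 2 * k + 1 - (2 * j + 1) = 2 * (k - j) := by omega
  rw [h5]
  simp
  ring_nf

end Main

end Vale.Agent.P231.S2T
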