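import Vale.Agent.P231.Co.On
import Vale.Agent.P231.H584.Bas

/-!
# P231, stage 2, block S2-T (geometry, part 0): the fibre product `V ×_M V` and its ring

`Bas2` = closed even forms which are basic for two flows, `Exa2` = differentials of forms which are
basic for both flows, `H2 = Bas2 ⧸ Exa2`.
-/

set_option linter.unusedSectionVars false
set_option linter.unusedVariables false

open MeasureTheory Set Module Filter Topology
open scoped ContDiff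

namespace Vale.Agent.P231.S2T

open Fm W H584

noncomputable section

/-! ### forms which are basic for two flows -/

section Ring

variable {X : Type*} {D : Dif X} (Φ₁ Φ₂ : X × ℝ → X) (h₁ : (D.prod (Dif.lin ℝ)).Map D Φ₁)
  (h₂ : (D.prod (Dif.lin ℝ)).Map D Φ₂)

/-- the algebra of closed, even forms which are basic for both flows -/
def Bas2 : Subalgebra ℝ (Form D) where
  carrier := {w | w.sg = w ∧ w.d = 0 ∧ Basic Φ₁ h₁ w ∧ Basic Φ₂ h₂ w}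
  mul_mem' := fun {a b} ha hb => ⟨mul_even ha.1 hb.1, mul_closed ha.2.1 hb.2.1,
    Basic.mul ha.2.2.1 hb.2.2.1, Basic.mul ha.2.2.2 hb.2.2.2⟩
  add_mem' := fun {a b} ha hb => ⟨by rw [Form.sg_add, ha.1, hb.1], by
    rw [Form.d_add, ha.2.1, hb.2.1, add_zero], Basic.add ha.2.2.1 hb.2.2.1,
    Basic.add ha.2.2.2 hb.2.2.2⟩
  algebraMap_mem' := fun r => by
    rw [Algebra.algebraMap_eq_smul_one]
    exact ⟨by rw [Form.sg_smul, Form.sg_one], by rw [Form.d_smul, Form.d_one, smul_zero],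
      Basic.smul r Basic.one, Basic.smul r Basic.one⟩

noncomputable instance : CommRing (Bas2 Φ₁ Φ₂ h₁ h₂) :=
  { (Bas2 Φ₁ Φ₂ h₁ h₂).toRing with
    mul_comm := fun a b => Subtype.ext (even_comm a.2.1 b.1).eq }

/-- the ideal of the differentials of forms which are basic for both flows -/
def Exa2 : Ideal (Bas2 Φ₁ Φ₂ h₁ h₂) where
  carrier := {w | ∃ u : Form D, Basic Φ₁ h₁ u ∧ Basic Φ₂ h₂ u ∧ (w : Form D) = u.d}
  zero_mem' := ⟨0, Basic.zero, Basic.zero, by rw [Form.d_zero]; rfl⟩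
  add_mem' := fun {a b} ha hb => by
    obtain ⟨u, hu, hv, hu'⟩ := ha
    obtain ⟨v, hu1, hv1, hv'⟩ := hb
    exact ⟨u + v, Basic.add hu hu1, Basic.add hv hv1, by rw [Form.d_add, ← hu', ← hv']; rfl⟩
  smul_mem' := fun c a ha => by
    obtain ⟨u, hu, hv, hu'⟩ := ha
    refine ⟨c.1 * u, Basic.mul c.2.2.2.1 hu, Basic.mul c.2.2.2.2 hv, ?_⟩
    have h1 : ((c • a : Bas2 Φ₁ Φ₂ h₁ h₂) : Form D) = c.1 * a.1 := rfl
    rw [h1, Form.d_mul, c.2.2.1, zero_mul, zero_add, c.2.1, ← hu']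

/-- the quotient ring -/
abbrev H2 : Type _ := Bas2 Φ₁ Φ₂ h₁ h₂ ⧸ Exa2 Φ₁ Φ₂ h₁ h₂

variable {Φ₁ Φ₂ h₁ h₂}

/-- equality in the quotient -/
theorem quot_eq2 {a b : Bas2 Φ₁ Φ₂ h₁ h₂} (h : Ideal.Quotient.mk (Exa2 Φ₁ Φ₂ h₁ h₂) a =
    Ideal.Quotient.mk (Exa2 Φ₁ Φ₂ h₁ h₂) b) :
    ∃ u : Form D, Basic Φ₁ h₁ u ∧ Basic Φ₂ h₂ u ∧ (a : Form D) = b + u.d := by
  rw [Ideal.Quotient.eq] at h
  obtain ⟨u, hu, hv, hu'⟩ := h
  have h1 : ((a - b : Bas2 Φ₁ Φ₂ h₁ h₂) : Form D) = a.1 - b.1 := rfl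
  exact ⟨u, hu, hv, by rw [← hu', h1]; abel⟩

theorem eq_quot2 {a b : Bas2 Φ₁ Φ₂ h₁ h₂} {u : Form D} (hu : Basic Φ₁ h₁ u)
    (hv : Basic Φ₂ h₂ u) (h : (a : Form D) = b + u.d) :
    Ideal.Quotient.mk (Exa2 Φ₁ Φ₂ h₁ h₂) a = Ideal.Quotient.mk (Exa2 Φ₁ Φ₂ h₁ h₂) b := by
  rw [Ideal.Quotient.eq]
  refine ⟨u, hu, hv, ?_⟩
  have h1 : ((a - b : Bas2 Φ₁ Φ₂ h₁ h₂) : Form D) = a.1 - b.1 := rfl
  rw [h1, h]
  abel

end Ring

/-! ### maps of rings -/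

section Maps

variable {X Y : Type*} {D : Dif X} {D' : Dif Y} {Φ₁ Φ₂ : X × ℝ → X}
  {h₁ : (D.prod (Dif.lin ℝ)).Map D Φ₁} {h₂ : (D.prod (Dif.lin ℝ)).Map D Φ₂}
  {ψ : Y × ℝ → Y} {hψ : (D'.prod (Dif.lin ℝ)).Map D' ψ} {f : X → Y}

/-- the pullback of a basic form under an equivariant map -/
theorem basic_equiv (hf : D.Map D' f) (he : ∀ x t, f (Φ₁ (x, t)) = ψ (f x, t)) {w : Form D'}
    (hw : Basic ψ hψ w) : Basic Φ₁ h₁ (Form.pull f hf w) := by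
  have h0 : (D.prod (Dif.lin ℝ)).Map (D'.prod (Dif.lin ℝ)) (fun p => (f p.1, p.2)) :=
    fun h => ⟨hf h.1, h.2⟩
  have hk : (D.prod (Dif.lin ℝ)).Map D' (fun p => ψ (f p.1, p.2)) := fun h => hψ (h0 h)
  have hk' : (D.prod (Dif.lin ℝ)).Map D' (fun p => f p.1) := fun h => hf h.1
  rw [basic_def]
  rw [pull_pull (k := fun p : X × ℝ => ψ (f p.1, p.2)) h₁ hf hk (fun p => he p.1 p.2) w,
    ← pull_pull (k := fun p : X × ℝ => ψ (f p.1, p.2)) h0 hψ hk (fun p => rfl) w, hw]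
  rw [pr, pr, pull_pull (k := fun p : X × ℝ => f p.1) h0 Dif.map_fst hk' (fun p => rfl) w,
    pull_pull (k := fun p : X × ℝ => f p.1) Dif.map_fst hf hk' (fun p => rfl) w]

/-- pullback along a map equivariant for the first flow and invariant under the second -/
def basMap₁ (hf : D.Map D' f) (he : ∀ x t, f (Φ₁ (x, t)) = ψ (f x, t))
    (hi : ∀ x t, f (Φ₂ (x, t)) = f x) : Bas ψ hψ →ₐ[ℝ] Bas2 Φ₁ Φ₂ h₁ h₂ :=
  ((Form.pullA f hf).comp (Bas ψ hψ).val).codRestrict _ fun a =>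
    ⟨by
      change (Form.pull f hf a.1).sg = _
      rw [← Form.pull_sg, a.2.1]
      rfl, by
      change (Form.pull f hf a.1).d = 0
      rw [← Form.pull_d, a.2.2.1]
      exact map_zero (Form.pullA f hf), basic_equiv hf he a.2.2.2, basic_pull hf hi a.1⟩

/-- pullback along a map equivariant for the second flow and invariant under the first -/
def basMap₂ (hf : D.Map D' f) (he : ∀ x t, f (Φ₂ (x, t)) = ψ (f x, t))
    (hi : ∀ x t, f (Φ₁ (x, t)) = f x) : Bas ψ hψ →ₐ[ℝ] Bas2 Φ₁ Φ₂ h₁ h₂ :=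
  ((Form.pullA f hf).comp (Bas ψ hψ).val).codRestrict _ fun a =>
    ⟨by
      change (Form.pull f hf a.1).sg = _
      rw [← Form.pull_sg, a.2.1]
      rfl, by
      change (Form.pull f hf a.1).d = 0
      rw [← Form.pull_d, a.2.2.1]
      exact map_zero (Form.pullA f hf), basic_pull hf hi a.1, basic_equiv hf he a.2.2.2⟩

/-- the ring homomorphism of the first projection -/
def q₁ (hf : D.Map D' f) (he : ∀ x t, f (Φ₁ (x, t)) = ψ (f x, t))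
    (hi : ∀ x t, f (Φ₂ (x, t)) = f x) : (Bas ψ hψ ⧸ Exa ψ hψ) →ₐ[ℝ] H2 Φ₁ Φ₂ h₁ h₂ :=
  Ideal.quotientMapₐ (Exa2 Φ₁ Φ₂ h₁ h₂) (basMap₁ hf he hi) (by
    rintro a ⟨u, hu, hau⟩
    refine ⟨Form.pull f hf u, basic_equiv hf he hu, basic_pull hf hi u, ?_⟩
    rw [← Form.pull_d, ← hau]
    rfl)

/-- the ring homomorphism of the second projection -/
def q₂ (hf : D.Map D' f) (he : ∀ x t, f (Φ₂ (x, t)) = ψ (f x, t))
    (hi : ∀ x t, f (Φ₁ (x, t)) = f x) : (Bas ψ hψ ⧸ Exa ψ hψ) →ₐ[ℝ] H2 Φ₁ Φ₂ h₁ h₂ :=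
  Ideal.quotientMapₐ (Exa2 Φ₁ Φ₂ h₁ h₂) (basMap₂ hf he hi) (by
    rintro a ⟨u, hu, hau⟩
    refine ⟨Form.pull f hf u, basic_pull hf hi u, basic_equiv hf he hu, ?_⟩
    rw [← Form.pull_d, ← hau]
    rfl)

theorem q₁_mk (hf : D.Map D' f) (he : ∀ x t, f (Φ₁ (x, t)) = ψ (f x, t))
    (hi : ∀ x t, f (Φ₂ (x, t)) = f x) (a : Bas ψ hψ) :
    q₁ (h₁ := h₁) (h₂ := h₂) hf he hi (Ideal.Quotient.mk _ a) =
      Ideal.Quotient.mk _ (basMap₁ hf he hi a) := rfl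

theorem q₂_mk (hf : D.Map D' f) (he : ∀ x t, f (Φ₂ (x, t)) = ψ (f x, t))
    (hi : ∀ x t, f (Φ₁ (x, t)) = f x) (a : Bas ψ hψ) :
    q₂ (h₁ := h₁) (h₂ := h₂) hf he hi (Ideal.Quotient.mk _ a) =
      Ideal.Quotient.mk _ (basMap₂ hf he hi a) := rfl

@[simp] theorem basMap₁_coe (hf : D.Map D' f) (he : ∀ x t, f (Φ₁ (x, t)) = ψ (f x, t))
    (hi : ∀ x t, f (Φ₂ (x, t)) = f x) (a : Bas ψ hψ) :
    (basMap₁ (h₁ := h₁) (h₂ := h₂) hf he hi a : Form D) = Form.pull f hf a.1 := rfl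

@[simp] theorem basMap₂_coe (hf : D.Map D' f) (he : ∀ x t, f (Φ₂ (x, t)) = ψ (f x, t))
    (hi : ∀ x t, f (Φ₁ (x, t)) = f x) (a : Bas ψ hψ) :
    (basMap₂ (h₁ := h₁) (h₂ := h₂) hf he hi a : Form D) = Form.pull f hf a.1 := rfl

/-- an invariant map gives a bi-basic form -/
def inv₀ {F : Form D'} (hF : F.d = 0) (hFe : F.sg = F) (hf : D.Map D' f)
    (hi₁ : ∀ x t, f (Φ₁ (x, t)) = f x) (hi₂ : ∀ x t, f (Φ₂ (x, t)) = f x) :
    Bas2 Φ₁ Φ₂ h₁ h₂ :=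
  ⟨Form.pull f hf F, by rw [← Form.pull_sg, hFe], by
    rw [← Form.pull_d, hF]
    exact map_zero (Form.pullA f hf), basic_pull hf hi₁ F, basic_pull hf hi₂ F⟩

end Maps

/-! ### the fibre product -/

section Fp

variable {B M : Type*} (dB : Dif B) (f : B → M) (ψ : B × ℝ → B)

/-- the fibre product `V ×_M V`, on the type `B × B` -/
abbrev V2 : Dif (B × B) := (dB.prod dB).on {z | f z.1 = f z.2}

/-- the flow on the first factor -/
def R1 (p : (B × B) × ℝ) : B × B := (ψ (p.1.1, p.2), p.1.2)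

/-- the flow on the second factor -/
def R2 (p : (B × B) × ℝ) : B × B := (p.1.1, ψ (p.1.2, p.2))

variable {dB f ψ}

theorem map_R1 (hψ : (dB.prod (Dif.lin ℝ)).Map dB ψ) (hf : ∀ b t, f (ψ (b, t)) = f b) :
    ((V2 dB f).prod (Dif.lin ℝ)).Map (V2 dB f) (R1 ψ) := by
  intro E _ _ _ u x h
  refine ⟨⟨hψ ⟨h.1.1.1, h.2⟩, h.1.1.2⟩, ?_⟩
  filter_upwards [h.1.2] with y hy
  have hy' : f (u y).1.1 = f (u y).1.2 := hy
  change f (ψ ((u y).1.1, (u y).2)) = f (u y).1.2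
  rw [hf, hy']

theorem map_R2 (hψ : (dB.prod (Dif.lin ℝ)).Map dB ψ) (hf : ∀ b t, f (ψ (b, t)) = f b) :
    ((V2 dB f).prod (Dif.lin ℝ)).Map (V2 dB f) (R2 ψ) := by
  intro E _ _ _ u x h
  refine ⟨⟨h.1.1.1, hψ ⟨h.1.1.2, h.2⟩⟩, ?_⟩
  filter_upwards [h.1.2] with y hy
  have hy' : f (u y).1.1 = f (u y).1.2 := hy
  change f (u y).1.1 = f (ψ ((u y).1.2, (u y).2))
  rw [hf, hy']

theorem map_p1 : (V2 dB f).Map dB Prod.fst := fun h => h.1.1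

theorem map_p2 : (V2 dB f).Map dB Prod.snd := fun h => h.1.2

end Fp

end

end Vale.Agent.P231.S2T
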