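import Vale.Agent.P231.S2T.Glob
import Vale.Agent.P231.S2T.Diag
import Vale.Agent.P231.S2T.Sp
import Vale.Agent.P231.X3.Pen
import Vale.Agent.P231.WR.Tra

/-!
# P231, stage 2, S2-T (T1 + T2): the rank relation in the ring of `V ×_M V`
-/

set_option maxSynthPendingDepth 3
set_option linter.unusedSectionVars false
set_option linter.unusedVariables false

open Bundle Manifold Set Filter Module Matrix
open scoped ContDiff Manifold Topology

namespace Vale.Agent.P231.S2T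

noncomputable section

open Vale.Agent.P234 Vale.Agent.P231 Vale.Agent.P231.Fm Vale.Agent.P231.W Vale.Agent.P231.WR
  Vale.Agent.P231.ChW Vale.Agent.P231.X3

/-! ### two flows as a family -/

section Two

variable {X : Type*} {D : Dif X} (Φ₁ Φ₂ : X × ℝ → X) (h₁ : (D.prod (Dif.lin ℝ)).Map D Φ₁)
  (h₂ : (D.prod (Dif.lin ℝ)).Map D Φ₂)

/-- two flows as a family of flows -/
def Fam.two : Fam D Bool where
  Φ i := match i with
    | false => Φ₁
    | true => Φ₂
  map i := match i with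
    | false => h₁
    | true => h₂

/-- the identity on forms -/
def toBas2 : (Fam.two Φ₁ Φ₂ h₁ h₂).Bas →ₐ[ℝ] Bas2 Φ₁ Φ₂ h₁ h₂ :=
  ((Fam.two Φ₁ Φ₂ h₁ h₂).Bas.val).codRestrict _ fun w =>
    ⟨w.2.1, w.2.2.1, w.2.2.2 false, w.2.2.2 true⟩

/-- the induced homomorphism -/
def to2 : (Fam.two Φ₁ Φ₂ h₁ h₂).H →ₐ[ℝ] H2 Φ₁ Φ₂ h₁ h₂ :=
  Ideal.quotientMapₐ (Exa2 Φ₁ Φ₂ h₁ h₂) (toBas2 Φ₁ Φ₂ h₁ h₂) (by
    rintro a ⟨u, hu, hau⟩
    exact ⟨u, hu false, hu true, hau⟩)

variable {Φ₁ Φ₂ h₁ h₂}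

theorem to2_qm (a : (Fam.two Φ₁ Φ₂ h₁ h₂).Bas) :
    to2 Φ₁ Φ₂ h₁ h₂ ((Fam.two Φ₁ Φ₂ h₁ h₂).qm a) =
      Ideal.Quotient.mk (Exa2 Φ₁ Φ₂ h₁ h₂) (toBas2 Φ₁ Φ₂ h₁ h₂ a) := rfl

theorem to2_eq {a : (Fam.two Φ₁ Φ₂ h₁ h₂).Bas} {b : Bas2 Φ₁ Φ₂ h₁ h₂}
    (h : (a : Form D) = b) : to2 Φ₁ Φ₂ h₁ h₂ ((Fam.two Φ₁ Φ₂ h₁ h₂).qm a) =
      Ideal.Quotient.mk (Exa2 Φ₁ Φ₂ h₁ h₂) b := by
  rw [to2_qm]
  congr 1
  exact Subtype.ext h

end Two

/-! ### the geometric situation -/

variable {E : Type*} [NormedAddCommGroup E] [NormedSpace ℝ E] [FiniteDimensional ℝ E]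
  {M : Type*} [MetricSpace M] [ChartedSpace E M] [IsManifold 𝓘(ℝ, E) ∞ M]
  [RiemannianBundle (fun x : M => TangentSpace 𝓘(ℝ, E) x)]
  [IsContMDiffRiemannianBundle 𝓘(ℝ, E) ∞ E (fun x : M => TangentSpace 𝓘(ℝ, E) x)]
  [CompactSpace M] [ConnectedSpace M] [IsRiemannianManifold 𝓘(ℝ, E) M]
  {e : ∀ x : M, TangentSpace 𝓘(ℝ, E) x → M} {K : ℕ} {D : ℝ} {l : ℕ}

/-- `V ×_M V` -/
abbrev dVV (e : ∀ x : M, TangentSpace 𝓘(ℝ, E) x → M) (D : ℝ) : Dif (Pr e D × Pr e D) :=
  V2 (dPr e D) (fun p => foot p.v)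

section Geom

variable (G : Geo e D l) (P : PF E M K)

/-- the first rotation -/
theorem mapR1 : ((dVV e D).prod (Dif.lin ℝ)).Map (dVV e D) (R1 G.R) := map_R1 G.map_R G.foot_R

/-- the second rotation -/
theorem mapR2 : ((dVV e D).prod (Dif.lin ℝ)).Map (dVV e D) (R2 G.R) := map_R2 G.map_R G.foot_R

/-- the two rotations -/
def fm : Fam (dVV e D) Bool := Fam.two (R1 G.R) (R2 G.R) (mapR1 G) (mapR2 G)

/-- the ring of `V ×_M V` -/
abbrev HV2 : Type _ := H2 (R1 G.R) (R2 G.R) (mapR1 G) (mapR2 G)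

/-- the first projection -/
def Q1 : Hb G.R G.map_R →ₐ[ℝ] HV2 G :=
  q₁ (D := dVV e D) map_p1 (fun _ _ => rfl) (fun _ _ => rfl)

/-- the second projection -/
def Q2 : Hb G.R G.map_R →ₐ[ℝ] HV2 G :=
  q₂ (D := dVV e D) map_p2 (fun _ _ => rfl) (fun _ _ => rfl)

/-- the ring homomorphism -/
def T2 : (fm G).H →ₐ[ℝ] HV2 G := to2 (R1 G.R) (R2 G.R) (mapR1 G) (mapR2 G)

theorem T2_Q1 {a : (fm G).Bas} {b : H584.Bas G.R G.map_R}
    (h : (a : Form (dVV e D)) = Form.pull Prod.fst map_p1 b) :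
    T2 G ((fm G).qm a) = Q1 G (qm G.R G.map_R b) := to2_eq h

theorem T2_Q2 {a : (fm G).Bas} {b : H584.Bas G.R G.map_R}
    (h : (a : Form (dVV e D)) = Form.pull Prod.snd map_p2 b) :
    T2 G ((fm G).qm a) = Q2 G (qm G.R G.map_R b) := to2_eq h

/-! ### the classes `x` -/

/-- the pullback of a closed even form along an invariant map -/
def invB {f : Pr e D → M} (hf : (dPr e D).Map (dM E M) f) (hi : ∀ p t, f (G.R (p, t)) = f p)
    {Om : Form (dM E M)} (hO : Om.d = 0) (hOe : Om.sg = Om) : H584.Bas G.R G.map_R :=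
  ⟨Form.pull f hf Om, by rw [← Form.pull_sg, hOe], by
    rw [← Form.pull_d, hO]
    exact map_zero (Form.pullA f hf), H584.basic_pull hf hi Om⟩

variable {Om : Form (dM E M)} (hO : Om.d = 0) (hOe : Om.sg = Om)

/-- the class of `foot^* Om` -/
def xf : Hb G.R G.map_R := qm G.R G.map_R (invB G G.map_foot (G.foot_R) hO hOe)

/-- the class of `bar^* Om` -/
def xb : Hb G.R G.map_R := qm G.R G.map_R (invB G G.map_bar (G.bar_R) hO hOe)

/-- the common foot -/
def ft (z : Pr e D × Pr e D) : M := foot z.1.v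

include G in
theorem map_ft : (dVV e D).Map (dM E M) ft := fun h => G.map_foot (map_p1 h)

/-- the pair of the other ends -/
def br (z : Pr e D × Pr e D) : M × M := (bar e D z.1.v, bar e D z.2.v)

include G in
theorem map_br : (dVV e D).Map (dMM E M) br := fun h =>
  ⟨G.map_bar (map_p1 h), G.map_bar (map_p2 h)⟩

theorem Q1_xf : Q1 G (xf G hO hOe) = Q2 G (xf G hO hOe) := by
  change Ideal.Quotient.mk _ _ = Ideal.Quotient.mk _ _
  congr 1
  refine Subtype.ext ?_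
  refine Form.ext_val fun E' _ _ _ u x hu => ?_
  change (Form.pull Prod.fst map_p1 (Form.pull _ G.map_foot Om)).val u x =
    (Form.pull Prod.snd map_p2 (Form.pull _ G.map_foot Om)).val u x
  rw [Form.pull_val _ _ hu, Form.pull_val _ _ (map_p1 hu), Form.pull_val _ _ hu,
    Form.pull_val _ _ (map_p2 hu)]
  exact Om.congr (G.map_foot (map_p1 hu)) hu.2

/-! ### the three bundles -/

/-- the tangent space at the common foot -/
def mT (z : Pr e D × Pr e D) : Matrix (Fin K) (Fin K) ℝ := tF P z.1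

/-- the first plane -/
def mP (z : Pr e D × Pr e D) : Matrix (Fin K) (Fin K) ℝ := pF P z.1

/-- the second plane -/
def mQ (z : Pr e D × Pr e D) : Matrix (Fin K) (Fin K) ℝ := pF P z.2

include G in
theorem sm_mT : SmM (dVV e D) (mT P) := (sm_tF G P).comp map_p1
include G in
theorem sm_mP : SmM (dVV e D) (mP P) := (sm_pF G P).comp map_p1
include G in
theorem sm_mQ : SmM (dVV e D) (mQ P) := (sm_pF G P).comp map_p2

theorem mT_R (i : Bool) (z : Pr e D × Pr e D) (t : ℝ) :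
    mT P ((fm G).Φ i (z, t)) = mT P z := by
  cases i
  · exact tF_R G P z.1 t
  · rfl

theorem mP_R (i : Bool) (z : Pr e D × Pr e D) (t : ℝ) :
    mP P ((fm G).Φ i (z, t)) = mP P z := by
  cases i
  · exact pF_R G P z.1 t
  · rfl

theorem mQ_R (i : Bool) (z : Pr e D × Pr e D) (t : ℝ) :
    mQ P ((fm G).Φ i (z, t)) = mQ P z := by
  cases i
  · rfl
  · exact pF_R G P z.2 t

theorem bT : S2T.IB (fm G) (cR (mT P) (sm_mT G P)) :=
  ib_cR _ (fun z => tF_idem P z.1) (mT_R G P)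

theorem bP : S2T.IB (fm G) (cR (mP P) (sm_mP G P)) :=
  ib_cR _ (fun z => pF_idem P z.1) (mP_R G P)

theorem bQ : S2T.IB (fm G) (cR (mQ P) (sm_mQ G P)) :=
  ib_cR _ (fun z => pF_idem P z.2) (mQ_R G P)

/-- the set where the two other ends are different -/
def OO (e : ∀ x : M, TangentSpace 𝓘(ℝ, E) x → M) (D : ℝ) : Set (Pr e D × Pr e D) :=
  {z | foot z.1.v = foot z.2.v ∧ bar e D z.1.v ≠ bar e D z.2.v}

theorem OO_R (i : Bool) (z : Pr e D × Pr e D) (t : ℝ) :
    (fm G).Φ i (z, t) ∈ OO e D ↔ z ∈ OO e D := by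
  cases i
  · change foot (G.R (z.1, t)).v = foot z.2.v ∧ bar e D (G.R (z.1, t)).v ≠ bar e D z.2.v ↔ _
    rw [G.foot_R, G.bar_R]
    rfl
  · change foot z.1.v = foot (G.R (z.2, t)).v ∧ bar e D z.1.v ≠ bar e D (G.R (z.2, t)).v ↔ _
    rw [G.foot_R, G.bar_R]
    rfl

/-- a vector fixed by the matrix of a projection comes from a tangent vector -/
theorem exists_of_mat (x : M) (A : E →ₗ[ℝ] E) {v : Fin K → ℝ} (h : P.mat x x A *ᵥ v = v) :
    ∃ a : E, v = P.em x a ∧ A a = a := by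
  have h1 : P.tm x *ᵥ v = v := by
    rw [← h, mulVec_mulVec, P.tm_mul]
  have h2 : P.em x (∑ i, v i • P.v i x) = P.tm x *ᵥ v := by
    funext i
    rw [PF.em, Matrix.mulVec, dotProduct, ip_sum_right]
    refine Finset.sum_congr rfl fun j _ => ?_
    rw [ip_smul_right', mul_comm]
    rfl
  refine ⟨∑ i, v i • P.v i x, ?_, ?_⟩
  · rw [h2, h1]
  · refine P.em_injective x ?_
    rw [← P.mat_mulVec x x A, h2, h1, h]

include G in
theorem indep {z : Pr e D × Pr e D} (hz : z ∈ OO e D) : Indep (mP P z) (mQ P z) := by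
  refine ⟨pF_idem P z.1, pF_idem P z.2, pF_tr P z.1, pF_tr P z.2, fun v h1 h2 => ?_⟩
  obtain ⟨a, ha, ha'⟩ := exists_of_mat P _ _ h1
  obtain ⟨b, hb, hb'⟩ := exists_of_mat P _ _ h2
  have hf : foot z.1.v = foot z.2.v := hz.1
  have hab : a = b := by
    refine P.em_injective (foot z.1.v) ?_
    rw [← ha, hb, hf]
  subst hab
  have m1 : (a : TangentSpace 𝓘(ℝ, E) (foot z.1.v)) ∈
      H775.Pl e D (bar e D z.1.v) (foot z.1.v) := by
    have h3 := prP_mem (e := e) D z.1.v a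
    have h4 : prP e D z.1.v a = a := ha'
    rwa [h4] at h3
  have m2 : (a : TangentSpace 𝓘(ℝ, E) (foot z.1.v)) ∈
      H775.Pl e D (bar e D z.2.v) (foot z.1.v) := by
    have h3 := prP_mem (e := e) D z.2.v a
    have h4 : prP e D z.2.v a = a := hb'
    rw [h4] at h3
    have key : ∀ x : M, x = foot z.2.v → (a : TangentSpace 𝓘(ℝ, E) x) ∈
        H775.Pl e D (bar e D z.2.v) x := by
      rintro x rfl
      exact h3
    exact key _ hf
  have h5 : a = 0 := Submodule.disjoint_def.1 (H775.Pl_disjoint G.F G.hD G.hB G.hdiam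
    (dist_bar' G.F G.hD G.hB z.1.v) (by
      rw [hf]
      exact dist_bar' G.F G.hD G.hB z.2.v) hz.2) _ m1 m2
  rw [ha, h5]
  funext i
  have h6 := P.em_smul (foot z.1.v) 0 0
  rw [zero_smul, zero_smul] at h6
  rw [h6]

theorem mT_mP (z : Pr e D × Pr e D) : mT P z * mP P z = mP P z := P.tm_mul _ _ _

theorem mT_mQ {z : Pr e D × Pr e D} (hz : z ∈ OO e D) : mT P z * mQ P z = mQ P z := by
  have hf : foot z.1.v = foot z.2.v := hz.1
  rw [mT, tF, hf]
  exact P.tm_mul _ _ _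

include G in
theorem trace_rel (z : Pr e D × Pr e D) {r : ℕ} (hr : finrank ℝ E = 2 * (l + 1) + r) :
    trace (mT P z) = trace (mP P z) + trace (mQ P z) + r := by
  have h1 : trace (mP P z) = (l : ℝ) + 1 := trace_mat_prP G.F G.hD G.hB G.hP P z.1.v
  have h2 : trace (mQ P z) = (l : ℝ) + 1 := trace_mat_prP G.F G.hD G.hB G.hP P z.2.v
  have h3 : trace (mT P z) = finrank ℝ E := trace_tm P _
  rw [h1, h2, h3, hr]
  push_cast
  ring

/-! ### the classes of the planes and of the tangent bundle -/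

/-- the classes of the plane over `V` -/
def pcl (k : ℕ) : H584.Bas G.R G.map_R :=
  ⟨sF k (cR (pF P) (sm_pF G P)),
    sF_even ⟨ev_cR _, cR_mul _ _ _ (pF_idem P)⟩ k,
    sF_closed ⟨ev_cR _, cR_mul _ _ _ (pF_idem P)⟩ k,
    sF_basic (basicM_cM _ fun p t => by rw [pF_R]) k⟩

/-- the classes of the tangent bundle of `M` -/
def tcl (P : PF E M K) (k : ℕ) : Form (dM E M) :=
  sF k (cR (fun x => P.tm x) (P.smM_tm fun h => h))

theorem map_two_mul {R S : Type*} [CommRing R] [CommRing S] [Algebra ℝ R] [Algebra ℝ S]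
    (φ : R →ₐ[ℝ] S) (y z : R) (n : ℕ) : φ (2 * (y ^ n + z ^ n)) = 2 * (φ y ^ n + φ z ^ n) := by
  rw [map_mul, map_ofNat, map_add, map_pow, map_pow]

theorem T2_bP (k : ℕ) : T2 G ((fm G).qm ((bP G P).cl k)) = Q1 G (qm G.R G.map_R (pcl G P k)) := by
  refine T2_Q1 G ?_
  change sF k (cR (mP P) (sm_mP G P)) = Form.pull Prod.fst map_p1 (sF k (cR (pF P) (sm_pF G P)))
  rw [← IB.sF_pull, map_pullC_cR]
  rfl

theorem T2_bQ (k : ℕ) : T2 G ((fm G).qm ((bQ G P).cl k)) = Q2 G (qm G.R G.map_R (pcl G P k)) := by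
  refine T2_Q2 G ?_
  change sF k (cR (mQ P) (sm_mQ G P)) = Form.pull Prod.snd map_p2 (sF k (cR (pF P) (sm_pF G P)))
  rw [← IB.sF_pull, map_pullC_cR]
  rfl

theorem bT_cl (k : ℕ) : ((bT G P).cl k : Form (dVV e D)) = Form.pull ft (map_ft G) (tcl P k) := by
  change sF k (cR (mT P) (sm_mT G P)) = _
  rw [tcl, ← IB.sF_pull, map_pullC_cR]
  rfl

theorem T2_bT {k j : ℕ} {t : ℝ} {η : Form (dM E M)} (h : tcl P k = t • Om ^ j + η.d) :
    T2 G ((fm G).qm ((bT G P).cl k)) = t • Q1 G (xf G hO hOe) ^ j := by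
  have h1 : Form.pull ft (map_ft G) Om = Form.pull Prod.fst (map_p1 (dB := dPr e D)
      (f := fun p : Pr e D => foot p.v)) (Form.pull (fun p => foot p.v) G.map_foot Om) :=
    (H584.pull_pull map_p1 G.map_foot _ (fun _ => rfl) Om).symm
  change Ideal.Quotient.mk _ _ = _
  refine (eq_quot2 (b := t • (basMap₁ (h₁ := mapR1 G) (h₂ := mapR2 G) map_p1 (fun _ _ => rfl)
    (fun _ _ => rfl) (invB G G.map_foot G.foot_R hO hOe)) ^ j)
    (u := Form.pull ft (map_ft G) η) (H584.basic_pull (map_ft G) (fun z t => rfl) η)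
    (H584.basic_pull (map_ft G) (fun z t => rfl) η) ?_).trans ?_
  · change ((bT G P).cl k : Form (dVV e D)) = t • (Form.pull Prod.fst (map_p1 (dB := dPr e D)
      (f := fun p : Pr e D => foot p.v)) (Form.pull (fun p : Pr e D => foot p.v)
        G.map_foot Om)) ^ j + _
    rw [bT_cl, h, ← h1, ← Form.pull_d]
    have h2 := map_add (Form.pullA (ft (e := e) (D := D)) (map_ft G)) (t • Om ^ j) η.d
    rw [map_smul, map_pow] at h2
    exact h2
  · rfl

/-- the classes of the plane, from a decomposition of its complexification into four lines -/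
theorem pcl_four {L M' : Matrix (Fin K) (Fin K) (CF (dPr e D))}
    (h : FourLines G.R G.map_R (rM (pF P) (sm_pF G P)) L M') {y z : Hb G.R G.map_R}
    (hy : h.ibL.qc 1 ^ 2 = Cx.of (y ^ 2)) (hz : h.ibM.qc 1 ^ 2 = Cx.of (z ^ 2)) (j : ℕ) :
    qm G.R G.map_R (pcl G P (2 * j)) = 2 * (y ^ (2 * j) + z ^ (2 * j)) := by
  have h1 := congrArg Cx.re (h.qc_P hy hz j)
  rw [Cx.of_re, two_smul, ← two_mul] at h1
  rw [← h1]
  change _ = qm G.R G.map_R _
  congr 1
  refine Subtype.ext ?_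
  change sF (2 * j) (cR (pF P) (sm_pF G P)) = (sC (2 * j) ((rM (pF P) (sm_pF G P)).map Cx.of)).re
  rw [cR_eq]
  rfl

/-! ### the classes of the virtual bundle `T - P₁ - P₂` -/

/-- the forms `C` -/
def CC : ℕ → (fm G).Bas := newtE ℝ (fun k => (bT G P).cl k - (bP G P).cl k - (bQ G P).cl k)

/-- the classes `g` -/
def gg (k : ℕ) : HV2 G := T2 G ((fm G).qm (CC G P (2 * k)))

theorem gg_zero : gg G P 0 = 1 := by
  have h1 : CC G P 0 = 1 :=
    (newtE_spec (K := ℝ) fun k => (bT G P).cl k - (bP G P).cl k - (bQ G P).cl k).1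
  rw [gg, mul_zero, h1, map_one, map_one]

theorem gg_newton {t : ℕ → ℝ} (ht : ∀ j, 1 ≤ j → ∃ η : Form (dM E M),
    tcl P (2 * j) = t j • Om ^ j + η.d) {y z : Hb G.R G.map_R}
    (hp : ∀ j, 1 ≤ j → qm G.R G.map_R (pcl G P (2 * j)) = 2 * (y ^ (2 * j) + z ^ (2 * j)))
    (k : ℕ) : (2 * ((k : ℝ) + 1)) • gg G P (k + 1) = -∑ j ∈ Finset.range (k + 1),
      (t (j + 1) • Q1 G (xf G hO hOe) ^ (j + 1) -
        2 * (Q1 G y ^ (2 * (j + 1)) + Q1 G z ^ (2 * (j + 1))) -
        2 * (Q2 G y ^ (2 * (j + 1)) + Q2 G z ^ (2 * (j + 1)))) * gg G P (k - j) := by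
  have h0 := (newtE_spec (K := ℝ) fun k => (bT G P).cl k - (bP G P).cl k - (bQ G P).cl k)
  have h1 := (h0.map (fm G).qm).map (T2 G)
  have h2 := (newton_even h1 fun k hk => by
    rw [cl_odd_cR (bT G P) hk, cl_odd_cR (bP G P) hk, cl_odd_cR (bQ G P) hk, sub_zero, sub_zero,
      map_zero, map_zero]).2 k
  refine h2.trans ?_
  congr 1
  refine Finset.sum_congr rfl fun j _ => ?_
  have h3 : T2 G ((fm G).qm ((bT G P).cl (2 * (j + 1)) - (bP G P).cl (2 * (j + 1)) -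
      (bQ G P).cl (2 * (j + 1)))) = t (j + 1) • Q1 G (xf G hO hOe) ^ (j + 1) -
        2 * (Q1 G y ^ (2 * (j + 1)) + Q1 G z ^ (2 * (j + 1))) -
        2 * (Q2 G y ^ (2 * (j + 1)) + Q2 G z ^ (2 * (j + 1))) := by
    obtain ⟨η, hη⟩ := ht (j + 1) (Nat.succ_pos j)
    rw [map_sub, map_sub, map_sub, map_sub, T2_bP, T2_bQ, T2_bT G P hO hOe hη,
      hp (j + 1) (Nat.succ_pos j), map_two_mul (Q1 G), map_two_mul (Q2 G)]
  rw [h3]
  rfl

/-! ### the relation -/

include G in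
theorem br_R (i : Bool) (z : Pr e D × Pr e D) (t : ℝ) : br ((fm G).Φ i (z, t)) = br z := by
  cases i
  · change (bar e D (G.R (z.1, t)).v, bar e D z.2.v) = _
    rw [G.bar_R]
    rfl
  · change (bar e D z.1.v, bar e D (G.R (z.2, t)).v) = _
    rw [G.bar_R]
    rfl

/-- the difference of the two forms at the other ends -/
def xx : (fm G).Bas :=
  ⟨Form.pull br (map_br G) (Form.pull Prod.fst Dif.map_fst Om - Form.pull Prod.snd Dif.map_snd Om),
    by
      rw [← Form.pull_sg, sub_eq_add_neg, Form.sg_add, Form.sg_neg, ← Form.pull_sg,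
        ← Form.pull_sg, hOe], by
      have h1 : (Form.pull Prod.fst (Dif.map_fst (D := dM E M) (D' := dM E M)) Om -
          Form.pull Prod.snd Dif.map_snd Om).d = 0 := by
        rw [Form.d_sub, ← Form.pull_d, ← Form.pull_d, hO]
        have e1 : Form.pull Prod.fst (Dif.map_fst (D := dM E M) (D' := dM E M))
            (0 : Form (dM E M)) = 0 := map_zero (Form.pullA Prod.fst Dif.map_fst)
        have e2 : Form.pull Prod.snd (Dif.map_snd (D := dM E M) (D' := dM E M))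
            (0 : Form (dM E M)) = 0 := map_zero (Form.pullA Prod.snd Dif.map_snd)
        rw [e1, e2, sub_zero]
      rw [← Form.pull_d, h1]
      exact map_zero (Form.pullA br (map_br G)),
    fun i => H584.basic_pull (map_br G) (br_R G i) _⟩

theorem T2_xx : T2 G ((fm G).qm (xx G hO hOe)) = Q1 G (xb G hO hOe) - Q2 G (xb G hO hOe) := by
  change Ideal.Quotient.mk _ _ = Ideal.Quotient.mk _ _ - Ideal.Quotient.mk _ _
  rw [← map_sub]
  congr 1
  refine Subtype.ext ?_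
  change Form.pull br (map_br G) (Form.pull Prod.fst Dif.map_fst Om -
    Form.pull Prod.snd Dif.map_snd Om) =
    Form.pull Prod.fst (map_p1 (dB := dPr e D) (f := fun p : Pr e D => foot p.v))
      (Form.pull (fun p : Pr e D => bar e D p.v) G.map_bar Om) -
    Form.pull Prod.snd (map_p2 (dB := dPr e D) (f := fun p : Pr e D => foot p.v))
      (Form.pull (fun p : Pr e D => bar e D p.v) G.map_bar Om)
  have h1 : Form.pull Prod.fst (map_p1 (dB := dPr e D) (f := fun p : Pr e D => foot p.v))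
      (Form.pull (fun p : Pr e D => bar e D p.v) G.map_bar Om) =
      Form.pull br (map_br G) (Form.pull Prod.fst Dif.map_fst Om) := by
    rw [H584.pull_pull map_p1 G.map_bar (k := fun z : Pr e D × Pr e D => bar e D z.1.v)
      (fun h => G.map_bar (map_p1 h)) (fun _ => rfl) Om]
    exact (H584.pull_pull (map_br G) Dif.map_fst _ (fun _ => rfl) Om).symm
  have h2 : Form.pull Prod.snd (map_p2 (dB := dPr e D) (f := fun p : Pr e D => foot p.v))
      (Form.pull (fun p : Pr e D => bar e D p.v) G.map_bar Om) =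
      Form.pull br (map_br G) (Form.pull Prod.snd Dif.map_snd Om) := by
    rw [H584.pull_pull map_p2 G.map_bar (k := fun z : Pr e D × Pr e D => bar e D z.2.v)
      (fun h => G.map_bar (map_p2 h)) (fun _ => rfl) Om]
    exact (H584.pull_pull (map_br G) Dif.map_snd _ (fun _ => rfl) Om).symm
  rw [h1, h2]
  exact map_sub (Form.pullA br (map_br G)) _ _

theorem supp_br {τ : Form (dMM E M)} (h : τ.Supp {x | x.1 ≠ x.2}) :
    (Form.pull br (map_br G) τ).Supp (OO e D) := by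
  refine ⟨fun hu => ?_⟩
  rcases (h.pull (map_br G)).out hu with h1 | h1
  · left
    filter_upwards [h1, hu.2] with y h2 h3
    exact ⟨h3, h2⟩
  · exact Or.inr h1

/-- **the relation (T1) + (T2)** -/
theorem gg_rel {r k : ℕ} (hr : finrank ℝ E = 2 * (l + 1) + r) (hk : r < 2 * k) :
    (Q1 G (xb G hO hOe) - Q2 G (xb G hO hOe)) * gg G P k = 0 := by
  obtain ⟨τ, β, h1, h2, h3, h4⟩ := exists_diag G.F G.hD G.hB hO hOe
  have h5 : ((xx G hO hOe : (fm G).Bas) : Form (dVV e D)) =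
      Form.pull br (map_br G) τ + (Form.pull br (map_br G) β).d := by
    change Form.pull br (map_br G) (Form.pull Prod.fst Dif.map_fst Om -
      Form.pull Prod.snd Dif.map_snd Om) = _
    rw [h4, ← Form.pull_d]
    exact map_add (Form.pullA br (map_br G)) _ _
  have h6 := glob (Ψ := fm G) (O := OO e D) (fun i z hz t => (OO_R G i z t).2 hz) (sm_mT G P)
    (sm_mP G P) (sm_mQ G P) (fun z hz => indep G P hz) (fun z _ => tF_idem P z.1)
    (fun z _ => tF_tr P z.1) (fun z _ => mT_mP P z) (fun z hz => mT_mQ P hz)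
    (fun i z _ t => mT_R G P i z t) (fun i z _ t => mP_R G P i z t)
    (fun i z _ t => mQ_R G P i z t) (fun i z t hz => (OO_R G i z t).1 hz) (bT G P) (bP G P)
    (bQ G P) (r := r) (fun z _ => ⟨r, le_rfl, trace_rel G P z hr⟩) (newtE_spec _)
    (supp_br G h1) (by rw [← Form.pull_sg, h2])
    (fun i => H584.basic_pull (map_br G) (br_R G i) β) h5 hk
  rw [← T2_xx, gg, ← map_mul]
  exact (congrArg (T2 G) h6).trans (map_zero _)

/-- **(T1) + (T2)**, in the form of the fields `g0`, `newton`, `rel` of `Rel` -/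
theorem exists_gg {n : ℕ} (hl : l = 3) (hn : finrank ℝ E = 4 * n) (hn2 : 2 ≤ n) {t : ℕ → ℝ}
    (ht : ∀ j, 1 ≤ j → ∃ η : Form (dM E M), tcl P (2 * j) = t j • Om ^ j + η.d)
    {y z : Hb G.R G.map_R}
    (hp : ∀ j, 1 ≤ j → qm G.R G.map_R (pcl G P (2 * j)) = 2 * (y ^ (2 * j) + z ^ (2 * j))) :
    ∃ g : ℕ → HV2 G, g 0 = 1 ∧ (∀ k : ℕ, (2 * ((k : ℝ) + 1)) • g (k + 1) =
      -∑ j ∈ Finset.range (k + 1), (t (j + 1) • Q1 G (xf G hO hOe) ^ (j + 1) -
        2 * (Q1 G y ^ (2 * (j + 1)) + Q1 G z ^ (2 * (j + 1))) -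
        2 * (Q2 G y ^ (2 * (j + 1)) + Q2 G z ^ (2 * (j + 1)))) * g (k - j)) ∧
      ∀ k, 2 * n < k + 4 → (Q1 G (xb G hO hOe) - Q2 G (xb G hO hOe)) * g k = 0 :=
  ⟨gg G P, gg_zero G P, gg_newton G P hO hOe ht hp, fun k hk =>
    gg_rel G P hO hOe (r := 4 * n - 8) (by omega) (by omega)⟩

end Geom

end

end Vale.Agent.P231.S2T
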