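import Vale.Agent.P231.S2T.Val4

/-!
# P231, stage 2, block S2-T (T3, part 6): all values of the cycle of `UT ×_M UT`, conclusion
-/

set_option maxSynthPendingDepth 3
set_option linter.unusedSectionVars false
set_option linter.unusedVariables false

open Bundle Manifold Set Filter Module Topology MeasureTheory
open scoped ContDiff Manifold Topology

namespace Vale.Agent.P231.S2T

noncomputable section

open Vale.Agent.P234 Vale.Agent.P231 Vale.Agent.P231.Fm Vale.Agent.P231.W Vale.Agent.P231.H775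
  Vale.Agent.P231.WG Vale.Agent.P231.WR Vale.Agent.P231.WQ Vale.Agent.P231.WA
  Vale.Agent.P231.H584

variable {E : Type*} [NormedAddCommGroup E] [NormedSpace ℝ E]
  {M : Type*} [MetricSpace M] [ChartedSpace E M]
  [RiemannianBundle (fun x : M => TangentSpace 𝓘(ℝ, E) x)]
  {e : ∀ x : M, TangentSpace 𝓘(ℝ, E) x → M}
  [FiniteDimensional ℝ E] [IsManifold 𝓘(ℝ, E) ∞ M]
  [IsContMDiffRiemannianBundle 𝓘(ℝ, E) ∞ E (fun x : M => TangentSpace 𝓘(ℝ, E) x)]
  [CompactSpace M] [ConnectedSpace M] [IsRiemannianManifold 𝓘(ℝ, E) M]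

variable {p : M} {R D : ℝ} (X : Fr e p R) (v0 : UT E M) {k : ℕ} (b : Basis (Fin k) ℝ (Eu E))
  {r : Eu E → ℝ} {K : Set (Eu E)} (hr : Q.Cut r K) (hDR : D < R)

section Vals

variable (F : Facts e) (hD : 0 < D) (hB : InjGE e D) (hdiam : ∀ p q : M, dist p q ≤ D)
  (hP : ∀ x y : M, dist x y = D → 2 ≤ finrank ℝ (H775.Pl e D x y)) {Om : Form (dM E M)} {d : ℕ}
  (hd : Om.d = 0) (hev : Even d) (htwo : 2 ≤ d) {n : ℕ} (hE : finrank ℝ E = d * n)
  (hrad : ∀ y z : Eu E, (inner ℝ y z : ℝ) = 0 → fderiv ℝ r y z = 0)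
  (hOd : Form.IsDeg d Om) (hOn : Om ^ (n + 1) = 0)

include F hD htwo hOd in
theorem isDeg_bz : Form.IsDeg (d - 1) (bz F D Om) := by
  refine Co.isDeg_KT D ?_
  rw [show d - 1 + 1 = d by omega]
  exact hOd.pull _ _

include F hD hB hdiam hP hd hev htwo hE hrad hOd hOn in
/-- **all the numbers of the cycle** -/
theorem AA_eq (hn : 2 ≤ n) (i j l : ℕ) : AA X v0 b hr hDR F Om i j l =
    AA X v0 b hr hDR F Om n (n - 1) (n - 1) * NN n i j l := by
  have hk : k = d * n := by
    have h1 := finrank_eq_card_basis b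
    rw [finrank_euclideanSpace, Fintype.card_fin, Fintype.card_fin, hE] at h1
    exact h1.symm
  have hfo : ∀ i, n < i → fo Om ^ i = 0 := fun i hi => by
    obtain ⟨s, rfl⟩ : ∃ s, i = n + 1 + s := ⟨i - (n + 1), by omega⟩
    have h1 : fo Om ^ (n + 1) = Form.pull foot map_foot (Om ^ (n + 1)) :=
      (map_pow (Form.pullA foot map_foot) Om (n + 1)).symm
    rw [pow_add, h1, hOn]
    have h2 : Form.pull foot map_foot (0 : Form (dM E M)) = 0 :=
      map_zero (Form.pullA foot map_foot)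
    rw [h2, zero_mul]
  have hfb : ∀ i, n < i → fb F D Om ^ i = 0 := fun i hi => by
    obtain ⟨s, rfl⟩ : ∃ s, i = n + 1 + s := ⟨i - (n + 1), by omega⟩
    have h1 : fb F D Om ^ (n + 1) = Form.pull (bar e D) (map_bar F D) (Om ^ (n + 1)) :=
      (map_pow (Form.pullA (bar e D) (map_bar F D)) Om (n + 1)).symm
    rw [pow_add, h1, hOn]
    have h2 : Form.pull (bar e D) (map_bar F D) (0 : Form (dM E M)) = 0 :=
      map_zero (Form.pullA (bar e D) (map_bar F D))
    rw [h2, zero_mul]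
  refine NN_unique hn (A := AA X v0 b hr hDR F Om) (fun i j l hi => ?_) (fun i j l hj => ?_)
    (fun i j l hl => ?_) (fun i j l hijl => ?_)
    (AA_r1 X v0 b hr hDR F hD hB hdiam hP hd hev hrad hOd hOn)
    (AA_r2 X v0 b hr hDR F hD hB hdiam hP hd hev hrad hOd hOn) i j l
  · rw [AA, hfo i hi, zero_mul, mul_zero, map_zero, zero_mul, map_zero]
  · rw [AA, hfb j hj, mul_zero, mul_zero, map_zero, zero_mul, map_zero]
  · rw [AA, hfb l hl, mul_zero, map_zero, mul_zero, map_zero]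
  · have h1 : Form.IsDeg (d - 1) (bz F D Om) := isDeg_bz F hD htwo hOd
    have h2 : Form.IsDeg d (fo Om) := hOd.pull _ _
    have h3 : Form.IsDeg d (fb F D Om) := hOd.pull _ _
    have h4 : Form.IsDeg ((d - 1) + (d * i + d * j) + ((d - 1) + d * l))
        (P1 (bz F D Om * (fo Om ^ i * fb F D Om ^ j)) * P2 (bz F D Om * fb F D Om ^ l)) :=
      ((h1.mul ((h2.pow i).mul (h3.pow j))).pull Prod.fst
        (map_p1 (dB := dUT E M) (f := foot))).mul ((h1.mul (h3.pow l)).pull Prod.snd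
        (map_p2 (dB := dUT E M) (f := foot)))
    refine II2_deg X v0 b hr hDR ?_ h4
    rw [hk]
    intro h5
    apply hijl
    have h6 : d * (i + j + l + 2) = d * (3 * n) := by
      have e1 : d - 1 + (d * i + d * j) + (d - 1 + d * l) + 2 = d * (i + j + l + 2) := by
        have e2 : d * (i + j + l + 2) = d * i + d * j + d * l + d * 2 := by ring
        rw [e2]
        omega
      rw [e1] at h5
      rw [h5]
      ring
    exact Nat.eq_of_mul_eq_mul_left (by omega) h6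

include F hD hB hdiam hP hd hev htwo hE hrad hOd hOn in
/-- **the basic number of the cycle** -/
theorem AA_val (hn : 1 ≤ n) (h2 : WF.IsDeg Om d)
    {Psi : Eu E → Lam (Eu E)} (hPsi : Q.Ang Psi) {f : Eu E → ℝ} {K' : Set (Eu E)}
    (hf : Q.Cut f K') (hK' : K' ⊆ Metric.ball (0 : Eu E) D)
    (hG : ∀ x ∈ Metric.ball (0 : Eu E) D, Om.val (ef e p) x = extd (fun z => f z • Psi z) x)
    (hB0 : ∀ y ≠ 0, Fm.pull (ContinuousLinearMap.inr ℝ (Eu E) (Eu E))
      ((bz F D Om).val (cc X v0) (0, y)) = Psi y) :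
    AA X v0 b hr hDR F Om n (n - 1) (n - 1) = -Q.qv volume b r Psi (n - 1) ^ 3 := by
  have hL := exists_pr F hD hB hdiam hP
  have hp := pth F hd hev hOd hOn (D := D)
  rw [← II2_val X v0 b hr hDR F hD hB hdiam hL hd h2 hev htwo hn hE hrad hPsi hf hK' hG hB0, AA,
    ← map_neg]
  congr 1
  set α := bz F D Om * (fo Om ^ n * fb F D Om ^ (n - 1)) with hα
  have hff : (fo Om ^ n * fb F D Om ^ (n - 1)).sg = fo Om ^ n * fb F D Om ^ (n - 1) :=
    mul_even (pow_even hp.e₀ n) (pow_even hp.e₁ (n - 1))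
  have hαs : α.sg = -α := by rw [hα, Form.sg_mul, hp.o, hff, neg_mul]
  have hβs : (bz F D Om * fb F D Om ^ (n - 1)).sg = -(bz F D Om * fb F D Om ^ (n - 1)) := by
    rw [Form.sg_mul, hp.o, pow_even hp.e₁ (n - 1), neg_mul]
  have h5 : (P1 α : Form (dU2 E M)).sg = -P1 α := by rw [P1_sg, hαs, map_neg]
  have h6 : (P2 (bz F D Om * fb F D Om ^ (n - 1)) : Form (dU2 E M)).sg =
      -P2 (bz F D Om * fb F D Om ^ (n - 1)) := by
    have h7 : (P2 (bz F D Om * fb F D Om ^ (n - 1)) : Form (dU2 E M)).sg =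
        P2 (bz F D Om * fb F D Om ^ (n - 1)).sg :=
      (Form.pull_sg Prod.snd (map_p2 (dB := dUT E M) (f := foot)) _).symm
    rw [h7, hβs, map_neg]
  rw [Form.mul_of_odd h5, h6, neg_mul]
  rfl

end Vals

end

end Vale.Agent.P231.S2T
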