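import Vale.Agent.P231.S2T.SS
import Vale.Agent.P231.S2T.Fun2
import Vale.Agent.P231.S2T.Val5
import Vale.Agent.P231.S2T.Inst
import Vale.Agent.P231.S2II.Fun
import Vale.Agent.P231.L3.SysSL

/-!
# P231, stage 2, block S2-T (T3, part 10): the integral over `V ×_M V`
-/

set_option maxSynthPendingDepth 3
set_option linter.unusedSectionVars false
set_option linter.unusedVariables false

open Bundle Manifold Set Filter Module Topology MeasureTheory
open scoped ContDiff Manifold Topology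

namespace Vale.Agent.P231.S2T

noncomputable section

open Vale.Agent.P234 Vale.Agent.P231 Vale.Agent.P231.Fm Vale.Agent.P231.W Vale.Agent.P231.H775
  Vale.Agent.P231.WG Vale.Agent.P231.WR Vale.Agent.P231.X3
open Vale.Agent.P231.Fm (Sm Dif Form Lam)

/-! ### generic facts on the two flows of a fibre product -/

section Flows

variable {B N : Type*} {dB : Dif B} {f : B → N} {ψ : B × ℝ → B} {T : ℝ}

theorem isFlow_R1 (h : IsFlow dB T ψ) (hf : ∀ b t, f (ψ (b, t)) = f b) :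
    IsFlow (V2 dB f) T (R1 ψ) where
  map := map_R1 h.map hf
  zero x := Prod.ext (h.zero x.1) rfl
  add x s t := Prod.ext (h.add x.1 s t) rfl
  per x := Prod.ext (h.per x.1) rfl

theorem isFlow_R2 (h : IsFlow dB T ψ) (hf : ∀ b t, f (ψ (b, t)) = f b) :
    IsFlow (V2 dB f) T (R2 ψ) where
  map := map_R2 h.map hf
  zero x := Prod.ext rfl (h.zero x.2)
  add x s t := Prod.ext rfl (h.add x.2 s t)
  per x := Prod.ext rfl (h.per x.2)

theorem moves_R1 {z : B × B} (h : Moves dB ψ z.1) : Moves (V2 dB f) (R1 ψ) z := by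
  obtain ⟨g, hg, a, ha, h1⟩ := h
  refine ⟨fun z => g z.1, fun {E} _ _ _ {u x} hu hux => ?_, a, ha, h1⟩
  exact hg (u := fun y => (u y).1) (map_p1 hu) (congrArg Prod.fst hux)

theorem moves_R2 {z : B × B} (h : Moves dB ψ z.2) : Moves (V2 dB f) (R2 ψ) z := by
  obtain ⟨g, hg, a, ha, h1⟩ := h
  refine ⟨fun z => g z.2, fun {E} _ _ _ {u x} hu hux => ?_, a, ha, h1⟩
  exact hg (u := fun y => (u y).2) (map_p2 hu) (congrArg Prod.snd hux)

open H584 in
/-- naturality of the orbit integral -/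
theorem J_nat {X Y : Type*} {D : Dif X} {D' : Dif Y} {g : X → Y} (hg : D.Map D' g)
    {Φ : X × ℝ → X} (hΦ : (D.prod (Dif.lin ℝ)).Map D Φ) {Ψ : Y × ℝ → Y}
    (hΨ : (D'.prod (Dif.lin ℝ)).Map D' Ψ) (h : ∀ x t, g (Φ (x, t)) = Ψ (g x, t)) (c : ℝ)
    (w : Form D') : J Φ hΦ c (Form.pull g hg w) = Form.pull g hg (J Ψ hΨ c w) := by
  have hc : (D.prod (Dif.lin ℝ)).Map (D'.prod (Dif.lin ℝ)) (fun p => (g p.1, p.2)) :=
    fun {E} _ _ _ {u x} h => ⟨hg h.1, h.2⟩
  have hk : (D.prod (Dif.lin ℝ)).Map D' (fun p => Ψ (g p.1, p.2)) := fun h => hΨ (hc h)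
  have h1 : (D.prod (Dif.lin ℝ)).Map (D'.prod (Dif.lin ℝ)) (fun p => (g p.1, c * p.2)) :=
    fun {E} _ _ _ {u x} hh => map_scale c (hc hh)
  have e1 : Form.pull Φ hΦ (Form.pull g hg w) = Form.pull (fun p => (g p.1, p.2)) hc
      (Form.pull Ψ hΨ w) := by
    rw [H584.pull_pull (k := fun p : X × ℝ => Ψ (g p.1, p.2)) hΦ hg hk (fun p => h p.1 p.2) w,
      ← H584.pull_pull (k := fun p : X × ℝ => Ψ (g p.1, p.2)) hc hΨ hk (fun p => rfl) w]
  rw [J_def, J_def, e1, KT, KT, ← K_nat hg]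
  congr 1
  rw [H584.pull_pull (map_scale c) hc h1 (fun p => rfl)]
  exact (H584.pull_pull hc (map_scale c) h1 (fun p => rfl) _).symm

open H584 in
/-- the pullback of a connection form -/
theorem contact_pull {X Y : Type*} {D : Dif X} {D' : Dif Y} {g : X → Y} (hg : D.Map D' g)
    {Φ : X × ℝ → X} (hΦ : (D.prod (Dif.lin ℝ)).Map D Φ) {Ψ : Y × ℝ → Y}
    (hΨ : (D'.prod (Dif.lin ℝ)).Map D' Ψ) (h : ∀ x t, g (Φ (x, t)) = Ψ (g x, t)) {ν : Form D'}
    (hν : Form.pull Ψ hΨ ν = pr ν + dt) :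
    Form.pull Φ hΦ (Form.pull g hg ν) = pr (Form.pull g hg ν) + dt := by
  have hc : (D.prod (Dif.lin ℝ)).Map (D'.prod (Dif.lin ℝ)) (fun p => (g p.1, p.2)) :=
    fun {E} _ _ _ {u x} h => ⟨hg h.1, h.2⟩
  have hk : (D.prod (Dif.lin ℝ)).Map D' (fun p => Ψ (g p.1, p.2)) := fun h => hΨ (hc h)
  have hk' : (D.prod (Dif.lin ℝ)).Map D' (fun p => g p.1) := fun h => hg h.1
  have e1 : Form.pull Φ hΦ (Form.pull g hg ν) = Form.pull (fun p => (g p.1, p.2)) hc
      (Form.pull Ψ hΨ ν) := by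
    rw [H584.pull_pull (k := fun p : X × ℝ => Ψ (g p.1, p.2)) hΦ hg hk (fun p => h p.1 p.2) ν,
      ← H584.pull_pull (k := fun p : X × ℝ => Ψ (g p.1, p.2)) hc hΨ hk (fun p => rfl) ν]
  rw [e1, hν]
  refine (map_add (Form.pullA _ hc) _ _).trans ?_
  congr 1
  · change Form.pull _ hc (pr ν) = _
    rw [pr, pr, H584.pull_pull (k := fun p : X × ℝ => g p.1) hc Dif.map_fst hk' (fun p => rfl) ν,
      H584.pull_pull (k := fun p : X × ℝ => g p.1) Dif.map_fst hg hk' (fun p => rfl) ν]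
  · exact H584.pull_dt hg

end Flows

/-! ### the integral -/

variable {E : Type*} [NormedAddCommGroup E] [NormedSpace ℝ E] [FiniteDimensional ℝ E]
  {M : Type*} [MetricSpace M] [ChartedSpace E M] [IsManifold 𝓘(ℝ, E) ∞ M]
  [RiemannianBundle (fun x : M => TangentSpace 𝓘(ℝ, E) x)]
  [IsContMDiffRiemannianBundle 𝓘(ℝ, E) ∞ E (fun x : M => TangentSpace 𝓘(ℝ, E) x)]
  [CompactSpace M] [ConnectedSpace M] [IsRiemannianManifold 𝓘(ℝ, E) M]
  {e : ∀ x : M, TangentSpace 𝓘(ℝ, E) x → M} {D : ℝ} {l : ℕ} [NeZero l] (G : Geo e D l)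
  {b0 : Form (dPr e D)} (hb : S2II.Orn G.F G.hD G.hB G.hdiam (l := l) b0) (hl : Odd l)
  {p : M} {R : ℝ} (X : WG.Fr e p R) (v0 : UT E M) {k : ℕ} (b : Basis (Fin k) ℝ (Eu E))
  {r : Eu E → ℝ} {K : Set (Eu E)} (hr : Q.Cut r K) (hDR : D < R)

/-- the first projection -/
abbrev p₁ (e : ∀ x : M, TangentSpace 𝓘(ℝ, E) x → M) (D : ℝ) :
    Form (dPr e D) →ₐ[ℝ] Form (dVV e D) := Form.pullA Prod.fst map_p1

/-- the second projection -/
abbrev p₂ (e : ∀ x : M, TangentSpace 𝓘(ℝ, E) x → M) (D : ℝ) :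
    Form (dPr e D) →ₐ[ℝ] Form (dVV e D) := Form.pullA Prod.snd map_p2

theorem map_ppv : (dVV e D).Map (dU2 E M) (pp Pr.v) := fun {E} _ _ _ {u x} hu =>
  ⟨⟨map_v hu.1.1, map_v hu.1.2⟩, hu.2⟩

/-- the projection to `UT ×_M UT` -/
abbrev p₀ (e : ∀ x : M, TangentSpace 𝓘(ℝ, E) x → M) (D : ℝ) :
    Form (dU2 E M) →ₐ[ℝ] Form (dVV e D) := Form.pullA (pp Pr.v) map_ppv

theorem p₀_P1 (a : Form (dUT E M)) : p₀ e D (P1 a) = p₁ e D (Form.pull Pr.v map_v a) :=
  Form.ext_val fun V _ _ _ u x hu => by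
    change (Form.pull _ map_ppv (Form.pull Prod.fst map_p1 a)).val u x =
      (Form.pull Prod.fst map_p1 (Form.pull Pr.v map_v a)).val u x
    rw [Form.pull_val _ _ hu, Form.pull_val _ _ (map_ppv hu), Form.pull_val _ _ hu,
      Form.pull_val _ _ (map_p1 hu)]
    rfl

theorem p₀_P2 (a : Form (dUT E M)) : p₀ e D (P2 a) = p₂ e D (Form.pull Pr.v map_v a) :=
  Form.ext_val fun V _ _ _ u x hu => by
    change (Form.pull _ map_ppv (Form.pull Prod.snd map_p2 a)).val u x =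
      (Form.pull Prod.snd map_p2 (Form.pull Pr.v map_v a)).val u x
    rw [Form.pull_val _ _ hu, Form.pull_val _ _ (map_ppv hu), Form.pull_val _ _ hu,
      Form.pull_val _ _ (map_p2 hu)]
    rfl

/-- **the integral over `V ×_M V`** -/
def IV : Form (dVV e D) →ₗ[ℝ] ℝ :=
  II2 X v0 b hr hDR ∘ₗ SS (S2II.bun_SL G.F G.hD G.hB G.hdiam G.hP hb hl) (S2II.bas l) foot

/-- Stokes -/
theorem IV_d (w : Form (dVV e D)) : IV G hb hl X v0 b hr hDR w.d = 0 := by
  have h1 := SS_d (S2II.bun_SL G.F G.hD G.hB G.hdiam G.hP hb hl) (S2II.bas l) (f := foot) w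
  have hP : ∀ x y : M, dist x y = D → 2 ≤ finrank ℝ (H775.Pl e D x y) := fun x y h => by
    rw [G.hP x y h]
    have := NeZero.pos l
    omega
  exact (congrArg (II2 X v0 b hr hDR) h1).trans (II2_d G.F G.hD G.hB G.hdiam hP X v0 b hr hDR _)

/-- the integral only sees the part of top degree -/
theorem IV_part {N : ℕ} (hN : N + 5 = 3 * k + 2 * l) (hk : 1 ≤ k) (w : Form (dVV e D)) :
    IV G hb hl X v0 b hr hDR w = IV G hb hl X v0 b hr hDR (Form.part (N + 1) w) := by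
  have hl0 := NeZero.pos l
  have h1 := part_SS (S2II.bun_SL G.F G.hD G.hB G.hdiam G.hP hb hl) (S2II.bas l) (f := foot)
    (j := N + 1) (k := 3 * k - 2) (by omega) w hl0
  have h2 := II2_part X v0 b hr hDR (m := 3 * k - 2) (by omega)
    (SS (S2II.bun_SL G.F G.hD G.hB G.hdiam G.hP hb hl) (S2II.bas l) foot w)
  exact h2.trans (congrArg (II2 X v0 b hr hDR) h1)

include G hb hl in
/-- the dimension of `V ×_M V` -/
theorem dimEq_VV (hk : finrank ℝ E = k) (hk1 : 1 ≤ k) {N : ℕ} (hN : N + 5 = 3 * k + 2 * l) :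
    WF.DimEq (dVV e D) (N + 1) := by
  have hl0 := NeZero.pos l
  obtain ⟨m, rfl⟩ : ∃ m, k = m + 1 := ⟨k - 1, by omega⟩
  have h1 : WF.DimEq (dU2 E M) (3 * m + 1) := dimEq_U2 E M hk
  have h2 : finrank ℝ (S2II.Eul l) = l - 1 + 1 := by
    rw [finrank_euclideanSpace, Fintype.card_fin]
    omega
  refine @dimEq_S2 _ _ _ _ _ _ _ foot _ _ _ _ _ _ _
    (S2II.bun_SL G.F G.hD G.hB G.hdiam G.hP hb hl) (l - 1) h2 (3 * m + 1) h1 (N + 1) (by omega)

/-- the first flow -/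
theorem fl1 : IsFlow (dVV e D) (2 * Real.pi) (R1 G.R) := isFlow_R1 G.isFlow_R G.foot_R

/-- the second flow -/
theorem fl2 : IsFlow (dVV e D) (2 * Real.pi) (R2 G.R) := isFlow_R2 G.isFlow_R G.foot_R

/-- **the integral and the two connection forms** -/
theorem two {ν : Form (dPr e D)} (hν : Form.pull G.R G.map_R ν = pr ν + dt)
    (hν1 : Form.IsDeg 1 ν) (hk : finrank ℝ E = k) (hk1 : 1 ≤ k) {N : ℕ}
    (hN : N + 5 = 3 * k + 2 * l) :
    Two (fl1 G) (fl2 G) (IV G hb hl X v0 b hr hDR) N (p₁ e D ν) (p₂ e D ν) where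
  Id := IV_d G hb hl X v0 b hr hDR
  Ib₁ := fun w hw => by
    have h1 : Form.part (N + 1) w = 0 := by
      refine WG.basic_top_eq_zero (dimEq_VV G hb hl hk hk1 hN) (mapR1 G) (fl1 G).zero
        (fun z => moves_R1 (S2II.moves_R G.F G.hD G.hB G.hdiam z.1)) (Form.isDeg_part _ w) ?_
      change Form.pull (R1 G.R) (mapR1 G) (Form.part (N + 1) w) = pr (Form.part (N + 1) w)
      rw [← Form.part_pull, hw]
      exact Form.part_pull _ _ (Dif.map_fst (D := dVV e D) (D' := Dif.lin ℝ)) w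
    rw [IV_part G hb hl X v0 b hr hDR hN hk1, h1, map_zero]
  Ib₂ := fun w hw => by
    have h1 : Form.part (N + 1) w = 0 := by
      refine WG.basic_top_eq_zero (dimEq_VV G hb hl hk hk1 hN) (mapR2 G) (fl2 G).zero
        (fun z => moves_R2 (S2II.moves_R G.F G.hD G.hB G.hdiam z.2)) (Form.isDeg_part _ w) ?_
      change Form.pull (R2 G.R) (mapR2 G) (Form.part (N + 1) w) = pr (Form.part (N + 1) w)
      rw [← Form.part_pull, hw]
      exact Form.part_pull _ _ (Dif.map_fst (D := dVV e D) (D' := Dif.lin ℝ)) w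
    rw [IV_part G hb hl X v0 b hr hDR hN hk1, h1, map_zero]
  Im := IV_part G hb hl X v0 b hr hDR hN hk1
  dim := fun w => by
    have h1 : WA.DimLE (dVV e D) (N + 1) := fun {E} _ _ _ {u x} hu =>
      WF.DimEq.dimLE (dimEq_VV G hb hl hk hk1 hN) hu
    exact h1.part_eq_zero (by omega) w
  c₁ := contact_pull (D' := dPr e D) map_p1 (mapR1 G) G.map_R (fun _ _ => rfl) hν
  c₂ := contact_pull (D' := dPr e D) map_p2 (mapR2 G) G.map_R (fun _ _ => rfl) hν
  i₁ := H584.basic_pull (D := dVV e D) (D' := dPr e D) (f := Prod.fst) map_p1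
    (fun _ _ => rfl) ν
  i₂ := H584.basic_pull (D := dVV e D) (D' := dPr e D) (f := Prod.snd) map_p2
    (fun _ _ => rfl) ν
  d₁ := hν1.pull Prod.fst (map_p1 (dB := dPr e D) (f := fun p : Pr e D => foot p.v))
  d₂ := hν1.pull Prod.snd (map_p2 (dB := dPr e D) (f := fun p : Pr e D => foot p.v))

/-- **the integral of a product** -/
theorem IV_prod (α β : Form (dPr e D)) (v : Form (dU2 E M)) :
    IV G hb hl X v0 b hr hDR (p₁ e D α * p₂ e D β * p₀ e D v) = II2 X v0 b hr hDR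
      (P1 (S2II.SL G.F G.hD G.hB G.hdiam G.hP hb hl α) *
        P2 (S2II.SL G.F G.hD G.hB G.hdiam G.hP hb hl β) * v) :=
  congrArg (II2 X v0 b hr hDR)
    (SS_prod (S2II.bun_SL G.F G.hD G.hB G.hdiam G.hP hb hl) (S2II.bas l) hl α β v)

/-- forms of small degree -/
theorem SL_eq_zero {ν : Form (dPr e D)} (hν1 : Form.IsDeg 1 ν) (h3 : 3 ≤ l) :
    S2II.SL G.F G.hD G.hB G.hdiam G.hP hb hl ν = 0 :=
  (S2II.bun_SL G.F G.hD G.hB G.hdiam G.hP hb hl).SI_eq_zero (S2II.bas l) hν1 (by omega)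

end

end Vale.Agent.P231.S2T
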