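import Vale.Agent.P231.Co.BunC
import Vale.Agent.P231.Co.Gen

/-!
# P231, stage 2: the cohomology of `M` in the top degree
-/

set_option maxSynthPendingDepth 3
set_option linter.unusedSectionVars false
set_option linter.unusedVariables false

open Bundle Manifold Set Filter Module
open scoped ContDiff Manifold Topology

namespace Vale.Agent.P231.CoC

noncomputable section

open Vale.Agent.P234 Vale.Agent.P231 Vale.Agent.P231.Fm Vale.Agent.P231.W Vale.Agent.P231.H775
open Vale.Agent.P231.WE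

/-! ### dimension -/

theorem dimLE_quot {X Y : Type*} {D : Dif X} {m : ℕ} (hD : WA.DimLE D m) (q : X → Y) :
    WA.DimLE (D.quot q) m := by
  rintro V _ _ _ u x ⟨v, h1, h2⟩
  obtain ⟨F, i1, i2, i3, c, g, hF, hg, hc, h3⟩ := hD h2
  refine ⟨F, i1, i2, i3, q ∘ c, g, hF, hg, ⟨c, EventuallyEq.rfl, hc⟩, ?_⟩
  filter_upwards [h1, h3] with y k1 k2
  rw [← k1]
  exact congrArg q k2

variable {E : Type*} [NormedAddCommGroup E] [NormedSpace ℝ E] [FiniteDimensional ℝ E]
  {M : Type*} [MetricSpace M] [ChartedSpace E M] [IsManifold 𝓘(ℝ, E) ∞ M]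
  [RiemannianBundle (fun x : M => TangentSpace 𝓘(ℝ, E) x)]
  [IsContMDiffRiemannianBundle 𝓘(ℝ, E) ∞ E (fun x : M => TangentSpace 𝓘(ℝ, E) x)]
  {e : ∀ x : M, TangentSpace 𝓘(ℝ, E) x → M}
  [CompactSpace M] [ConnectedSpace M] [IsRiemannianManifold 𝓘(ℝ, E) M]

/-- the unit sphere at `p` has dimension `dim M - 1` -/
theorem dimLE_up (p : M) {n : ℕ} (hn : finrank ℝ E = n + 1) :
    WA.DimLE ((dUT E M).on (up p)) n := by
  intro V _ _ _ u x hu
  have h1 := sm_vecp hu
  have h2 : ∀ᶠ y in 𝓝 x, foot (u y) = p := hu.2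
  set b : V → Eu E := fun y => (fI (E := E) p).symm (vp p (u y)) with hb
  have hbs : Sm b x := by
    filter_upwards [h1] with y k1
    exact (fI (E := E) p).symm.contDiff.contDiffAt.comp y k1
  have hb1 : ∀ᶠ y in 𝓝 x, ‖b y‖ = 1 := by
    filter_upwards [h2] with y hy
    rw [hb, LinearIsometryEquiv.norm_map]
    exact norm_vp hy
  set ξ : Eu E := b x with hξ
  have hξ1 : ‖ξ‖ = 1 := hb1.self_of_nhds
  have hξ0 : ξ ≠ 0 := fun h => by
    rw [h, norm_zero] at hξ1
    exact zero_ne_one hξ1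
  set S : Submodule ℝ (Eu E) := (ℝ ∙ ξ)ᗮ with hS
  have : Fact (finrank ℝ (Eu E) = n + 1) := ⟨by
    rw [finrank_euclideanSpace, Fintype.card_fin, hn]⟩
  have hfin : finrank ℝ S = n := Submodule.finrank_orthogonal_span_singleton hξ0
  have hin : ContinuousAt (fun y => inner ℝ ξ (b y)) x :=
    continuousAt_const.inner hbs.continuousAt
  have hpos : ∀ᶠ y in 𝓝 x, 0 < inner ℝ ξ (b y) := by
    refine hin.eventually (lt_mem_nhds ?_)
    change 0 < inner ℝ ξ (b x)
    rw [← hξ, real_inner_self_eq_norm_sq, hξ1]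
    norm_num
  have hproj : ∀ w : Eu E, ((S.orthogonalProjectionOnto w : S) : Eu E) = w - inner ℝ ξ w • ξ := by
    intro w
    have k1 : w - inner ℝ ξ w • ξ ∈ S := by
      rw [hS, Submodule.mem_orthogonal_singleton_iff_inner_right, inner_sub_right,
        inner_smul_right, real_inner_self_eq_norm_sq, hξ1]
      ring
    have k2 : inner ℝ ξ w • ξ ∈ Sᗮ := by
      rw [hS, Submodule.orthogonal_orthogonal]
      exact Submodule.smul_mem _ _ (Submodule.mem_span_singleton_self ξ)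
    have k3 : w = (w - inner ℝ ξ w • ξ) + inner ℝ ξ w • ξ := by abel
    conv_lhs => rw [k3]
    rw [map_add, Submodule.orthogonalProjectionOnto_apply_of_mem_orthogonal k2,
      add_zero]
    exact Submodule.starProjection_eq_self_iff.2 k1
  refine ⟨S, inferInstance, inferInstance, inferInstance,
    fun η => mkp p (u x) (fI (E := E) p (‖ξ + (η : Eu E)‖⁻¹ • (ξ + (η : Eu E)))),
    fun y => (inner ℝ ξ (b y))⁻¹ • S.orthogonalProjectionOnto (b y), hfin.le, ?_, ?_, ?_⟩
  · filter_upwards [hbs, hpos] with y k1 k2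
    exact ((contDiffAt_const.inner ℝ k1).inv k2.ne').smul
      (S.orthogonalProjectionOnto.contDiff.contDiffAt.comp y k1)
  · have hne : ∀ η : S, ξ + (η : Eu E) ≠ 0 := by
      intro η hη
      have k1 : inner ℝ ξ (ξ + (η : Eu E)) = (1 : ℝ) := by
        rw [inner_add_right, real_inner_self_eq_norm_sq, hξ1,
          (Submodule.mem_orthogonal_singleton_iff_inner_right).1 η.2]
        norm_num
      rw [hη, inner_zero_right] at k1
      exact zero_ne_one k1
    refine at_mkp (Eventually.of_forall fun η => ?_) (Eventually.of_forall fun η => ?_)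
    · refine (fI (E := E) p).contDiff.contDiffAt.comp η ?_
      have k1 : ContDiffAt ℝ ∞ (fun η : S => ξ + (η : Eu E)) η :=
        contDiffAt_const.add S.subtypeL.contDiff.contDiffAt
      exact ((k1.norm ℝ (hne η)).inv (norm_ne_zero_iff.2 (hne η))).smul k1
    · rw [LinearIsometryEquiv.norm_map, norm_smul, norm_inv, norm_norm,
        inv_mul_cancel₀ (norm_ne_zero_iff.2 (hne η))]
  · filter_upwards [h2, hb1, hpos] with y k1 k2 k3
    have k4 : ξ + (((inner ℝ ξ (b y))⁻¹ • S.orthogonalProjectionOnto (b y) : S) : Eu E) =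
        (inner ℝ ξ (b y))⁻¹ • b y := by
      rw [Submodule.coe_smul, hproj, smul_sub, smul_smul, inv_mul_cancel₀ k3.ne', one_smul]
      abel
    have k5 : ‖(inner ℝ ξ (b y))⁻¹ • b y‖⁻¹ • ((inner ℝ ξ (b y))⁻¹ • b y) = b y := by
      rw [norm_smul, k2, mul_one, Real.norm_of_nonneg (inv_nonneg.2 k3.le), _root_.inv_inv, smul_smul,
        mul_inv_cancel₀ k3.ne', one_smul]
    change u y = mkp p (u x) (fI (E := E) p (‖ξ + (((inner ℝ ξ (b y))⁻¹ •
      S.orthogonalProjectionOnto (b y) : S) : Eu E)‖⁻¹ • (ξ + (((inner ℝ ξ (b y))⁻¹ •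
      S.orthogonalProjectionOnto (b y) : S) : Eu E))))
    rw [k4, k5, hb, LinearIsometryEquiv.apply_symm_apply, mkp_vp k1]

/-- forms of top degree vanish on the cut locus -/
theorem pull_dC_top (F : Facts e) (D : ℝ) (p : M) (h0 : 0 < finrank ℝ E) {w : Form (dM E M)}
    (hw : Form.IsDeg (finrank ℝ E) w) : Form.pull id (map_dC F D p) w = 0 := by
  obtain ⟨n, hn⟩ := Nat.exists_eq_succ_of_ne_zero h0.ne'
  exact WA.DimLE.isDeg_eq_zero (dimLE_quot (dimLE_up p hn) (bar e D)) (k := finrank ℝ E)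
    (by omega) (hw.pull _ _)

/-! ### the punctured ball in the degree of the sphere -/

variable (E) in
/-- the orthonormal basis of the model space -/
abbrev oE : OrthonormalBasis (Fin (finrank ℝ E)) ℝ (Eu E) :=
  EuclideanSpace.basisFun (Fin (finrank ℝ E)) ℝ

/-- the integral over the spheres around `p` -/
def sph (F : Facts e) {D : ℝ} (hB : InjGE e D) (p : M)
    (σ : Form ((dM E M).on (bl p D ∩ pc p))) : Form ((Dif.lin ℝ).on (Ioo 0 D)) :=
  Co.si (oE E) (Form.pull (pol e p) (map_pol F hB p) σ)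

theorem sph_sub (F : Facts e) {D : ℝ} (hB : InjGE e D) (p : M)
    (σ τ : Form ((dM E M).on (bl p D ∩ pc p))) :
    sph F hB p (σ - τ) = sph F hB p σ - sph F hB p τ := by
  rw [sph, Form.pull_sub', Co.si_sub]
  rfl

theorem sph_smul (F : Facts e) {D : ℝ} (hB : InjGE e D) (p : M) (c : ℝ)
    (σ : Form ((dM E M).on (bl p D ∩ pc p))) :
    sph F hB p (c • σ) = c • sph F hB p σ := by
  rw [sph, Co.pull_smul, Co.si_smul]
  rfl

theorem sph_closed (F : Facts e) {D : ℝ} (hD : 0 < D) (hB : InjGE e D) (p : M) {n : ℕ}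
    (hn : finrank ℝ E = n + 1) {σ : Form ((dM E M).on (bl p D ∩ pc p))} (hσ : σ.d = 0)
    (hσj : Form.IsDeg n σ) : ∃ c : ℝ, sph F hB p σ = c • 1 := by
  have h1 := Co.si_d (oE E) (Form.pull (pol e p) (map_pol F hB p) σ)
  rw [← Form.pull_d, hσ, Form.pull_zero', Co.si_zero] at h1
  have h2 : (sph F hB p σ).d = 0 :=
    (smul_eq_zero.1 h1.symm).resolve_left (pow_ne_zero _ (by norm_num))
  refine (contr_Ioo hD).const h2 ?_
  exact Co.isDeg_si (oE E) (hσj.pull (pol e p) (map_pol F hB p)) (by omega)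

theorem punct_top (F : Facts e) {D : ℝ} (hD : 0 < D) (hB : InjGE e D) (p : M) {n : ℕ}
    {σ : Form ((dM E M).on (bl p D ∩ pc p))} (hσ : σ.d = 0)
    (hσj : Form.IsDeg (n + 1) σ) (h0 : sph F hB p σ = 0) :
    ∃ ν : Form ((dM E M).on (bl p D ∩ pc p)), σ = ν.d := by
  obtain ⟨τ, hτ⟩ := Co.exists_th (F := Eu E) (oE E) ((Dif.lin ℝ).on (Ioo 0 D))
  have hσ' : (Form.pull (pol e p) (map_pol F hB p) σ).d = 0 := by
    rw [← Form.pull_d, hσ, Form.pull_zero']
  have he := Co.gysin2 (oE E) hσ' h0 hτ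
  have ha := Co.ba_d (oE E) hσ' h0 hτ
  have haj := Co.isDeg_ba (oE E) (hσj.pull (pol e p) (map_pol F hB p)) hτ
  have hpb : σ = Form.pull (lop e p) (map_lop F hB p)
      (Form.pull (pol e p) (map_pol F hB p) σ) := by
    refine Form.ext_val fun V _ _ _ u x hu => ?_
    rw [Form.pull_val _ _ hu, Form.pull_val _ _ (map_lop F hB p hu)]
    refine σ.congr hu ?_
    filter_upwards [hu.2] with y hy
    exact (pol_lop F hB hy).symm
  obtain ⟨b, hb⟩ := (contr_Ioo hD).exact ha haj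
  refine ⟨Form.pull (lop e p) (map_lop F hB p)
    (Co.pS b + Co.ka (oE E) (Form.pull (pol e p) (map_pol F hB p) σ) τ), ?_⟩
  rw [← Form.pull_d, Form.d_add]
  have h1 : (Co.pS b : Form (Co.SB ((Dif.lin ℝ).on (Ioo 0 D)) (Eu E))).d =
      Co.pS (Co.ba (oE E) (Form.pull (pol e p) (map_pol F hB p) σ) τ) := by
    rw [Co.pS, ← Form.pull_d, ← hb]
    rfl
  rw [h1, ← he]
  exact hpb

/-! ### gluing -/

/-- the difference of two forms on the ball and on the complement of its centre -/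
def dif (p : M) (D : ℝ) (κ₀ : Form ((dM E M).on (bl p D))) (κ₁ : Form ((dM E M).on (pc p))) :
    Form ((dM E M).on (bl p D ∩ pc p)) :=
  Form.pull id (Dif.map_on_mono inter_subset_right) κ₁ -
    Form.pull id (Dif.map_on_mono inter_subset_left) κ₀

theorem dif_d {p : M} {D : ℝ} {κ₀ : Form ((dM E M).on (bl p D))}
    {κ₁ : Form ((dM E M).on (pc p))} {w : Form (dM E M)} (e0 : κ₀.d = Form.res (bl p D) w)
    (e1 : κ₁.d = Form.res (pc p) w) : (dif p D κ₀ κ₁).d = 0 := by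
  have i0 : bl p D ∩ pc p ⊆ bl p D := inter_subset_left
  have i1 : bl p D ∩ pc p ⊆ pc p := inter_subset_right
  have r0 : Form.pull id (Dif.map_on_mono i0) (Form.res (bl p D) w) =
      Form.res (bl p D ∩ pc p) w :=
    Form.pull2_one (f := id) (g := id) (g' := id) _ _ _ (fun _ => rfl) w
  have r1 : Form.pull id (Dif.map_on_mono i1) (Form.res (pc p) w) =
      Form.res (bl p D ∩ pc p) w :=
    Form.pull2_one (f := id) (g := id) (g' := id) _ _ _ (fun _ => rfl) w
  have k0 : (Form.pull id (Dif.map_on_mono i0) κ₀).d = Form.res (bl p D ∩ pc p) w := by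
    rw [← Form.pull_d, e0, r0]
  have k1 : (Form.pull id (Dif.map_on_mono i1) κ₁).d = Form.res (bl p D ∩ pc p) w := by
    rw [← Form.pull_d, e1, r1]
  change (Form.pull id (Dif.map_on_mono i1) κ₁ - Form.pull id (Dif.map_on_mono i0) κ₀).d = 0
  rw [Form.d_sub, k0, k1, sub_self]

theorem dif_sub (p : M) (D : ℝ) (κ₀ κ₀' : Form ((dM E M).on (bl p D)))
    (κ₁ κ₁' : Form ((dM E M).on (pc p))) (s : ℝ) :
    dif p D (κ₀ - s • κ₀') (κ₁ - s • κ₁') = dif p D κ₀ κ₁ - s • dif p D κ₀' κ₁' := by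
  have i0 : bl p D ∩ pc p ⊆ bl p D := inter_subset_left
  have i1 : bl p D ∩ pc p ⊆ pc p := inter_subset_right
  have a0 : Form.pull id (Dif.map_on_mono i0) (κ₀ - s • κ₀') =
      Form.pull id (Dif.map_on_mono i0) κ₀ - s • Form.pull id (Dif.map_on_mono i0) κ₀' := by
    rw [Form.pull_sub', Co.pull_smul]
  have a1 : Form.pull id (Dif.map_on_mono i1) (κ₁ - s • κ₁') =
      Form.pull id (Dif.map_on_mono i1) κ₁ - s • Form.pull id (Dif.map_on_mono i1) κ₁' := by
    rw [Form.pull_sub', Co.pull_smul]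
  change Form.pull id (Dif.map_on_mono i1) (κ₁ - s • κ₁') -
    Form.pull id (Dif.map_on_mono i0) (κ₀ - s • κ₀') =
    (Form.pull id (Dif.map_on_mono i1) κ₁ - Form.pull id (Dif.map_on_mono i0) κ₀) -
    s • (Form.pull id (Dif.map_on_mono i1) κ₁' - Form.pull id (Dif.map_on_mono i0) κ₀')
  rw [a0, a1, smul_sub]
  abel

theorem glue (F : Facts e) {D : ℝ} (hD : 0 < D) (hB : InjGE e D) (p : M) {w : Form (dM E M)}
    {κ₀ : Form ((dM E M).on (bl p D))} {κ₁ : Form ((dM E M).on (pc p))}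
    (e0 : κ₀.d = Form.res (bl p D) w) (e1 : κ₁.d = Form.res (pc p) w)
    {ν : Form ((dM E M).on (bl p D ∩ pc p))} (hν : dif p D κ₀ κ₁ = ν.d) :
    ∃ Γ : Form (dM E M), w = Γ.d := by
  have hs : (pw F hD hB p).sg = pw F hD hB p := Form.sg_fn _ _
  have h1 := supp_pw F hD hB p
  have h2 := supp_one_sub_pw F hD hB p
  have hcomm : pc p ∩ bl p D = bl p D ∩ pc p := inter_comm _ _
  have hm : ((dM E M).on (pc p ∩ bl p D)).Map ((dM E M).on (bl p D ∩ pc p)) id := by
    rw [hcomm]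
    exact Dif.map_id
  refine ⟨Form.mx _ h1 κ₁ + Form.mx _ h2 κ₀ +
      Form.mx _ (Form.supp_d_inter h1 h2) (Form.pull id hm ν), ?_⟩
  refine (Form.d_mv hs h1 h2 _ _ _ e1 e0 ?_).symm
  have k1 : Form.pull id hm (Form.pull id (Dif.map_on_mono inter_subset_right) κ₁) =
      Form.pull id (Dif.map_on_mono inter_subset_left) κ₁ :=
    Form.pull2_one (f := id) (g := id) (g' := id) _ _ _ (fun _ => rfl) _
  have k0 : Form.pull id hm (Form.pull id (Dif.map_on_mono inter_subset_left) κ₀) =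
      Form.pull id (Dif.map_on_mono inter_subset_right) κ₀ :=
    Form.pull2_one (f := id) (g := id) (g' := id) _ _ _ (fun _ => rfl) _
  rw [← Form.pull_d, ← hν, dif, Form.pull_sub', k1, k0]

/-- the primitives of a closed form of top degree -/
theorem exists_prim (F : Facts e) {D : ℝ} (hD : 0 < D) (hB : InjGE e D)
    (hdiam : ∀ p q : M, dist p q ≤ D) {l : ℕ}
    (hl : ∀ x y : M, dist x y = D → finrank ℝ (Pl e D x y) = l + 1) (p : M) {n : ℕ}
    (hn : finrank ℝ E = n + 1) {w : Form (dM E M)} (hw : w.d = 0) (hwj : Form.IsDeg (n + 1) w) :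
    ∃ (κ₀ : Form ((dM E M).on (bl p D))) (κ₁ : Form ((dM E M).on (pc p))) (c : ℝ),
      κ₀.d = Form.res (bl p D) w ∧ κ₁.d = Form.res (pc p) w ∧ Form.IsDeg n (dif p D κ₀ κ₁) ∧
      sph F hB p (dif p D κ₀ κ₁) = c • 1 := by
  obtain ⟨κ₀, hκ₀⟩ := (contr_ball F hD hB p).exact (w := Form.res (bl p D) w) (k := n)
    (by rw [Form.res_d, hw, Form.res_zero]) (hwj.pull _ _)
  obtain ⟨κ₁, hκ₁⟩ := exact_pc F hD hB hdiam hl p hw (γ := 0) (by
    rw [pull_dC_top F D p (by omega) (by rw [hn]; exact hwj), Form.d_zero])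
  have e0 : (Form.part n κ₀).d = Form.res (bl p D) w := by
    rw [← Form.part_succ_d, ← hκ₀]
    exact (hwj.pull _ _ : Form.IsDeg (n + 1) (Form.res (bl p D) w))
  have e1 : (Form.part n κ₁).d = Form.res (pc p) w := by
    rw [← Form.part_succ_d, hκ₁]
    exact (hwj.pull _ _ : Form.IsDeg (n + 1) (Form.res (pc p) w))
  have hdeg : Form.IsDeg n (dif p D (Form.part n κ₀) (Form.part n κ₁)) := by
    have k0 : Form.IsDeg n (Form.pull id (Dif.map_on_mono (D := dM E M)
      (inter_subset_left : bl p D ∩ pc p ⊆ bl p D)) (Form.part n κ₀)) :=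
      (Form.isDeg_part n κ₀).pull _ _
    have k1 : Form.IsDeg n (Form.pull id (Dif.map_on_mono (D := dM E M)
      (inter_subset_right : bl p D ∩ pc p ⊆ pc p)) (Form.part n κ₁)) :=
      (Form.isDeg_part n κ₁).pull _ _
    exact k1.sub k0
  obtain ⟨c, hc⟩ := sph_closed F hD hB p hn (dif_d e0 e1) hdeg
  exact ⟨_, _, c, e0, e1, hdeg, hc⟩

/-- **the cohomology of `M` in the top degree** -/
theorem top_M (F : Facts e) {D : ℝ} (hD : 0 < D) (hB : InjGE e D)
    (hdiam : ∀ p q : M, dist p q ≤ D) {l : ℕ}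
    (hl : ∀ x y : M, dist x y = D → finrank ℝ (Pl e D x y) = l + 1)
    (hn : 1 < finrank ℝ E) {G : Form (dM E M)} (hG : G.d = 0)
    (hGj : Form.IsDeg (finrank ℝ E) G) (hne : ∀ Γ : Form (dM E M), G ≠ Γ.d)
    {w : Form (dM E M)} (hw : w.d = 0) (hwj : Form.IsDeg (finrank ℝ E) w) :
    ∃ (c : ℝ) (Γ : Form (dM E M)), w = c • G + Γ.d := by
  obtain ⟨p⟩ : Nonempty M := inferInstance
  obtain ⟨i, hi⟩ : ∃ i, finrank ℝ E = (i + 1) + 1 := ⟨finrank ℝ E - 2, by omega⟩
  rw [hi] at hGj hwj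
  obtain ⟨κ₀, κ₁, c, e0, e1, hdeg, hc⟩ := exists_prim F hD hB hdiam hl p hi hw hwj
  obtain ⟨κ₀', κ₁', c', e0', e1', hdeg', hc'⟩ := exists_prim F hD hB hdiam hl p hi hG hGj
  have hc0 : c' ≠ 0 := by
    rintro rfl
    obtain ⟨ν, hν⟩ := punct_top F hD hB p (dif_d e0' e1') hdeg' (by rw [hc', zero_smul])
    obtain ⟨Γ, hΓ⟩ := glue F hD hB p e0' e1' hν
    exact hne Γ hΓ
  set s : ℝ := c / c' with hs
  have f0 : (κ₀ - s • κ₀').d = Form.res (bl p D) (w - s • G) := by
    rw [Form.d_sub, Form.d_smul, e0, e0', Form.res_sub, Form.res_smul]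
  have f1 : (κ₁ - s • κ₁').d = Form.res (pc p) (w - s • G) := by
    rw [Form.d_sub, Form.d_smul, e1, e1', Form.res_sub, Form.res_smul]
  have hd := dif_sub p D κ₀ κ₀' κ₁ κ₁' s
  obtain ⟨ν, hν⟩ := punct_top F hD hB p (dif_d f0 f1)
    (by rw [hd]; exact hdeg.sub (hdeg'.smul s)) (by
      rw [hd, sph_sub, sph_smul, hc, hc', smul_smul, hs, div_mul_cancel₀ c hc0, sub_self])
  obtain ⟨Γ, hΓ⟩ := glue F hD hB p f0 f1 hν
  exact ⟨s, Γ, by rw [← hΓ]; abel⟩

/-- **(M4) in all degrees**: if `G ^ n` is not exact then the closed forms of degree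
`m j`, `1 ≤ j ≤ n`, `dim M = m n`, are the multiples of `G ^ j` modulo exact forms -/
theorem gen_all (F : Facts e) {D : ℝ} (hD : 0 < D) (hB : InjGE e D)
    (hdiam : ∀ p q : M, dist p q ≤ D) {l : ℕ}
    (hl : ∀ x y : M, dist x y = D → finrank ℝ (Pl e D x y) = l + 1) {m n : ℕ} (hm : 1 < m)
    (hE : finrank ℝ E = m * n) {G : Form (dM E M)} (hG : G.d = 0) (hGm : Form.IsDeg m G)
    (h : Gen (dM E M) G m (finrank ℝ E - 1)) (hne : ∀ Γ : Form (dM E M), G ^ n ≠ Γ.d) {j : ℕ}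
    (hj : 1 ≤ j) (hjn : j ≤ n) {w : Form (dM E M)} (hw : w.d = 0)
    (hwj : Form.IsDeg (m * j) w) : ∃ (c : ℝ) (Γ : Form (dM E M)), w = c • G ^ j + Γ.d := by
  rcases hjn.lt_or_eq with h1 | h1
  · have h2 : m * j < finrank ℝ E - 1 := by
      have h3 : m * (j + 1) ≤ m * n := Nat.mul_le_mul_left m h1
      rw [hE]
      rw [mul_add, mul_one] at h3
      omega
    obtain ⟨c, Γ, h4, -⟩ := h (m * j) w h2 hw hwj
    rw [Nat.mul_div_cancel_left j (by omega)] at h4
    exact ⟨c, Γ, h4⟩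
  · subst h1
    have hGd : (G ^ j).d = 0 := by
      have : ∀ k : ℕ, (G ^ k).d = 0 := by
        intro k
        induction k with
        | zero => rw [pow_zero, Form.d_one]
        | succ k ih => rw [pow_succ, Form.d_mul, ih, hG, zero_mul, mul_zero, add_zero]
      exact this _
    refine top_M F hD hB hdiam hl ?_ hGd (by rw [hE]; exact hGm.pow j) hne hw
      (by rw [hE]; exact hwj)
    rw [hE]
    calc 1 < m := hm
      _ = m * 1 := (mul_one m).symm
      _ ≤ m * j := Nat.mul_le_mul_left m hj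

end

end Vale.Agent.P231.CoC
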