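import Vale.Agent.P231.S2T.Inst
import Vale.Agent.P231.S2T.Deg
import Vale.Agent.P231.S2T.Top
import Vale.Agent.P231.S2T.Alg

/-!
# P231, stage 2, S2-T: the structure `Rel` for `V ×_M V`
-/

set_option maxSynthPendingDepth 3
set_option linter.unusedSectionVars false
set_option linter.unusedVariables false

open Bundle Manifold Set Filter Module Matrix
open scoped ContDiff Manifold Topology

namespace Vale.Agent.P231.S2T

noncomputable section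

open Vale.Agent.P234 Vale.Agent.P231 Vale.Agent.P231.Fm Vale.Agent.P231.W Vale.Agent.P231.WR
  Vale.Agent.P231.ChW Vale.Agent.P231.X3

variable {E : Type*} [NormedAddCommGroup E] [NormedSpace ℝ E] [FiniteDimensional ℝ E]
  {M : Type*} [MetricSpace M] [ChartedSpace E M] [IsManifold 𝓘(ℝ, E) ∞ M]
  [RiemannianBundle (fun x : M => TangentSpace 𝓘(ℝ, E) x)]
  [IsContMDiffRiemannianBundle 𝓘(ℝ, E) ∞ E (fun x : M => TangentSpace 𝓘(ℝ, E) x)]
  [CompactSpace M] [ConnectedSpace M] [IsRiemannianManifold 𝓘(ℝ, E) M]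
  {e : ∀ x : M, TangentSpace 𝓘(ℝ, E) x → M} {K : ℕ} {D : ℝ} {l : ℕ}

theorem dimLE_M' {n : ℕ} (hn : finrank ℝ E = n) : WA.DimLE (dM E M) n := fun hu =>
  WF.dimLE_M (E := E) (M := M) hn hu

theorem map_sq {R S : Type*} [CommRing R] [CommRing S] [Algebra ℝ R] [Algebra ℝ S]
    (φ : R →ₐ[ℝ] S) {y z a b : R} {c : ℝ} (h : y ^ 2 + z ^ 2 = (2 * c) • (a + b)) :
    φ y ^ 2 + φ z ^ 2 = (2 * c) • (φ a + φ b) := by
  have h1 := congrArg φ h
  rwa [map_add, map_pow, map_pow, map_smul, map_add] at h1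

theorem map_yz {R S : Type*} [CommRing R] [CommRing S] [Algebra ℝ R] [Algebra ℝ S]
    (φ : R →ₐ[ℝ] S) {y z a b : R} (h : y ^ 2 * z ^ 2 = (a - b) ^ 2) :
    φ y ^ 2 * φ z ^ 2 = (φ a - φ b) ^ 2 := by
  have h1 := congrArg φ h
  rwa [map_mul, map_pow, map_pow, map_pow, map_sub] at h1

theorem map_nil {R S : Type*} [CommRing R] [CommRing S] [Algebra ℝ R] [Algebra ℝ S]
    (φ : R →ₐ[ℝ] S) {x : R} {n : ℕ} (h : x ^ n = 0) : φ x ^ n = 0 := by
  rw [← map_pow, h, map_zero]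

theorem isDeg_tcl (P : PF E M K) (k : ℕ) : Form.IsDeg (2 * k) (tcl P k) := isDeg_sF_cR _ k

theorem tcl_idem (P : PF E M K) : Idem (cR (fun x => P.tm x) (P.smM_tm (dZ := dM E M)
    (f := fun x => x) fun h => h)) := ⟨ev_cR _, cR_mul _ _ _ P.tm_idem⟩

theorem tcl_d (P : PF E M K) (k : ℕ) : (tcl P k).d = 0 := sF_closed (tcl_idem P) k

theorem tcl_sg (P : PF E M K) (k : ℕ) : (tcl P k).sg = tcl P k := sF_even (tcl_idem P) k

/-- the classes of the tangent bundle are multiples of the powers of `Om` -/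
theorem exists_t (G : Geo e D l) (P : PF E M K) {n : ℕ} (hn : finrank ℝ E = 4 * n)
    {Om : Form (dM E M)} (hO : Om.d = 0) (hO4 : Form.IsDeg 4 Om)
    (h : CoC.Gen (dM E M) Om 4 (finrank ℝ E - 1)) (hne : ∀ Γ : Form (dM E M), Om ^ n ≠ Γ.d) :
    ∃ t : ℕ → ℝ, ∀ j, 1 ≤ j → ∃ η : Form (dM E M), tcl P (2 * j) = t j • Om ^ j + η.d := by
  have key : ∀ j : ℕ, ∃ c : ℝ, 1 ≤ j → ∃ η : Form (dM E M),
      tcl P (2 * j) = c • Om ^ j + η.d := by
    intro j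
    by_cases h1 : 1 ≤ j
    · by_cases h2 : j ≤ n
      · obtain ⟨c, Γ, hc⟩ := CoC.gen_all G.F G.hD G.hB G.hdiam G.hP (m := 4) (n := n)
          (by norm_num) hn hO hO4 h hne h1 h2 (w := tcl P (2 * j)) (tcl_d P _) (by
            have h3 := isDeg_tcl P (2 * j)
            rwa [← mul_assoc] at h3)
        exact ⟨c, fun _ => ⟨Γ, hc⟩⟩
      · refine ⟨0, fun _ => ⟨0, ?_⟩⟩
        rw [zero_smul, Form.d_zero, add_zero]
        exact WA.DimLE.isDeg_eq_zero (dimLE_M' hn) (k := 2 * (2 * j))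
          (by omega) (isDeg_tcl P (2 * j))
    · exact ⟨0, fun h2 => absurd h2 h1⟩
  choose t ht using key
  exact ⟨t, ht⟩

theorem xb_pow (G : Geo e D l) {n : ℕ} (hn : finrank ℝ E = 4 * n) {Om : Form (dM E M)}
    (hO : Om.d = 0) (hOe : Om.sg = Om) (hO4 : Form.IsDeg 4 Om) :
    xb G hO hOe ^ (n + 1) = 0 := by
  rw [xb, ← map_pow, ← map_zero (qm G.R G.map_R)]
  congr 1
  refine Subtype.ext ?_
  change (Form.pull (fun p : Pr e D => bar e D p.v) G.map_bar Om) ^ (n + 1) = 0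
  have h1 := map_pow (Form.pullA (fun p : Pr e D => bar e D p.v) G.map_bar) Om (n + 1)
  have h2 : Om ^ (n + 1) = 0 := WA.DimLE.pow_eq_zero (dimLE_M' hn)
    (j := 4) (by omega) hO4
  rw [h2, map_zero] at h1
  exact h1.symm

/-- **the structure `Rel`** of S2-T -/
theorem exists_rel (G : Geo e D l) (P : PF E M K) {n : ℕ} (hl : l = 3)
    (hn : finrank ℝ E = 4 * n) (hn2 : 2 ≤ n) {Om : Form (dM E M)} (hO : Om.d = 0)
    (hOe : Om.sg = Om) (hO4 : Form.IsDeg 4 Om) {t : ℕ → ℝ}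
    (ht : ∀ j, 1 ≤ j → ∃ η : Form (dM E M), tcl P (2 * j) = t j • Om ^ j + η.d)
    {c : ℝ} {y z : Hb G.R G.map_R}
    (hsq : y ^ 2 + z ^ 2 = (2 * c) • (xf G hO hOe + xb G hO hOe))
    (hyz : y ^ 2 * z ^ 2 = (xf G hO hOe - xb G hO hOe) ^ 2)
    (hp : ∀ j, 1 ≤ j → qm G.R G.map_R (pcl G P (2 * j)) = 2 * (y ^ (2 * j) + z ^ (2 * j))) :
    ∃ g : ℕ → HV2 G, Rel n c (Q1 G (xf G hO hOe)) (Q1 G (xb G hO hOe)) (Q2 G (xb G hO hOe))
      (Q1 G y) (Q1 G z) (Q2 G y) (Q2 G z) t g := by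
  obtain ⟨g, h0, h1, h2⟩ := exists_gg G P hO hOe hl hn hn2 ht hp
  have hx := xb_pow G hn hO hOe hO4
  exact ⟨g, map_nil (Q1 G) hx, map_nil (Q2 G) hx, map_sq (Q1 G) hsq,
    Q1_xf G hO hOe ▸ map_sq (Q2 G) hsq, map_yz (Q1 G) hyz, Q1_xf G hO hOe ▸ map_yz (Q2 G) hyz,
    h0, h1, h2⟩

end

end Vale.Agent.P231.S2T
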