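import Mathlib

/-!
# P231, stage 2, S2-T (T1, part 3): the projector onto the sum of two independent subspaces
-/

set_option linter.unusedSectionVars false

open Matrix

namespace Vale.Agent.P231.S2T

variable {n : Type*} [Fintype n] [DecidableEq n]

/-- two real orthogonal projectors with independent images -/
structure Indep (P Q : Matrix n n ℝ) : Prop where
  PP : P * P = P
  QQ : Q * Q = Q
  Pt : Pᵀ = P
  Qt : Qᵀ = Q
  ind : ∀ v : n → ℝ, P *ᵥ v = v → Q *ᵥ v = v → v = 0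

/-- the matrix `[P, Q]` -/
def mB (P Q : Matrix n n ℝ) : Matrix n (n ⊕ n) ℝ := fromCols P Q

/-- the block sum -/
def mN (P Q : Matrix n n ℝ) : Matrix (n ⊕ n) (n ⊕ n) ℝ := fromBlocks P 0 0 Q

/-- the Gram matrix, corrected -/
def mC (P Q : Matrix n n ℝ) : Matrix (n ⊕ n) (n ⊕ n) ℝ :=
  (mB P Q)ᵀ * mB P Q + (1 - mN P Q)

/-- the inverse isomorphism -/
noncomputable def mb (P Q : Matrix n n ℝ) : Matrix (n ⊕ n) n ℝ := (mC P Q)⁻¹ * (mB P Q)ᵀ

/-- the projector onto the sum -/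
noncomputable def mS (P Q : Matrix n n ℝ) : Matrix n n ℝ := mB P Q * mb P Q

namespace Indep

variable {P Q : Matrix n n ℝ} (h : Indep P Q)

include h

theorem N_N : mN P Q * mN P Q = mN P Q := by
  rw [mN, fromBlocks_multiply, h.PP, h.QQ]
  simp

theorem N_t : (mN P Q)ᵀ = mN P Q := by
  rw [mN, fromBlocks_transpose, h.Pt, h.Qt, transpose_zero]

theorem B_N : mB P Q * mN P Q = mB P Q := by
  rw [mB, mN, fromCols_mul_fromBlocks, h.PP, h.QQ, Matrix.mul_zero, Matrix.mul_zero, add_zero,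
    zero_add]

theorem isUnit_C : IsUnit (mC P Q) := by
  rw [← mulVec_injective_iff_isUnit]
  have key : ∀ x : n ⊕ n → ℝ, mC P Q *ᵥ x = 0 → x = 0 := by
    intro x hx
    have h1 : x ⬝ᵥ (mC P Q *ᵥ x) = (mB P Q *ᵥ x) ⬝ᵥ (mB P Q *ᵥ x) +
        ((1 - mN P Q) *ᵥ x) ⬝ᵥ ((1 - mN P Q) *ᵥ x) := by
      have e1 : (1 - mN P Q) = (1 - mN P Q)ᵀ * (1 - mN P Q) := by
        rw [transpose_sub, transpose_one, h.N_t, sub_mul, one_mul, mul_sub, mul_one, h.N_N,
          sub_self, sub_zero]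
      have e2 : ∀ {m : Type _} [Fintype m] (A : Matrix m (n ⊕ n) ℝ),
          x ⬝ᵥ ((Aᵀ * A) *ᵥ x) = (A *ᵥ x) ⬝ᵥ (A *ᵥ x) := by
        intro m _ A
        rw [← mulVec_mulVec, dotProduct_mulVec, vecMul_transpose]
      rw [mC, add_mulVec, dotProduct_add, e2]
      congr 1
      nth_rewrite 1 [e1]
      exact e2 _
    rw [hx, dotProduct_zero] at h1
    have h2 : 0 ≤ (mB P Q *ᵥ x) ⬝ᵥ (mB P Q *ᵥ x) := by
      rw [dotProduct]; exact Finset.sum_nonneg fun i _ => mul_self_nonneg _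
    have h3 : 0 ≤ ((1 - mN P Q) *ᵥ x) ⬝ᵥ ((1 - mN P Q) *ᵥ x) := by
      rw [dotProduct]; exact Finset.sum_nonneg fun i _ => mul_self_nonneg _
    have h4 : mB P Q *ᵥ x = 0 := dotProduct_self_eq_zero.1 (by linarith)
    have h5 : (1 - mN P Q) *ᵥ x = 0 := dotProduct_self_eq_zero.1 (by linarith)
    have h6 : mN P Q *ᵥ x = x := by
      rw [sub_mulVec, one_mulVec] at h5
      exact (sub_eq_zero.1 h5).symm
    set a : n → ℝ := x ∘ Sum.inl with ha
    set b : n → ℝ := x ∘ Sum.inr with hb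
    have hx' : x = Sum.elim a b := by
      funext i
      rcases i with i | i <;> rfl
    rw [hx', mN, fromBlocks_mulVec] at h6
    have h7 : P *ᵥ a = a := by
      have := congrArg (fun f => f ∘ Sum.inl) h6
      simpa using this
    have h8 : Q *ᵥ b = b := by
      have := congrArg (fun f => f ∘ Sum.inr) h6
      simpa using this
    rw [hx', mB, fromCols_mulVec_sumElim, h7, h8] at h4
    have h9 : a = -b := eq_neg_of_add_eq_zero_left h4
    have h10 : a = 0 := h.ind a h7 (by rw [h9, mulVec_neg, h8])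
    have h11 : b = 0 := by rw [h10] at h9; exact neg_eq_zero.1 h9.symm
    rw [hx', h10, h11]
    funext i
    rcases i with i | i <;> rfl
  intro x y hxy
  have h1 := key (x - y) (by
    rw [mulVec_sub]
    exact sub_eq_zero.2 hxy)
  exact sub_eq_zero.1 h1

theorem C_t : (mC P Q)ᵀ = mC P Q := by
  rw [mC, transpose_add, transpose_mul, transpose_transpose, transpose_sub, transpose_one, h.N_t]

theorem b_B : mb P Q * mB P Q = mN P Q := by
  have hd : IsUnit (mC P Q).det := (isUnit_iff_isUnit_det _).1 h.isUnit_C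
  have h1 : (mB P Q)ᵀ * mB P Q = mC P Q - (1 - mN P Q) := by rw [mC, add_sub_cancel_right]
  have h2 : mC P Q * (1 - mN P Q) = 1 - mN P Q := by
    rw [mC, add_mul, mul_sub, mul_one, Matrix.mul_assoc, h.B_N, sub_self, zero_add, mul_sub,
      mul_one, sub_mul, one_mul, h.N_N, sub_self, sub_zero]
  have h3 : (mC P Q)⁻¹ * (1 - mN P Q) = 1 - mN P Q := by
    nth_rewrite 1 [← h2]
    rw [← Matrix.mul_assoc, nonsing_inv_mul _ hd, one_mul]
  rw [mb, Matrix.mul_assoc, h1, mul_sub, nonsing_inv_mul _ hd, h3, sub_sub_cancel]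

theorem S_S : mS P Q * mS P Q = mS P Q := by
  rw [mS, Matrix.mul_assoc, ← Matrix.mul_assoc (mb P Q), h.b_B, ← Matrix.mul_assoc, h.B_N]

theorem S_t : (mS P Q)ᵀ = mS P Q := by
  rw [mS, mb, transpose_mul, transpose_mul, transpose_transpose, transpose_nonsing_inv, h.C_t,
    Matrix.mul_assoc]

theorem trace_S : trace (mS P Q) = trace P + trace Q := by
  rw [mS, trace_mul_comm, h.b_B, mN]
  simp [trace, Fintype.sum_sum_type]

variable {T : Matrix n n ℝ} (hT : T * T = T) (hTt : Tᵀ = T) (hP : T * P = P) (hQ : T * Q = Q)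

include hP hQ

theorem T_S : T * mS P Q = mS P Q := by
  have h1 : T * mB P Q = mB P Q := by rw [mB, mul_fromCols, hP, hQ]
  rw [mS, ← Matrix.mul_assoc, h1]

include hTt

theorem S_T : mS P Q * T = mS P Q := by
  have h1 := congrArg transpose (h.T_S hP hQ)
  rw [transpose_mul, h.S_t, hTt] at h1
  exact h1

include hT

theorem E_E : (T - mS P Q) * (T - mS P Q) = T - mS P Q := by
  rw [sub_mul, mul_sub, mul_sub, hT, h.T_S hP hQ, h.S_T hTt hP hQ, h.S_S, sub_self, sub_zero]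

omit hT in
theorem E_S : (T - mS P Q) * mS P Q = 0 := by
  rw [sub_mul, h.T_S hP hQ, h.S_S, sub_self]

omit hT in
theorem S_E : mS P Q * (T - mS P Q) = 0 := by
  rw [mul_sub, h.S_T hTt hP hQ, h.S_S, sub_self]

end Indep

end Vale.Agent.P231.S2T
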