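import Vale.Agent.P231.S2T.Tau

/-!
# P231, stages 2 and 3: the power `F ^ n` of the closed form of the Blaschke manifold is not exact
-/

set_option maxSynthPendingDepth 3
set_option linter.unusedSectionVars false
set_option linter.unusedVariables false

open Bundle Manifold Set Filter Module Topology MeasureTheory
open scoped ContDiff Manifold Topology

namespace Vale.Agent.P231.S2T

noncomputable section

open Vale.Agent.P234 Vale.Agent.P231 Vale.Agent.P231.Fm Vale.Agent.P231.W Vale.Agent.P231.H775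
  Vale.Agent.P231.WG Vale.Agent.P231.WR Vale.Agent.P231.X3 Vale.Agent.P231.ChW
  Vale.Agent.P231.WQ
open Vale.Agent.P231.Fm (Sm Dif Form Lam)

variable {E : Type*} [NormedAddCommGroup E] [NormedSpace ℝ E] [FiniteDimensional ℝ E]
  {M : Type*} [MetricSpace M] [ChartedSpace E M] [IsManifold 𝓘(ℝ, E) ∞ M]
  [RiemannianBundle (fun x : M => TangentSpace 𝓘(ℝ, E) x)]
  [IsContMDiffRiemannianBundle 𝓘(ℝ, E) ∞ E (fun x : M => TangentSpace 𝓘(ℝ, E) x)]
  [CompactSpace M] [ConnectedSpace M] [IsRiemannianManifold 𝓘(ℝ, E) M]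
  {e : ∀ x : M, TangentSpace 𝓘(ℝ, E) x → M} {D : ℝ}
  {m n : ℕ} (G : Geo e D (2 * m + 1)) {p : M}
  {Pi : TangentSpace 𝓘(ℝ, E) p → TangentSpace 𝓘(ℝ, E) p →L[ℝ] TangentSpace 𝓘(ℝ, E) p}
  {o : TangentSpace 𝓘(ℝ, E) p → Fm.Lam (TangentSpace 𝓘(ℝ, E) p)}
  {ρ : TangentSpace 𝓘(ℝ, E) p → ℝ} {r₀ : ℝ}
  (hJ : FE.LineP e D p m Pi o) (hρ : WE.Rho e D p ρ r₀) (a : ℝ)

/-- the integral of products of forms of the two ends -/
theorem II_footbar (ha : a ≠ 0) (h2 : 2 ≤ finrank ℝ E) (hJ : FE.LineP e D p m Pi o)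
    (hρ : WE.Rho e D p ρ r₀) {R : ℝ}
    (X : WG.Fr e p R) (v0 : UT E M) {N : ℕ} (hN : finrank ℝ E = N + 1)
    (b : Basis (Fin (N + 1)) ℝ (Eu E)) {r : Eu E → ℝ} {K : Set (Eu E)} (hr : Q.Cut r K)
    (hDR : D < R) (α β : Form (dM E M)) :
    II X v0 b hr hDR (Form.pull foot map_foot α *
      Form.pull (bar e D) (map_bar G.F D) β) = 0 := by
  have hNZ : NeZero (2 * m + 1) := ⟨by omega⟩
  have hb := S2II.orn_b0P G.F G.hD G.hB G.hdiam h2 (Geo.hl G) hJ hρ ha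
  set v : Form (dUT E M) := Form.pull foot map_foot α * Form.pull (bar e D) (map_bar G.F D) β
    with hv
  have hodd : Odd (2 * m + 1) := ⟨m, rfl⟩
  have hs : S2II.SL G.F G.hD G.hB G.hdiam G.hP hb hodd
      (L3.b0P G.F G.hD G.hB G.hdiam (FG G hJ hρ a)) = (2 * S2II.kappa m a) • 1 :=
    S2II.SL_b0P G.F G.hD G.hB G.hdiam h2 (Geo.hl G) hJ hρ ha
  have h1 : S2II.SL G.F G.hD G.hB G.hdiam G.hP hb hodd
      (L3.b0P G.F G.hD G.hB G.hdiam (FG G hJ hρ a) * Form.pull Pr.v map_v v) =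
      (2 * S2II.kappa m a) • v := by
    refine (S2II.SL_mul G.F G.hD G.hB G.hdiam G.hP hb hodd _ v).trans ?_
    rw [hs, smul_mul_assoc, one_mul]
  have hbas : Basic G.R G.map_R (L3.b0P G.F G.hD G.hB G.hdiam (FG G hJ hρ a) *
      Form.pull Pr.v map_v v) := by
    refine H584.Basic.mul (H584.J_basic G.isFlow_R _) ?_
    have h3 : Form.pull Pr.v map_v v = Form.pull (fun q : Pr e D => foot q.v) G.map_foot α *
        Form.pull (fun q : Pr e D => bar e D q.v) G.map_bar β := by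
      rw [hv]
      refine (map_mul (Form.pullA Pr.v map_v) _ _).trans ?_
      exact congrArg₂ (· * ·)
        (H584.pull_pull (k := fun q : Pr e D => foot q.v) map_v map_foot G.map_foot
          (fun _ => rfl) α)
        (H584.pull_pull (k := fun q : Pr e D => bar e D q.v) map_v (map_bar G.F D) G.map_bar
          (fun _ => rfl) β)
    rw [h3]
    exact H584.Basic.mul (H584.basic_pull G.map_foot G.foot_R α)
      (H584.basic_pull G.map_bar G.bar_R β)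
  have h4 := S2II.I_SL_R G.F G.hD G.hB G.hdiam G.hP hb hodd hN (II X v0 b hr hDR)
    (fun w => II_part X v0 b hr hDR rfl w) _ hbas
  rw [h1, map_smul, smul_eq_mul] at h4
  exact (mul_eq_zero.1 h4).resolve_left
    (mul_ne_zero two_ne_zero (S2II.kappa_pos (n := m) ha).ne')

/-- **the power `F ^ n` is not exact** -/
theorem FG_pow_ne (ha : a ≠ 0) (hm : 1 ≤ m) (hn : 1 ≤ n) (hE : finrank ℝ E = (2 * m + 2) * n)
    (Γ : Form (dM E M)) : FG G hJ hρ a ^ n ≠ Γ.d := by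
  intro hΓ
  have hE2 : 2 ≤ finrank ℝ E := by
    rw [hE]
    nlinarith
  have hnt : Nontrivial E := nontrivial_of_finrank_pos (R := ℝ) (by omega)
  have hNZ : NeZero (2 * m + 1) := ⟨by omega⟩
  obtain ⟨N, hN⟩ : ∃ N, finrank ℝ E = N + 1 := ⟨finrank ℝ E - 1, by omega⟩
  obtain ⟨v0, -⟩ := S2II.exists_foot (E := E) p
  obtain ⟨X⟩ := nonempty_fr G.F G.hD G.hB p (D + 1)
  obtain ⟨r, K, hr, hrad⟩ := exists_radCut (V := Eu E)
  have hDR : D < D + 1 := lt_add_one D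
  let b : OrthonormalBasis (Fin (N + 1)) ℝ (Eu E) :=
    (stdOrthonormalBasis ℝ (Eu E)).reindex (finCongr (by
      rw [finrank_euclideanSpace, Fintype.card_fin, hN]))
  have hP : ∀ x y : M, dist x y = D → 2 ≤ finrank ℝ (H775.Pl e D x y) := fun x y h => by
    rw [G.hP x y h]
    omega
  have hd := FE.FF_d G.F G.hD G.hB G.hdiam (Geo.hl G) hJ hρ a
  have hOd : Form.IsDeg (2 * m + 2) (FG G hJ hρ a) :=
    S2II.isDeg_FF G.F G.hD G.hB G.hdiam (Geo.hl G) hJ hρ a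
  have hev : Even (2 * m + 2) := ⟨m + 1, by ring⟩
  have hOn : FG G hJ hρ a ^ (n + 1) = 0 := by
    have h1 : WA.DimLE (dM E M) (finrank ℝ E) := L.dimLE_bridge (WF.dimLE_M E M rfl)
    refine h1.pow_eq_zero (j := 2 * m + 2) ?_ hOd
    rw [hE]
    nlinarith
  have hp := pth G.F hd hev hOd hOn (D := D)
  set B := bz G.F D (FG G hJ hρ a) with hB
  set f0 := fo (FG G hJ hρ a) with hf0
  set f1 := fb G.F D (FG G hJ hρ a) with hf1
  set γ : Form (dUT E M) := Form.pull foot map_foot Γ with hγ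
  have h1 : II X v0 b.toBasis hr hDR (B * (f0 ^ n * f1 ^ (n - 1))) =
      Q.qv volume b.toBasis r (FE.PsiE m a p Pi o) (n - 1) *
        Q.qv volume b.toBasis r (FE.PsiE m a p Pi o) (n - 1) :=
    Q2.II_eq X v0 G.F G.hD G.hB G.hdiam (exists_pr G.F G.hD G.hB G.hdiam hP) hd
      (FE.FF_deg G.F G.hD G.hB G.hdiam (Geo.hl G) hJ hρ a) hev (by omega) hn hE
      b.toBasis hr hrad hDR (FE.ang_PsiE hJ.os a) (WQ.cut_rho hρ) (WQ.closedBall_sub hρ)
      (fun x hx => FE.FF_ef G.F G.hD G.hB G.hdiam (Geo.hl G) hJ hρ a hx)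
      (fun y hy => FE.B0_cc G.F G.hD G.hB G.hdiam (Geo.hl G) hJ hρ a (G.hD.trans hDR) X v0 hy)
  have hq := (FE.q_le hJ.os ha hm (by omega) hE b hr).2
  have h2 : f0 ^ n = γ.d := by
    have h3 := map_pow (Form.pullA (foot (E := E) (M := M)) map_foot) (FG G hJ hρ a) n
    have h4 : Form.pull foot map_foot (FG G hJ hρ a ^ n) = f0 ^ n := h3
    rw [← h4, hΓ, Form.pull_d]
  have h5 : (B * (γ * f1 ^ (n - 1))).d = (f1 - f0) * (γ * f1 ^ (n - 1)) -
      B * (f0 ^ n * f1 ^ (n - 1)) := by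
    rw [Form.d_mul, hp.db, hp.o, Form.d_mul, H584.pow_closed hp.d₁ (n - 1), mul_zero, add_zero, ← h2,
      neg_mul, ← sub_eq_add_neg]
  have h6 := II_d G.F G.hD G.hB G.hdiam hP X v0 b.toBasis hr hDR (B * (γ * f1 ^ (n - 1)))
  have e0 : f0 * (γ * f1 ^ (n - 1)) = Form.pull foot map_foot (FG G hJ hρ a * Γ) *
      Form.pull (bar e D) (map_bar G.F D) (FG G hJ hρ a ^ (n - 1)) := by
    have h3 := map_mul (Form.pullA (foot (E := E) (M := M)) map_foot) (FG G hJ hρ a) Γ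
    have h4 := map_pow (Form.pullA (bar e D) (map_bar G.F D)) (FG G hJ hρ a) (n - 1)
    rw [← mul_assoc]
    exact (congrArg₂ (· * ·) h3 h4).symm
  have e1 : f1 * (γ * f1 ^ (n - 1)) = Form.pull foot map_foot Γ *
      Form.pull (bar e D) (map_bar G.F D) (FG G hJ hρ a ^ (n - 1 + 1)) := by
    have h4 := map_pow (Form.pullA (bar e D) (map_bar G.F D)) (FG G hJ hρ a) (n - 1 + 1)
    have h7 : Form.pull (bar e D) (map_bar G.F D) (FG G hJ hρ a ^ (n - 1 + 1)) =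
        f1 ^ (n - 1 + 1) := h4
    rw [h7, pow_succ', ← mul_assoc, ← mul_assoc, (H584.even_comm hp.e₁ γ).eq]
  have k0 := II_footbar G a ha hE2 hJ hρ X v0 hN b.toBasis hr hDR (FG G hJ hρ a * Γ)
    (FG G hJ hρ a ^ (n - 1))
  have k1 := II_footbar G a ha hE2 hJ hρ X v0 hN b.toBasis hr hDR Γ
    (FG G hJ hρ a ^ (n - 1 + 1))
  rw [← e0] at k0
  rw [← e1] at k1
  rw [h5, map_sub, sub_mul, map_sub, k0, k1, sub_zero, zero_sub, neg_eq_zero, h1] at h6
  exact mul_ne_zero hq hq h6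

end

end Vale.Agent.P231.S2T
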