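import Vale.Agent.P231.S2T.Cls
import Vale.Agent.P231.S2T.Mat
import Vale.Agent.P231.ChW.FnM

/-!
# P231, stage 2, S2-T (T1, part 4): the rank relation
-/

set_option linter.unusedSectionVars false
set_option linter.unusedVariables false

open Matrix Set Filter Topology
open scoped ContDiff

namespace Vale.Agent.P231.S2T

open Fm W ChW H584 X3

variable {X Y : Type*} {D : Dif X} {D' : Dif Y} {ι : Type*}
variable {n m l : Type*} [Fintype n] [DecidableEq n] [Fintype m] [DecidableEq m] [Fintype l]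
  [DecidableEq l]

/-! ### real matrix functions as complex matrices of forms -/

/-- a matrix of real functions as a matrix of complex forms -/
noncomputable def cR (A : X → Matrix m n ℝ) (hA : SmM D A) : Matrix m n (CF D) :=
  cM (fun x => (A x).map (fun r : ℝ => (r : ℂ))) hA.ofReal

theorem cR_eq (A : X → Matrix m n ℝ) (hA : SmM D A) : cR A hA = (rM A hA).map Cx.of :=
  (rM_map_of hA).symm

theorem cR_congr {A B : X → Matrix m n ℝ} (hA : SmM D A) (hB : SmM D B) (h : ∀ x, A x = B x) :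
    cR A hA = cR B hB := cM_congr _ _ fun x => by rw [h]

theorem map_ofReal_mul (A : Matrix l m ℝ) (B : Matrix m n ℝ) :
    (A * B).map (fun r : ℝ => (r : ℂ)) =
      A.map (fun r : ℝ => (r : ℂ)) * B.map (fun r : ℝ => (r : ℂ)) :=
  Matrix.map_mul (f := Complex.ofRealHom)

theorem cR_mul {A : X → Matrix l m ℝ} {B : X → Matrix m n ℝ} {C : X → Matrix l n ℝ}
    (hA : SmM D A) (hB : SmM D B) (hC : SmM D C) (h : ∀ x, A x * B x = C x) :
    cR A hA * cR B hB = cR C hC := by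
  rw [cR, cR, cR, cM_mul]
  exact cM_congr _ _ fun x => by rw [← map_ofReal_mul, h]

theorem cR_add {A B C : X → Matrix m n ℝ} (hA : SmM D A) (hB : SmM D B) (hC : SmM D C)
    (h : ∀ x, A x + B x = C x) : cR A hA + cR B hB = cR C hC := by
  rw [cR, cR, cR, cM_add]
  refine cM_congr _ _ fun x => ?_
  rw [← h]
  ext i j
  simp

theorem cR_zero {A : X → Matrix m n ℝ} (hA : SmM D A) (h : ∀ x, A x = 0) : cR A hA = 0 :=
  cM_eq_zero _ fun x => by rw [h]; ext i j; simp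

theorem ev_cR {A : X → Matrix m n ℝ} (hA : SmM D A) : Ev (cR A hA) := ev_cM _

theorem cj_cR {A : X → Matrix m n ℝ} (hA : SmM D A) : cj (cR A hA) = cR A hA := by
  rw [cR, cj_cM]
  refine cM_congr _ _ fun x => ?_
  ext i j
  simp

theorem cR_transpose {A : X → Matrix m n ℝ} (hA : SmM D A) :
    (cR A hA)ᵀ = cR (fun x => (A x)ᵀ) hA.transpose := rfl

theorem cR_fromBlocks {A : X → Matrix n n ℝ} {B : X → Matrix m m ℝ} (hA : SmM D A)
    (hB : SmM D B) {C : X → Matrix (n ⊕ m) (n ⊕ m) ℝ} (hC : SmM D C)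
    (h : ∀ x, C x = fromBlocks (A x) 0 0 (B x)) :
    cR C hC = fromBlocks (cR A hA) 0 0 (cR B hB) := by
  obtain rfl : C = fun x => fromBlocks (A x) 0 0 (B x) := funext h
  ext1 i j
  rcases i with i | i <;> rcases j with j | j
  · rfl
  · refine (cf_congr (hC.ofReal (Sum.inl i) (Sum.inr j)) (SmF.const D 0) fun x => ?_).trans
      cf_zero
    simp
  · refine (cf_congr (hC.ofReal (Sum.inr i) (Sum.inl j)) (SmF.const D 0) fun x => ?_).trans
      cf_zero
    simp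
  · rfl

theorem basicM_cR {Ψ : Fam D ι} {A : X → Matrix m n ℝ} (hA : SmM D A)
    (h : ∀ i x t, A (Ψ.Φ i (x, t)) = A x) (i : ι) :
    BasicM (Ψ.Φ i) (Ψ.map i) (cR A hA) :=
  basicM_cM _ fun x t => by rw [h i x t]

theorem ib_cR {Ψ : Fam D ι} {A : X → Matrix n n ℝ} (hA : SmM D A) (hAA : ∀ x, A x * A x = A x)
    (h : ∀ i x t, A (Ψ.Φ i (x, t)) = A x) : IB Ψ (cR A hA) :=
  ⟨⟨ev_cR hA, cR_mul hA hA hA hAA⟩, basicM_cR hA h⟩

theorem map_pullC_cR {A : Y → Matrix m n ℝ} (hA : SmM D' A) {g : X → Y} (hg : D.Map D' g) :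
    (cR A hA).map (pullC g hg) = cR (fun x => A (g x)) (hA.comp hg) :=
  map_pullC_cM _ hg

/-- the real classes of odd degree vanish -/
theorem cl_odd_cR {Ψ : Fam D ι} {A : X → Matrix n n ℝ} {hA : SmM D A} (h : IB Ψ (cR A hA))
    {k : ℕ} (hk : Odd k) : h.cl k = 0 := by
  refine Subtype.ext ?_
  change sF k (cR A hA) = 0
  rw [cR_eq]
  exact sF_real_odd _ hk

/-! ### smoothness of the constructions -/

theorem SmM.fromCols' {A : X → Matrix m n ℝ} {B : X → Matrix m l ℝ} (hA : SmM D A)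
    (hB : SmM D B) : SmM D (fun x => fromCols (A x) (B x)) := by
  intro i j
  rcases j with j | j
  · exact hA i j
  · exact hB i j

theorem SmM.mN' {A B : X → Matrix n n ℝ} (hA : SmM D A) (hB : SmM D B) :
    SmM D (fun x => mN (A x) (B x)) := by
  intro i j
  rcases i with i | i <;> rcases j with j | j
  · exact hA i j
  · exact SmF.const D 0
  · exact SmF.const D 0
  · exact hB i j

theorem SmM.mC' {A B : X → Matrix n n ℝ} (hA : SmM D A) (hB : SmM D B) :
    SmM D (fun x => mC (A x) (B x)) :=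
  (((SmM.fromCols' hA hB).transpose).mul (SmM.fromCols' hA hB)).add
    ((SmM.const D 1).sub (SmM.mN' hA hB))

theorem SmM.mb' {A B : X → Matrix n n ℝ} (hA : SmM D A) (hB : SmM D B)
    (h : ∀ x, Indep (A x) (B x)) : SmM D (fun x => mb (A x) (B x)) :=
  (SmM.inv (SmM.mC' hA hB) fun x => (h x).isUnit_C).mul (SmM.fromCols' hA hB).transpose

theorem SmM.mS' {A B : X → Matrix n n ℝ} (hA : SmM D A) (hB : SmM D B)
    (h : ∀ x, Indep (A x) (B x)) : SmM D (fun x => mS (A x) (B x)) :=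
  (SmM.fromCols' hA hB).mul (SmM.mb' hA hB h)

/-! ### the relation -/

section Main

variable {Ψ : Fam D ι} {T P Q : X → Matrix n n ℝ} (hT : SmM D T) (hP : SmM D P) (hQ : SmM D Q)
  (h : ∀ x, Indep (P x) (Q x)) (hTT : ∀ x, T x * T x = T x) (hTt : ∀ x, (T x)ᵀ = T x)
  (hTP : ∀ x, T x * P x = P x) (hTQ : ∀ x, T x * Q x = Q x)
  (iT : ∀ i x t, T (Ψ.Φ i (x, t)) = T x) (iP : ∀ i x t, P (Ψ.Φ i (x, t)) = P x)
  (iQ : ∀ i x t, Q (Ψ.Φ i (x, t)) = Q x)

include h hTT hTt hTP hTQ iT iP iQ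

theorem cl_split (bT : IB Ψ (cR T hT)) (bP : IB Ψ (cR P hP)) (bQ : IB Ψ (cR Q hQ)) :
    ∃ bE : IB Ψ (cR (fun x => T x - mS (P x) (Q x)) (hT.sub (SmM.mS' hP hQ h))),
      ∀ k, Ψ.qm (bT.cl k) = Ψ.qm (bE.cl k) + (Ψ.qm (bP.cl k) + Ψ.qm (bQ.cl k)) := by
  have hE : SmM D (fun x => T x - mS (P x) (Q x)) := hT.sub (SmM.mS' hP hQ h)
  have hS : SmM D (fun x => mS (P x) (Q x)) := SmM.mS' hP hQ h
  have hN : SmM D (fun x => mN (P x) (Q x)) := SmM.mN' hP hQ
  have hB : SmM D (fun x => mB (P x) (Q x)) := SmM.fromCols' hP hQ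
  have hb : SmM D (fun x => mb (P x) (Q x)) := SmM.mb' hP hQ h
  have bE : IB Ψ (cR _ hE) := ib_cR hE (fun x => (h x).E_E (hTT x) (hTt x) (hTP x) (hTQ x))
    fun i x t => by rw [iT, iP, iQ]
  have bS : IB Ψ (cR _ hS) := ib_cR hS (fun x => (h x).S_S) fun i x t => by rw [iP, iQ]
  have bN : IB Ψ (cR _ hN) := ib_cR hN (fun x => (h x).N_N) fun i x t => by rw [iP, iQ]
  refine ⟨bE, fun k => ?_⟩
  have h1 : cR _ hE * cR _ hS = 0 := by
    rw [cR_mul hE hS (SmM.const D 0) fun x => (h x).E_S (hTt x) (hTP x) (hTQ x)]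
    exact cR_zero _ fun _ => rfl
  have h2 : cR _ hS * cR _ hE = 0 := by
    rw [cR_mul hS hE (SmM.const D 0) fun x => (h x).S_E (hTt x) (hTP x) (hTQ x)]
    exact cR_zero _ fun _ => rfl
  have h3 : Ψ.qm (bT.cl k) = Ψ.qm ((bE.add bS h1 h2).cl k) := by
    congr 1
    exact IB.cl_congr _ _ (cR_add hE hS hT fun x => sub_add_cancel _ _).symm k
  have h4 : Ψ.qm (bS.cl k) = Ψ.qm (bN.cl k) := by
    refine bN.cl_iso bS (IsoData.of bN.idem bS.idem (ev_cR hB) (ev_cR hb)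
      (cR_mul hB hb hS fun x => rfl) (cR_mul hb hB hN fun x => (h x).b_B)) (fun i => ?_)
      (fun i => ?_) k
    · exact (bS.bas i).mul' (basicM_cR hB (fun i x t => by rw [iP, iQ]) i)
    · exact (bN.bas i).mul' (basicM_cR hb (fun i x t => by rw [iP, iQ]) i)
  have h5 : bN.cl k = bP.cl k + bQ.cl k := by
    rw [← IB.cl_fromBlocks]
    exact IB.cl_congr _ _ (cR_fromBlocks hP hQ hN fun x => rfl) k
  rw [h3, IB.cl_add bE bS h1 h2, h4, h5, map_add]

/-- **the rank relation**: the classes `C` of the virtual bundle `T - P - Q` vanish above its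
rank -/
theorem rank_rel (bT : IB Ψ (cR T hT)) (bP : IB Ψ (cR P hP)) (bQ : IB Ψ (cR Q hQ)) {r : ℕ}
    (hr : ∀ x, ∃ s : ℕ, s ≤ r ∧ trace (T x) = trace (P x) + trace (Q x) + s) {C : ℕ → Ψ.H}
    (hC : NewtonRec ℝ (fun k => Ψ.qm (bT.cl k - bP.cl k - bQ.cl k)) C) {j : ℕ} (hj : r < j) :
    C j = 0 := by
  obtain ⟨bE, hE⟩ := cl_split hT hP hQ h hTT hTt hTP hTQ iT iP iQ bT bP bQ
  have h1 : (fun k => Ψ.qm (bT.cl k - bP.cl k - bQ.cl k)) = fun k => Ψ.qm (bE.cl k) := by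
    funext k
    rw [map_sub, map_sub, hE]
    abel
  rw [h1] at hC
  refine bE.newton ?_ (r := r)
    (p := fun x => (T x - mS (P x) (Q x)).map (fun r : ℝ => (r : ℂ))) ?_ hC hj
  · rw [cj_cR, cR_transpose]
    refine cR_congr _ _ fun x => ?_
    rw [transpose_sub, hTt, (h x).S_t]
  · have hEE : ∀ x, (T x - mS (P x) (Q x)).map (fun r : ℝ => (r : ℂ)) *
        (T x - mS (P x) (Q x)).map (fun r : ℝ => (r : ℂ)) =
        (T x - mS (P x) (Q x)).map (fun r : ℝ => (r : ℂ)) := fun x => by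
      rw [← map_ofReal_mul, (h x).E_E (hTT x) (hTt x) (hTP x) (hTQ x)]
    refine rankLE_cM _ hEE fun x => ?_
    obtain ⟨s, hs, hs'⟩ := hr x
    refine le_trans (rank_eq_of_trace (hEE x) (r := s) ?_).le hs
    have h2 : trace (T x - mS (P x) (Q x)) = s := by
      rw [trace_sub, (h x).trace_S, hs']
      ring
    have h3 : trace ((T x - mS (P x) (Q x)).map (fun r : ℝ => (r : ℂ))) =
        ((trace (T x - mS (P x) (Q x)) : ℝ) : ℂ) := by
      rw [trace, trace, Complex.ofReal_sum]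
      rfl
    rw [h3, h2]
    push_cast
    rfl

end Main

end Vale.Agent.P231.S2T
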