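import Vale.Agent.P231.S2T.Sp
import Vale.Agent.P231.WG.Chart

/-!
# P231, stage 2, block S2-T (T3, part 1): charts of `UT ×_M UT` and the kernel lemma
-/

set_option maxSynthPendingDepth 3
set_option linter.unusedSectionVars false
set_option linter.unusedVariables false

open Bundle Manifold Set Filter Module Topology MeasureTheory
open scoped ContDiff Manifold Topology

namespace Vale.Agent.P231.S2T

noncomputable section

open Vale.Agent.P234 Vale.Agent.P231 Vale.Agent.P231.Fm Vale.Agent.P231.W Vale.Agent.P231.H775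
  Vale.Agent.P231.WG

variable {E : Type*} [NormedAddCommGroup E] [NormedSpace ℝ E]
  {M : Type*} [MetricSpace M] [ChartedSpace E M]
  [RiemannianBundle (fun x : M => TangentSpace 𝓘(ℝ, E) x)]
  {e : ∀ x : M, TangentSpace 𝓘(ℝ, E) x → M}
  [FiniteDimensional ℝ E] [IsManifold 𝓘(ℝ, E) ∞ M]
  [IsContMDiffRiemannianBundle 𝓘(ℝ, E) ∞ E (fun x : M => TangentSpace 𝓘(ℝ, E) x)]

variable (E M) in
/-- the diffeology of `UT ×_M UT` -/
abbrev dU2 : Dif (UT E M × UT E M) := V2 (dUT E M) foot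

open Classical in
/-- local charts of `UT ×_M UT` -/
theorem exists_ret2 {v0 : UT E M × UT E M} (hv0 : foot v0.1 = foot v0.2) :
    Nonempty (Ret (dU2 E M) v0) := by
  obtain ⟨C⟩ := exists_ret v0.1
  set x₀ : M := foot v0.2 with hx₀
  have hsrc0 : x₀ ∈ (extChartAt 𝓘(ℝ, E) x₀).source := mem_extChartAt_source x₀
  let P : Type _ := EuclideanSpace ℝ (Fin C.m) × E
  let φ : P ≃L[ℝ] EuclideanSpace ℝ (Fin (finrank ℝ P)) :=
    ContinuousLinearEquiv.ofFinrankEq (by rw [finrank_euclideanSpace, Fintype.card_fin])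
  let G0 : UT E M × UT E M → P := fun v => (C.G v.1, crd x₀ v.2.1.1 v.2.1.2)
  let W : P → TangentBundle 𝓘(ℝ, E) M := fun q =>
    ⟨foot (C.κ q.1), ‖vec x₀ (foot (C.κ q.1)) q.2‖⁻¹ • vec x₀ (foot (C.κ q.1)) q.2⟩
  let c : EuclideanSpace ℝ (Fin (finrank ℝ P)) → UT E M × UT E M := fun z =>
    if h : nm (E := E) (W (φ.symm z)).proj (W (φ.symm z)).snd = 1 then
      (C.κ (φ.symm z).1, ⟨W (φ.symm z), h⟩) else v0
  have hn1 : ∀ v : UT E M, ‖(v.1.2 : TangentSpace 𝓘(ℝ, E) v.1.1)‖ = 1 := fun v => v.2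
  have hsm : ∀ {V : Type} [NormedAddCommGroup V] [NormedSpace ℝ V] [FiniteDimensional ℝ V]
    {u : V → UT E M × UT E M} {x : V}, (dU2 E M).At u x → u x = v0 →
      (∀ᶠ s in 𝓝 x, foot (u s).2 ∈ (extChartAt 𝓘(ℝ, E) x₀).source) ∧ Sm (G0 ∘ u) x := by
    intro V _ _ _ u x hu h0
    have hu' : ∀ᶠ s in 𝓝 x, SmV (fun s => (u s).2.1.1) (fun s => (u s).2.1.2) s := hu.1.2
    have hux : SmV (fun s => (u s).2.1.1) (fun s => (u s).2.1.2) x := hu'.self_of_nhds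
    have hsrcx : (u x).2.1.1 ∈ (extChartAt 𝓘(ℝ, E) x₀).source := by
      rw [h0]
      exact hsrc0
    have hsrc : ∀ᶠ s in 𝓝 x, (u s).2.1.1 ∈ (extChartAt 𝓘(ℝ, E) x₀).source :=
      hux.base.continuousAt.eventually ((isOpen_extChartAt_source (I := 𝓘(ℝ, E)) x₀).mem_nhds hsrcx)
    refine ⟨hsrc, ?_⟩
    have h1 : Sm (fun s => C.G (u s).1) x :=
      C.smG (u := fun s => (u s).1) hu.1.1 (by rw [h0])
    have h2 : Sm (fun s => crd x₀ (u s).2.1.1 (u s).2.1.2) x := by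
      filter_upwards [hu', hsrc] with s h1 h2
      exact ((smV_iff (f := fun s => (u s).2.1.1) (u := fun s => (u s).2.1.2) x₀ h2).1 h1).2
    exact h1.prodMk h2
  have hκ0 : C.κ (C.G v0.1) = v0.1 := by
    have h1 : (dTM E M).At (fun _ : ℝ => v0.1.1) 0 :=
      Eventually.of_forall fun _ => contMDiffAt_const
    exact ((C.eq (V := ℝ) (u := fun _ => v0.1) (x := 0) h1 rfl).self_of_nhds).symm
  have hWG : ∀ v : UT E M × UT E M, foot v.2 ∈ (extChartAt 𝓘(ℝ, E) x₀).source →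
      foot (C.κ (C.G v.1)) = foot v.2 → W (G0 v) = v.2.1 := by
    intro v hv hvf
    have h2 : vec x₀ v.2.1.1 (crd x₀ v.2.1.1 v.2.1.2) = v.2.1.2 := vec_crd x₀ hv v.2.1.2
    have h3 : ∀ y : M, y = v.2.1.1 →
        (⟨y, ‖vec x₀ y (G0 v).2‖⁻¹ • vec x₀ y (G0 v).2⟩ : TangentBundle 𝓘(ℝ, E) M) = v.2.1 := by
      rintro y rfl
      change (⟨v.2.1.1, ‖vec x₀ v.2.1.1 (crd x₀ v.2.1.1 v.2.1.2)‖⁻¹ •
        vec x₀ v.2.1.1 (crd x₀ v.2.1.1 v.2.1.2)⟩ : TangentBundle 𝓘(ℝ, E) M) = v.2.1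
      rw [h2, hn1, inv_one, one_smul]
    exact h3 _ hvf
  have hf0 : foot (C.κ (C.G v0.1)) = foot v0.2 := by rw [hκ0, hv0]
  refine ⟨⟨finrank ℝ P, c, fun v => φ (G0 v), ?_, ?_, ?_⟩⟩
  · -- the parametrisation is a plot
    have hκat : ∀ᶠ q in 𝓝 (G0 v0), (dUT E M).At C.κ q.1 := by
      have h1 : Tendsto (Prod.fst : P → EuclideanSpace ℝ (Fin C.m)) (𝓝 (G0 v0))
          (𝓝 (C.G v0.1)) := continuous_fst.continuousAt
      exact h1.eventually ((dUT E M).open' C.at_κ)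
    have hfoot : ∀ {q : EuclideanSpace ℝ (Fin C.m)}, (dUT E M).At C.κ q →
        ContMDiffAt 𝓘(ℝ, EuclideanSpace ℝ (Fin C.m)) 𝓘(ℝ, E) ∞ (foot ∘ C.κ) q := by
      intro q hq
      have h1 : ∀ᶠ s in 𝓝 q, SmV (fun s => (C.κ s).1.1) (fun s => (C.κ s).1.2) s := hq
      exact h1.self_of_nhds.base
    have hfk : ContMDiffAt 𝓘(ℝ, EuclideanSpace ℝ (Fin C.m)) 𝓘(ℝ, E) ∞ (foot ∘ C.κ)
        (C.G v0.1) := hfoot C.at_κ
    have hsrc1 : ∀ᶠ q in 𝓝 (G0 v0), foot (C.κ q.1) ∈ (extChartAt 𝓘(ℝ, E) x₀).source := by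
      have h1 : Tendsto (fun q : P => foot (C.κ q.1)) (𝓝 (G0 v0)) (𝓝 (foot (C.κ (C.G v0.1)))) :=
        hfk.continuousAt.tendsto.comp (continuous_fst.continuousAt (x := G0 v0))
      rw [hf0] at h1
      exact h1.eventually ((isOpen_extChartAt_source (I := 𝓘(ℝ, E)) x₀).mem_nhds hsrc0)
    have hG2 : (G0 v0).2 ≠ 0 := by
      intro h
      have h1 := congrArg (fun q : TangentBundle 𝓘(ℝ, E) M => ‖(q.2 : TangentSpace 𝓘(ℝ, E) q.1)‖)
        (hWG v0 hsrc0 hf0)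
      simp only [W] at h1
      rw [h, map_zero, smul_zero, norm_zero, hn1] at h1
      exact zero_ne_one h1
    have hsmv : ∀ᶠ q in 𝓝 (G0 v0), SmV (fun q : P => foot (C.κ q.1))
        (fun q => vec x₀ (foot (C.κ q.1)) q.2) q := by
      filter_upwards [hκat, hsrc1] with q hq hq2
      refine smV_vec (V := P) (f := fun q : P => foot (C.κ q.1)) x₀ hq2 ?_ ?_
      · have h4 : ContMDiffAt 𝓘(ℝ, EuclideanSpace ℝ (Fin C.m)) 𝓘(ℝ, E) ∞ (foot ∘ C.κ) q.1 :=
          hfoot hq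
        exact h4.comp q contDiffAt_fst.contMDiffAt
      · exact contDiffAt_snd
    have hne2 : ∀ᶠ q in 𝓝 (G0 v0), q.2 ≠ 0 := continuous_snd.continuousAt.eventually_ne hG2
    have hne : ∀ᶠ q in 𝓝 (G0 v0), vec x₀ (foot (C.κ q.1)) q.2 ≠ 0 := by
      filter_upwards [hsrc1, hne2] with q hq hq2 h0
      have h2 := crd_vec x₀ hq q.2
      rw [h0, map_zero] at h2
      exact hq2 h2.symm
    have hW : ∀ᶠ q in 𝓝 (G0 v0), (dUT E M).At C.κ q.1 ∧
        ContMDiffAt 𝓘(ℝ, P) 𝓘(ℝ, E).tangent ∞ W q ∧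
          nm (E := E) (W q).proj (W q).snd = 1 := by
      filter_upwards [hκat, hsmv, hne] with q h0 h1 h2
      refine ⟨h0, WF.smV_normalize h1 h2, ?_⟩
      change ‖‖_‖⁻¹ • _‖ = 1
      rw [norm_smul, norm_inv, norm_norm, inv_mul_cancel₀ (norm_ne_zero_iff.2 h2)]
    have hWz : ∀ᶠ z in 𝓝 (φ (G0 v0)), (dUT E M).At C.κ (φ.symm z).1 ∧
        ContMDiffAt 𝓘(ℝ, P) 𝓘(ℝ, E).tangent ∞ W (φ.symm z) ∧
          nm (E := E) (W (φ.symm z)).proj (W (φ.symm z)).snd = 1 := by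
      have h1 : Tendsto (fun z => φ.symm z) (𝓝 (φ (G0 v0))) (𝓝 (G0 v0)) := by
        have h2 := φ.symm.continuous.continuousAt (x := φ (G0 v0))
        rw [ContinuousAt, φ.symm_apply_apply] at h2
        exact h2
      exact h1.eventually hW
    have hcz : ∀ᶠ z in 𝓝 (φ (G0 v0)), c z = (C.κ (φ.symm z).1, (c z).2) ∧
        foot (c z).2 = foot (C.κ (φ.symm z).1) := by
      filter_upwards [hWz] with z h1
      have h3 : c z = _ := dif_pos h1.2.2
      rw [h3]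
      exact ⟨rfl, rfl⟩
    refine ⟨⟨?_, ?_⟩, ?_⟩
    · have h1 : (dUT E M).At (fun z => C.κ (φ.symm z).1) (φ (G0 v0)) := by
        have h2 : Sm (fun z => (φ.symm z).1) (φ (G0 v0)) :=
          Sm.of_contDiff (contDiff_fst.comp φ.symm.contDiff) _
        exact (dUT E M).comp (u := C.κ) (hWz.self_of_nhds.1) h2
      refine (dUT E M).congr h1 ?_
      filter_upwards [hcz] with z hz
      change C.κ (φ.symm z).1 = (c z).1
      rw [hz.1]
    · have h1 : ∀ᶠ z in 𝓝 (φ (G0 v0)),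
          ContMDiffAt 𝓘(ℝ, EuclideanSpace ℝ (Fin (finrank ℝ P)))
            𝓘(ℝ, E).tangent ∞ (fun z => (c z).2.1) z := by
        filter_upwards [hWz, hWz.eventually_nhds] with z h1 h2
        have h3 : ContMDiffAt 𝓘(ℝ, EuclideanSpace ℝ (Fin (finrank ℝ P)))
            𝓘(ℝ, E).tangent ∞ (fun z => W (φ.symm z)) z :=
          h1.2.1.comp z (φ.symm.contDiff.contDiffAt.contMDiffAt)
        refine h3.congr_of_eventuallyEq ?_
        filter_upwards [h2] with z' h4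
        have h5 : c z' = _ := dif_pos h4.2.2
        rw [h5]
      exact h1
    · filter_upwards [hcz] with z hz
      rw [hz.2, hz.1]
  · intro V _ _ _ u x hu h0
    exact Sm.comp (f := φ) (Sm.of_contDiff φ.contDiff _) (hsm hu h0).2
  · intro V _ _ _ u x hu h0
    have h1 := C.eq (u := fun s => (u s).1) hu.1.1 (by rw [h0])
    filter_upwards [(hsm hu h0).1, h1, hu.2] with s hs h1s h2s
    have h3s : foot (C.κ (C.G (u s).1)) = foot (u s).2 := by
      have h5 : (u s).1 = C.κ (C.G (u s).1) := h1s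
      rw [← h5]
      exact h2s
    have h1 := hWG (u s) hs h3s
    have h2 : φ.symm (φ (G0 (u s))) = G0 (u s) := φ.symm_apply_apply _
    have h3 : nm (E := E) (W (φ.symm (φ (G0 (u s))))).proj (W (φ.symm (φ (G0 (u s))))).snd = 1 := by
      rw [h2, h1]
      exact (u s).2.2
    have h4 : c (φ (G0 (u s))) = (C.κ (φ.symm (φ (G0 (u s)))).1, ⟨W (φ.symm (φ (G0 (u s)))), h3⟩) :=
      dif_pos h3
    change u s = c (φ (G0 (u s)))
    rw [h4]
    refine Prod.ext ?_ (UT.ext' ?_)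
    · change (u s).1 = C.κ (φ.symm (φ (G0 (u s)))).1
      rw [h2]
      exact h1s
    · change (u s).2.1 = W (φ.symm (φ (G0 (u s))))
      rw [h2, h1]

/-- **the kernel lemma** for `UT ×_M UT` -/
theorem kernel2 {V : Type} [NormedAddCommGroup V] [NormedSpace ℝ V] [FiniteDimensional ℝ V]
    (w : Form (dU2 E M)) {u : V → UT E M × UT E M} {x : V} (hu : (dU2 E M).At u x) {γ : ℝ → V}
    {γ' : V} (hγ : HasDerivAt γ γ' 0) (hx : γ 0 = x) (hc : ∀ᶠ t in 𝓝 (0 : ℝ), u (γ t) = u x) :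
    iprod γ' (w.val u x) = 0 := by
  have h0 : foot (u x).1 = foot (u x).2 := hu.2.self_of_nhds
  obtain ⟨C⟩ := exists_ret2 h0
  exact C.kernel w hu rfl hγ hx hc

end

end Vale.Agent.P231.S2T
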