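import Vale.Agent.P231.S2T.Dim2
import Vale.Agent.P231.Co.SIPart

/-!
# P231, stage 2, block S2-T (T3, part 9): integration over the fibres of `S ×_M S → B ×_M B`
-/

set_option linter.unusedSectionVars false
set_option linter.unusedVariables false

open MeasureTheory Set Module Filter Topology
open scoped ContDiff

namespace Vale.Agent.P231.S2T

open Vale.Agent.P231.Fm Vale.Agent.P231.W Vale.Agent.P231.H584 Vale.Agent.P231.Co
  Vale.Agent.P231.WF
open Vale.Agent.P231.Fm (Sm Dif Form Lam)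

noncomputable section

variable {B S Fr N : Type*} {DB : Dif B} {DS : Dif S} {DF : Dif Fr} {f : B → N}
variable {G : Type} [NormedAddCommGroup G] [InnerProductSpace ℝ G] [FiniteDimensional ℝ G]
variable {pi : S → B} {q : Fr → B} {ev : Fr × G → S} (h : Bun DB DS DF G pi q ev)

/-- the product of the projections -/
def pp (pi : S → B) (z : S × S) : B × B := (pi z.1, pi z.2)

/-- `S ×_M S` -/
abbrev dS2 (DS : Dif S) (pi : S → B) (f : B → N) : Dif (S × S) := V2 DS (fun s => f (pi s))

include h in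
theorem map_pp : (dS2 DS pi f).Map (V2 DB f) (pp pi) := fun {E} _ _ _ {u x} hu =>
  ⟨⟨h.hπ hu.1.1, h.hπ hu.1.2⟩, hu.2⟩

/-- `(B ×_M B) ×_B S` -/
abbrev dT1 (DB : Dif B) (DS : Dif S) (pi : S → B) (f : B → N) : Dif ((B × B) × S) :=
  dPb (V2 DB f) DS pi Prod.fst

theorem map_t1 : (dT1 DB DS pi f).Map DB (fun z => z.1.2) := fun hu => map_p2 (map_pb_fst hu)

/-- `((B ×_M B) ×_B S) ×_B S` -/
abbrev dT2 (DB : Dif B) (DS : Dif S) (pi : S → B) (f : B → N) : Dif (((B × B) × S) × S) :=
  dPb (dT1 DB DS pi f) DS pi (fun z => z.1.2)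

include h in
/-- the first bundle -/
theorem bn1 (f : B → N) : Bun (V2 DB f) (dT1 DB DS pi f) (dPb (V2 DB f) DF q Prod.fst) G
    Prod.fst Prod.fst (pev ev) :=
  Bun.pb h (DY := V2 DB f) (p := Prod.fst) map_p1

include h in
/-- the second bundle -/
theorem bn2 (f : B → N) : Bun (dT1 DB DS pi f) (dT2 DB DS pi f)
    (dPb (dT1 DB DS pi f) DF q (fun z => z.1.2)) G Prod.fst Prod.fst (pev ev) :=
  Bun.pb h (DY := dT1 DB DS pi f) (p := fun z => z.1.2) map_t1

/-- the comparison map -/
def jj (z : ((B × B) × S) × S) : S × S := (z.1.2, z.2)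

/-- the inverse of the comparison map -/
def jk (pi : S → B) (z : S × S) : ((B × B) × S) × S := (((pi z.1, pi z.2), z.1), z.2)

theorem map_jj : (dT2 DB DS pi f).Map (dS2 DS pi f) jj := fun {E} _ _ _ {u x} hu => by
  refine ⟨⟨hu.1.1.1.2, hu.1.2⟩, ?_⟩
  filter_upwards [hu.2, hu.1.1.2, hu.1.1.1.1.2] with y h1 h2 h3
  have h1' : pi (u y).2 = (u y).1.1.2 := h1
  have h2' : pi (u y).1.2 = (u y).1.1.1 := h2
  have h3' : f (u y).1.1.1 = f (u y).1.1.2 := h3
  change f (pi (u y).1.2) = f (pi (u y).2)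
  rw [h1', h2', h3']

include h in
theorem map_jk : (dS2 DS pi f).Map (dT2 DB DS pi f) (jk pi) := fun {E} _ _ _ {u x} hu =>
  ⟨⟨⟨⟨map_pp h hu, hu.1.1⟩, Eventually.of_forall fun y => rfl⟩, hu.1.2⟩,
    Eventually.of_forall fun y => rfl⟩

include h in
/-- **the dimension of `S ×_M S`** -/
theorem dimEq_S2 {l : ℕ} (hl : finrank ℝ G = l + 1) {a : ℕ} (hB : DimEq (V2 DB f) a) {m : ℕ}
    (hm : m = a + l + l) : DimEq (dS2 DS pi f) m := by
  have h1 : DimEq (dT1 DB DS pi f) (a + l) := dimEq_bun (bn1 h f) hl hB rfl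
  have h2 : DimEq (dT2 DB DS pi f) m := dimEq_bun (bn2 h f) hl h1 hm
  have h3 : (dT2 DB DS pi f).Map (dS2 DS pi f) jj := map_jj
  have h4 : (dS2 DS pi f).Map (dT2 DB DS pi f) (jk pi) := map_jk h
  refine @dimEq_retract _ _ _ _ jj (jk pi) h3 h4 ?_ _ h2
  intro E _ _ _ u x hu
  exact EventuallyEq.rfl

variable [MeasurableSpace G] [BorelSpace G] {m : ℕ} (o : OrthonormalBasis (Fin m) ℝ G)

/-- **integration over the fibres of `S ×_M S → B ×_M B`** -/
def SS (f : B → N) : Form (dS2 DS pi f) →ₗ[ℝ] Form (V2 DB f) :=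
  ((bn1 h f).SIL o ∘ₗ (bn2 h f).SIL o) ∘ₗ (Form.pullA jj map_jj).toLinearMap

theorem SS_apply (w : Form (dS2 DS pi f)) : SS h o f w =
    (bn1 h f).SI o ((bn2 h f).SI o (Form.pull jj map_jj w)) := rfl

/-- Stokes -/
theorem SS_d (w : Form (dS2 DS pi f)) : SS h o f w.d = (SS h o f w).d := by
  rw [SS_apply, Form.pull_d, (bn2 h f).SI_d o, (bn1 h f).SI_smul o, (bn1 h f).SI_d o,
    smul_smul, ← pow_add, ← two_mul, pow_mul, neg_one_sq, one_pow, one_smul]
  rfl

theorem part_SS {j k : ℕ} (hj : j + 2 = k + m + m) (w : Form (dS2 DS pi f)) (hm : 0 < m) :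
    Form.part k (SS h o f w) = SS h o f (Form.part j w) := by
  rw [SS_apply, SS_apply, (bn1 h f).part_SI o (j := k + m - 1) (by omega),
    (bn2 h f).part_SI o (j := j) (by omega), Form.part_pull]

theorem sgi_even {X : Type*} {D : Dif X} {k : ℕ} (hk : Even k) (w : Form D) :
    Form.sg^[k] w = w := by
  obtain ⟨j, rfl⟩ := hk
  rw [← two_mul, Function.iterate_mul]
  have h1 : (Form.sg^[2] : Form D → Form D) = id := by
    funext w
    change w.sg.sg = w
    exact Form.sg_sg w
  rw [h1, Function.iterate_id]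
  rfl

/-- **the fibre integral of a product** -/
theorem SS_prod (hm : Odd m) (α β : Form DS) (v : Form (V2 DB f)) :
    SS h o f (Form.pull Prod.fst map_p1 α * Form.pull Prod.snd map_p2 β *
      Form.pull (pp pi) (map_pp h) v) =
      Form.pull Prod.fst map_p1 (h.SI o α) * Form.pull Prod.snd map_p2 (h.SI o β) * v := by
  have hev : Even (m + 1) := hm.add_one
  have e1 : Form.pull jj (map_jj (DB := DB) (f := f) (pi := pi)) (Form.pull Prod.fst map_p1 α) =
      Form.pull Prod.fst map_pb_fst (Form.pull Prod.snd map_pb_snd α) :=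
    Form.ext_val fun E _ _ _ u x hu => by
      rw [Form.pull_val _ _ hu, Form.pull_val _ _ (map_jj hu), Form.pull_val _ _ hu,
        Form.pull_val _ _ (map_pb_fst hu)]
      rfl
  have e2 : Form.pull jj (map_jj (DB := DB) (f := f) (pi := pi)) (Form.pull Prod.snd map_p2 β) =
      Form.pull Prod.snd map_pb_snd β :=
    Form.ext_val fun E _ _ _ u x hu => by
      rw [Form.pull_val _ _ hu, Form.pull_val _ _ (map_jj hu), Form.pull_val _ _ hu]
      rfl
  have e3 : Form.pull jj (map_jj (DB := DB) (f := f) (pi := pi))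
      (Form.pull (pp pi) (map_pp h) v) =
      Form.pull Prod.fst map_pb_fst (Form.pull Prod.fst map_pb_fst v) :=
    Form.ext_val fun E _ _ _ u x hu => by
      rw [Form.pull_val _ _ hu, Form.pull_val _ _ (map_jj hu), Form.pull_val _ _ hu,
        Form.pull_val _ _ (map_pb_fst hu)]
      refine v.congr (map_pp h (map_jj hu)) ?_
      filter_upwards [hu.2, hu.1.1.2] with y h1 h2
      have h1' : pi (u y).2 = (u y).1.1.2 := h1
      have h2' : pi (u y).1.2 = (u y).1.1.1 := h2
      exact Prod.ext h2' h1'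
  have e4 : Form.pull (fun z : (B × B) × S => z.1.2) (map_t1 (DB := DB) (DS := DS) (pi := pi) (f := f)) (h.SI o β) =
      Form.pull Prod.fst map_pb_fst (Form.pull Prod.snd map_p2 (h.SI o β)) :=
    Form.ext_val fun E _ _ _ u x hu => by
      rw [Form.pull_val _ _ hu, Form.pull_val _ _ hu, Form.pull_val _ _ (map_pb_fst hu)]
      rfl
  have h1 : Form.pull jj (map_jj (DB := DB) (f := f) (pi := pi)) (Form.pull Prod.fst map_p1 α *
      Form.pull Prod.snd map_p2 β * Form.pull (pp pi) (map_pp h) v) =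
      Form.pull Prod.fst map_pb_fst (Form.pull Prod.snd map_pb_snd α) *
        Form.pull Prod.snd map_pb_snd β *
          Form.pull Prod.fst map_pb_fst (Form.pull Prod.fst map_pb_fst v) := by
    rw [← e1, ← e2, ← e3, pull_mul, pull_mul]
  rw [SS_apply, h1]
  have h2 : (bn2 h f).SI o (Form.pull Prod.fst map_pb_fst (Form.pull Prod.snd map_pb_snd α) *
      Form.pull Prod.snd map_pb_snd β *
        Form.pull Prod.fst map_pb_fst (Form.pull Prod.fst map_pb_fst v)) =
      Form.pull Prod.snd map_pb_snd α * Form.pull Prod.fst map_pb_fst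
        (Form.pull Prod.snd map_p2 (h.SI o β) * v) := by
    have k1 := (bn2 h f).SI_mul_π o (Form.pull Prod.fst map_pb_fst
      (Form.pull Prod.snd map_pb_snd α) * Form.pull Prod.snd map_pb_snd β)
      (Form.pull Prod.fst map_pb_fst v)
    have k2 := (bn2 h f).SI_π_mul o (Form.pull Prod.snd map_pb_snd α)
      (Form.pull Prod.snd map_pb_snd β)
    rw [sgi_even hev] at k2
    have k3 := Bun.SI_pb o h (map_t1 (DB := DB) (DS := DS) (pi := pi) (f := f)) β
    refine k1.trans ?_
    rw [k2]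
    refine (congrArg (fun a => Form.pull Prod.snd map_pb_snd α * a *
      Form.pull Prod.fst map_pb_fst v) k3).trans ?_
    rw [e4, pull_mul, mul_assoc]
  rw [h2]
  have k1 := (bn1 h f).SI_mul_π o (Form.pull Prod.snd map_pb_snd α)
    (Form.pull Prod.snd map_p2 (h.SI o β) * v)
  have k3 := Bun.SI_pb o h (map_p1 (dB := DB) (f := f)) α
  refine k1.trans ?_
  refine (congrArg (fun a => a * (Form.pull Prod.snd map_p2 (h.SI o β) * v)) k3).trans ?_
  rw [mul_assoc]

end

end Vale.Agent.P231.S2T
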