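import Vale.Agent.P231.S2X.Rec

/-!
# P231, stage 2, block S2-T (algebra, part 1): power series

`E j` are the coefficients of `1 / D(w, x)`, `D(w, x) = 1 - 2 c (w + x) + (w - x)²`, as a power
series in `x`; `A j` those of `(w - x) / D(w, x)`, shifted.
-/

namespace Vale.Agent.P231.S2T

open PowerSeries Finset

noncomputable section

variable (c : ℝ)

/-- `1 - 2 c w + w²` -/
def Q : PowerSeries ℝ := 1 - C (2 * c) * X + X ^ 2

/-- `2 c + 2 w` -/
def B : PowerSeries ℝ := C (2 * c) + C 2 * X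

theorem Q_ne : constantCoeff (Q c) ≠ 0 := by simp [Q]

theorem Q_mul_inv : Q c * (Q c)⁻¹ = 1 := PowerSeries.mul_inv_cancel _ (Q_ne c)

/-- the coefficients of `1 / D` -/
def E : ℕ → PowerSeries ℝ
  | 0 => (Q c)⁻¹
  | 1 => (Q c)⁻¹ * (B c * (Q c)⁻¹)
  | (j + 2) => (Q c)⁻¹ * (B c * E (j + 1) - E j)

theorem Q_E_zero : Q c * E c 0 = 1 := Q_mul_inv c

theorem Q_E_one : Q c * E c 1 = B c * E c 0 := by
  rw [E, E, ← mul_assoc, Q_mul_inv, one_mul]

theorem Q_E (j : ℕ) : Q c * E c (j + 2) = B c * E c (j + 1) - E c j := by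
  rw [E, ← mul_assoc, Q_mul_inv, one_mul]

/-- the coefficients of `(w - x) / D` -/
def A : ℕ → PowerSeries ℝ
  | 0 => X * E c 0
  | (j + 1) => X * E c (j + 1) - E c j

theorem Q_A_zero : Q c * A c 0 = X := by
  rw [A, mul_left_comm, Q_E_zero, mul_one]

theorem Q_A_one : Q c * A c 1 = B c * A c 0 - 1 := by
  have h1 := Q_E_one c
  have h0 := Q_E_zero c
  rw [A, A]
  linear_combination X * h1 - h0

theorem Q_A_two : Q c * A c 2 = B c * A c 1 - A c 0 := by
  have h2 := Q_E c 0
  have h1 := Q_E_one c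
  rw [A, A, A]
  linear_combination X * h2 - h1

theorem Q_A (j : ℕ) : Q c * A c (j + 2) = B c * A c (j + 1) - A c j := by
  cases j with
  | zero => exact Q_A_two c
  | succ j =>
    have h2 := Q_E c (j + 1)
    have h1 := Q_E c j
    rw [A, A, A]
    linear_combination X * h2 - h1

/-- the Casorati determinants -/
def KK (j : ℕ) : PowerSeries ℝ := A c (j + 1) ^ 2 - A c (j + 2) * A c j

theorem Q_KK (j : ℕ) : Q c * KK c (j + 1) = KK c j := by
  have h1 := Q_A c j
  have h2 := Q_A c (j + 1)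
  rw [KK, KK]
  linear_combination A c (j + 2) * h1 - A c (j + 1) * h2

theorem Q_KK_zero : Q c ^ 3 * KK c 0 = 1 - C (4 * c) * X := by
  have h0 := Q_A_zero c
  have h1 := Q_A_one c
  have h2 := Q_A_two c
  have h3 : Q c ^ 2 * KK c 0 = Q c * (A c 0 ^ 2 - A c 1) := by
    rw [KK]
    linear_combination (Q c * A c 1) * h1 - Q c * A c 0 * h2
  have h4 : Q c ^ 2 * (A c 0 ^ 2 - A c 1) = 1 - C (4 * c) * X := by
    have h5 : Q c ^ 2 * (A c 0 ^ 2 - A c 1) = (Q c * A c 0) ^ 2 - Q c * (Q c * A c 1) := by ring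
    rw [h5, h0, h1, mul_sub, mul_left_comm, h0, mul_one, Q, B]
    have h6 : (C (4 * c) : PowerSeries ℝ) = 2 * C (2 * c) := by
      have : (2 : PowerSeries ℝ) = C 2 := rfl
      rw [this, ← map_mul]
      congr 1
      ring
    have h7 : (C (2 : ℝ) : PowerSeries ℝ) = 2 := rfl
    rw [h6, h7]
    ring
  calc Q c ^ 3 * KK c 0 = Q c * (Q c ^ 2 * KK c 0) := by ring
    _ = Q c ^ 2 * (A c 0 ^ 2 - A c 1) := by rw [h3]; ring
    _ = _ := h4

theorem Q_pow_KK (j : ℕ) : Q c ^ (j + 3) * KK c j = 1 - C (4 * c) * X := by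
  induction j with
  | zero => exact Q_KK_zero c
  | succ j ih =>
    rw [← ih, ← Q_KK c j]
    ring

/-- the values of the functional -/
def th (n u : ℕ) : PowerSeries ℝ := if u = n then X else if u + 1 = n then -1 else 0

/-- `[x^{n-u}] (w - x) / D` -/
def al (n u : ℕ) : PowerSeries ℝ := ∑ j ∈ range (n + 1), E c j * th n (j + u)

theorem al_eq (n u : ℕ) (hu : u ≤ n) : al c n u = A c (n - u) := by
  have h1 : ∀ j ∈ range (n + 1), j ∉ ({n - u} ∪ {n - u - 1} : Finset ℕ) →
      E c j * th n (j + u) = 0 := by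
    intro j _ hj
    simp only [Finset.mem_union, Finset.mem_singleton, not_or] at hj
    rw [th, if_neg (by omega), if_neg (by omega), mul_zero]
  have hsub : ({n - u} ∪ {n - u - 1} : Finset ℕ) ⊆ range (n + 1) := by
    intro j hj
    simp only [Finset.mem_union, Finset.mem_singleton] at hj
    simp only [Finset.mem_range]
    omega
  rw [al, ← Finset.sum_subset hsub h1]
  rcases Nat.eq_zero_or_pos (n - u) with h0 | h0
  · have h2 : n - u - 1 = n - u := by omega
    rw [h2, Finset.union_self, Finset.sum_singleton, th, if_pos (by omega), h0, A, mul_comm]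
  · obtain ⟨m, hm⟩ := Nat.exists_eq_succ_of_ne_zero h0.ne'
    rw [hm, Nat.succ_sub_one]
    have h3 : Disjoint ({m.succ} : Finset ℕ) {m} := by simp
    rw [Finset.sum_union h3, Finset.sum_singleton, Finset.sum_singleton, th, if_pos (by omega), th,
      if_neg (by omega), if_pos (by omega), Nat.succ_eq_add_one, A]
    ring

/-- the Casorati determinant of `al` -/
theorem al_det {n : ℕ} (hn : 2 ≤ n) :
    Q c ^ (n + 1) * (al c n 1 ^ 2 - al c n 0 * al c n 2) = 1 - C (4 * c) * X := by
  obtain ⟨m, rfl⟩ := Nat.exists_eq_add_of_le' hn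
  rw [al_eq c _ _ (by omega), al_eq c _ _ (by omega), al_eq c _ _ (by omega)]
  have := Q_pow_KK c m
  rw [KK] at this
  exact this

/-! ### logarithmic derivatives -/

/-- `2 w F' = -F S` -/
def LD {R : Type*} [CommRing R] (F S : PowerSeries R) : Prop :=
  2 * X * d⁄dX R F = -(F * S)

theorem LD.mul {R : Type*} [CommRing R] {F G S T : PowerSeries R} (h : LD F S) (h' : LD G T) :
    LD (F * G) (S + T) := by
  unfold LD at *
  rw [Derivation.leibniz, smul_eq_mul, smul_eq_mul]
  linear_combination G * h + F * h'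

theorem LD.congr {R : Type*} [CommRing R] {F S T : PowerSeries R} (h : LD F S) (e : S = T) :
    LD F T := e ▸ h

/-- power sums -/
def ps {R : Type*} [CommRing R] (y : R) : PowerSeries R :=
  2 * (C y * X * PowerSeries.mk fun k => y ^ k)

theorem mk_pow {R : Type*} [CommRing R] (y : R) :
    (1 - C y * X) * (PowerSeries.mk fun k => y ^ k) = 1 := by
  ext k
  rw [sub_mul, one_mul, map_sub, coeff_mk, mul_assoc, coeff_C_mul]
  cases k with
  | zero => simp
  | succ k =>
    rw [coeff_succ_X_mul, coeff_mk, coeff_one, if_neg (by omega), pow_succ']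
    ring

theorem LD_lin {R : Type*} [CommRing R] (y : R) : LD (1 - C y * X) (ps y) := by
  unfold LD ps
  have h1 : d⁄dX R (1 - C y * X : PowerSeries R) = -C y := by
    ext k
    rw [coeff_derivative, map_sub, coeff_one, if_neg (by omega), coeff_succ_mul_X, map_neg,
      coeff_C]
    split_ifs with h
    · subst h; simp
    · simp
  rw [h1]
  linear_combination 2 * C y * X * mk_pow y

end

end Vale.Agent.P231.S2T
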