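import Vale.Agent.P231.S2T.T3

/-!
# P231, stage 2, block S2-T: the Pontryagin classes of `M`
-/

set_option maxSynthPendingDepth 3
set_option linter.unusedSectionVars false
set_option linter.unusedVariables false

open Bundle Manifold Set Filter Module Topology MeasureTheory
open scoped ContDiff Manifold Topology

namespace Vale.Agent.P231.S2T

noncomputable section

open Vale.Agent.P234 Vale.Agent.P231 Vale.Agent.P231.Fm Vale.Agent.P231.W Vale.Agent.P231.H775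
  Vale.Agent.P231.WG Vale.Agent.P231.WR Vale.Agent.P231.X3 Vale.Agent.P231.ChW
  Vale.Agent.P231.WQ
open Vale.Agent.P231.Fm (Sm Dif Form Lam)

theorem hom_pow_zero {A B : Type*} [CommRing A] [CommRing B] [Algebra ℝ A] [Algebra ℝ B]
    (φ : A →ₐ[ℝ] B) {x : A} {n : ℕ} (h : x ^ n = 0) : φ x ^ n = 0 := by
  rw [← map_pow, h, map_zero]

theorem hom_prod {A B : Type*} [CommRing A] [CommRing B] [Algebra ℝ A] [Algebra ℝ B]
    (φ : A →ₐ[ℝ] B) {y z x x' : A} (h : y * z = x' - x) :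
    φ y ^ 2 * φ z ^ 2 = (φ x - φ x') ^ 2 := by
  rw [← mul_pow, ← map_mul, h, map_sub]
  ring

variable {E : Type*} [NormedAddCommGroup E] [NormedSpace ℝ E] [FiniteDimensional ℝ E]
  {M : Type*} [MetricSpace M] [ChartedSpace E M] [IsManifold 𝓘(ℝ, E) ∞ M]
  [RiemannianBundle (fun x : M => TangentSpace 𝓘(ℝ, E) x)]
  [IsContMDiffRiemannianBundle 𝓘(ℝ, E) ∞ E (fun x : M => TangentSpace 𝓘(ℝ, E) x)]
  [CompactSpace M] [ConnectedSpace M] [IsRiemannianManifold 𝓘(ℝ, E) M]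
  {e : ∀ x : M, TangentSpace 𝓘(ℝ, E) x → M} {D : ℝ} {K' : ℕ}
  {n : ℕ} (G : Geo e D 3) (hE : finrank ℝ E = 4 * n) {p : M}
  {Pi : TangentSpace 𝓘(ℝ, E) p → TangentSpace 𝓘(ℝ, E) p →L[ℝ] TangentSpace 𝓘(ℝ, E) p}
  {o : TangentSpace 𝓘(ℝ, E) p → Fm.Lam (TangentSpace 𝓘(ℝ, E) p)}
  {ρ : TangentSpace 𝓘(ℝ, E) p → ℝ} {r₀ : ℝ}
  (hJ : FE.LineP e D p 1 Pi o) (hρ : WE.Rho e D p ρ r₀) (a : ℝ)

/-- the closed form, multiplicity three -/
abbrev F3 (G : Geo e D 3) (hJ : FE.LineP e D p 1 Pi o) (hρ : WE.Rho e D p ρ r₀) (a : ℝ) :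
    Form (dM E M) := FG (m := 1) G hJ hρ a

/-- the normalised closed form -/
abbrev O3 (G : Geo e D 3) (hJ : FE.LineP e D p 1 Pi o) (hρ : WE.Rho e D p ρ r₀) (a κ : ℝ) :
    Form (dM E M) := κ⁻¹ • F3 G hJ hρ a

theorem O3_d (κ : ℝ) : (O3 G hJ hρ a κ).d = 0 := by
  have h := FE.FF_d G.F G.hD G.hB G.hdiam (Geo.hl (m := 1) G) hJ hρ a
  rw [O3, Form.d_smul]
  exact (congrArg (fun w => κ⁻¹ • w) h).trans (smul_zero _)

theorem O3_deg (κ : ℝ) : Form.IsDeg 4 (O3 G hJ hρ a κ) :=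
  (S2II.isDeg_FF G.F G.hD G.hB G.hdiam (Geo.hl (m := 1) G) hJ hρ a).smul _

theorem O3_sg (κ : ℝ) : (O3 G hJ hρ a κ).sg = O3 G hJ hρ a κ :=
  (O3_deg G hJ hρ a κ).sg_of_even ⟨2, rfl⟩

include hE in
theorem O3_pow (κ : ℝ) (hn : 1 ≤ n) : (O3 G hJ hρ a κ) ^ (n + 1) = 0 := by
  have h1 : WA.DimLE (dM E M) (finrank ℝ E) := L.dimLE_bridge (WF.dimLE_M E M rfl)
  refine h1.pow_eq_zero (j := 4) ?_ (O3_deg G hJ hρ a κ)
  rw [hE]
  omega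

include hE in
/-- **the Pontryagin classes of `M`** -/
theorem tau_of (ha : a ≠ 0) (hn : 2 ≤ n) (P : PF E M K') {κ c : ℝ} (hκ : κ ≠ 0) {t : ℕ → ℝ}
    (ht : ∀ j, 1 ≤ j → ∃ η : Form (dM E M), tcl P (2 * j) = t j • (O3 G hJ hρ a κ) ^ j + η.d)
    {Yb Zb : H584.Bas G.R G.map_R}
    (eZ : (Zb : Form (dPr e D)) = κ⁻¹ • L3.b0P G.F G.hD G.hB G.hdiam (F3 G hJ hρ a))
    (hyz : qm G.R G.map_R Yb * qm G.R G.map_R Zb =
      xb G (O3_d G hJ hρ a κ) (O3_sg G hJ hρ a κ) - xf G (O3_d G hJ hρ a κ) (O3_sg G hJ hρ a κ))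
    (hsq : qm G.R G.map_R Yb ^ 2 + qm G.R G.map_R Zb ^ 2 =
      (2 * c) • (xf G (O3_d G hJ hρ a κ) (O3_sg G hJ hρ a κ) +
        xb G (O3_d G hJ hρ a κ) (O3_sg G hJ hρ a κ)))
    (hp : ∀ j, 1 ≤ j → qm G.R G.map_R (pcl G P (2 * j)) =
      2 * (qm G.R G.map_R Yb ^ (2 * j) + qm G.R G.map_R Zb ^ (2 * j)))
    {j : ℕ} (hj : 1 ≤ j) (hjn : j ≤ n) : t j = S2X.tau n c j := by
  have hx : xb G (O3_d G hJ hρ a κ) (O3_sg G hJ hρ a κ) ^ (n + 1) = 0 := by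
    rw [xb, ← map_pow]
    have h1 : (invB G G.map_bar G.bar_R (O3_d G hJ hρ a κ)
        (O3_sg G hJ hρ a κ)) ^ (n + 1) = 0 := by
      refine Subtype.ext ?_
      change (Form.pull (fun p : Pr e D => bar e D p.v) G.map_bar (O3 G hJ hρ a κ)) ^ (n + 1) = 0
      have h2 := map_pow (Form.pullA (fun p : Pr e D => bar e D p.v) G.map_bar)
        (O3 G hJ hρ a κ) (n + 1)
      rw [O3_pow G hE hJ hρ a κ (by omega), map_zero] at h2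
      exact h2.symm
    rw [h1, map_zero]
  obtain ⟨g, hg0, hgN, hgr⟩ := exists_gg G P (O3_d G hJ hρ a κ) (O3_sg G hJ hρ a κ) rfl hE hn ht hp
  obtain ⟨κ', Φ, hκ', hV⟩ := val_FF (m := 1) G hE hJ hρ ha le_rfl hn P hκ (c := c)
    (Xf := invB G G.map_foot G.foot_R (O3_d G hJ hρ a κ) (O3_sg G hJ hρ a κ))
    (Xb := invB G G.map_bar G.bar_R (O3_d G hJ hρ a κ) (O3_sg G hJ hρ a κ)) (Yb := Yb) (Zb := Zb)
    (map_smul (Form.pullA (fun p : Pr e D => foot p.v) G.map_foot) κ⁻¹ (F3 G hJ hρ a))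
    (map_smul (Form.pullA (fun p : Pr e D => bar e D p.v) G.map_bar) κ⁻¹ (F3 G hJ hρ a))
    eZ hsq
  have hxx := Q1_xf G (O3_d G hJ hρ a κ) (O3_sg G hJ hρ a κ)
  have hs2 := hom_sq (Q2 G) hsq
  have hp2 := hom_prod (Q2 G) hyz
  rw [← hxx] at hs2 hp2
  exact Rel.tau_eq (g := g) (t := t) hn hκ'
    ⟨hom_pow_zero (Q1 G) hx, hom_pow_zero (Q2 G) hx, hom_sq (Q1 G) hsq, hs2,
      hom_prod (Q1 G) hyz, hp2, hg0, hgN, hgr⟩ hV hj hjn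

end

end Vale.Agent.P231.S2T
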