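import Vale.Agent.P231.S2T.Cyc2
import Vale.Agent.P231.Q2.Glue
import Vale.Agent.P231.Co.Sep
import Vale.Agent.P231.WG.TopD

/-!
# P231, stage 2, block S2-T (T3, part 3): null lemmas and values of the cycle of `UT ×_M UT`
-/

set_option maxSynthPendingDepth 3
set_option linter.unusedSectionVars false
set_option linter.unusedVariables false

open Bundle Manifold Set Filter Module Topology MeasureTheory
open scoped ContDiff Manifold Topology

namespace Vale.Agent.P231.S2T

noncomputable section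

open Vale.Agent.P234 Vale.Agent.P231 Vale.Agent.P231.Fm Vale.Agent.P231.W Vale.Agent.P231.H775
  Vale.Agent.P231.WG Vale.Agent.P231.WR Vale.Agent.P231.WQ Vale.Agent.P231.WA

section Gen

variable {V : Type*} [NormedAddCommGroup V] [NormedSpace ℝ V] [FiniteDimensional ℝ V]
variable {F : Type*} [NormedAddCommGroup F] [NormedSpace ℝ F] [FiniteDimensional ℝ F]
  [MeasurableSpace F] [BorelSpace F]

/-- a fibre integral with vertical kernel vectors vanishes -/
theorem phi_null (μ : Measure F) {k : ℕ} (b : Basis (Fin k) ℝ F) {r : F → ℝ} {K : Set F}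
    (h : Q.Cut r K) {w : V × F → Lam (V × F)} {x : V}
    (hn : ∀ y, y ≠ 0 → ∃ z, z ≠ 0 ∧ fderiv ℝ r y z = 0 ∧ iprod ((0, z) : V × F) (w (x, y)) = 0) :
    Q.phi μ b r w x = 0 := by
  rw [Q.phi, fib, integral_eq_zero_of_ae]
  refine Eventually.of_forall fun y => ?_
  change slice b (Q.cw r w (x, y)) = 0
  rcases eq_or_ne y 0 with rfl | hy
  · rw [(Q.cw_near h w x).eq_of_nhds, map_zero]
  · obtain ⟨z, hz, hz1, hz2⟩ := hn y hy
    refine slice_eq_zero b hz (Q.iprod_mul_eq_zero ?_ hz2)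
    change iprod ((0, z) : V × F) (Q.ps (Q.dR r y)) = 0
    rw [Q.ps, pull_iprod, Q.dR]
    have : (ContinuousLinearMap.snd ℝ V F) ((0, z) : V × F) = z := rfl
    rw [this, iprod_dx, hz1, map_zero, map_zero]

/-- base change for fibre integrals -/
theorem phi_base {V' : Type*} [NormedAddCommGroup V'] [NormedSpace ℝ V'] [FiniteDimensional ℝ V']
    (μ : Measure F) [μ.IsAddHaarMeasure] {k : ℕ} (b : Fin k → F) {r : F → ℝ} {K : Set F}
    (h : Q.Cut r K) {U : Set V} (hU : IsOpen U) {w : V × F → Lam (V × F)}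
    (hw : ContDiffOn ℝ ∞ w (U ×ˢ {0}ᶜ)) (L : V' →L[ℝ] V) {x : V'} (hx : L x ∈ U) :
    Q.phi μ b r (fun z : V' × F => Fm.pull (L.prodMap (ContinuousLinearMap.id ℝ F))
      (w (L z.1, z.2))) x = Fm.pull L (Q.phi μ b r w (L x)) := by
  have h1 := ContinuousLinearMap.integral_comp_comm (pullL L) (Q.integrable_slice μ b h hU hw hx)
  refine Eq.trans ?_ h1
  refine integral_congr_ae (Eventually.of_forall fun y => ?_)
  change slice b (Q.ps (Q.dR r y) * Fm.pull (L.prodMap (ContinuousLinearMap.id ℝ F))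
    (w (L x, y))) = Fm.pull L (slice b (Q.ps (Q.dR r y) * w (L x, y)))
  have h2 : Fm.pull (L.prodMap (ContinuousLinearMap.id ℝ F)) (Q.ps (Q.dR r y) * w (L x, y)) =
      Q.ps (Q.dR r y) * Fm.pull (L.prodMap (ContinuousLinearMap.id ℝ F)) (w (L x, y)) := by
    have h3 : Fm.pull (L.prodMap (ContinuousLinearMap.id ℝ F)) (Q.ps (Q.dR r y)) =
        Q.ps (Q.dR r y) := by
      rw [Q.ps, Q.ps, ← pull_comp_apply]
      congr 1
    rw [map_mul, h3]
  rw [← Co.slice_pull_prodMap, h2]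

end Gen

variable {E : Type*} [NormedAddCommGroup E] [NormedSpace ℝ E]
  {M : Type*} [MetricSpace M] [ChartedSpace E M]
  [RiemannianBundle (fun x : M => TangentSpace 𝓘(ℝ, E) x)]
  {e : ∀ x : M, TangentSpace 𝓘(ℝ, E) x → M}
  [FiniteDimensional ℝ E] [IsManifold 𝓘(ℝ, E) ∞ M]
  [IsContMDiffRiemannianBundle 𝓘(ℝ, E) ∞ E (fun x : M => TangentSpace 𝓘(ℝ, E) x)]

variable {p : M} {R D : ℝ} (X : Fr e p R) (v0 : UT E M) {k : ℕ} (b : Basis (Fin k) ℝ (Eu E))
  {r : Eu E → ℝ} {K : Set (Eu E)} (hr : Q.Cut r K) (hDR : D < R)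

/-- the second coordinate map -/
def G2 : (Eu E × Eu E) × Eu E →L[ℝ] Eu E × Eu E :=
  (ContinuousLinearMap.fst ℝ (Eu E) (Eu E)).prodMap (ContinuousLinearMap.id ℝ (Eu E))

theorem val_p1 (a : Form (dUT E M)) {x : Eu E × Eu E} {y : Eu E} (hx : x ∈ dom E R)
    (hy : y ≠ 0) : (Form.pull Prod.fst map_p1 a : Form (dU2 E M)).val (cc2 X v0) (x, y) =
      Q.pf (a.val (cc X v0) x) := by
  have hx' := mem_dom.1 hx
  rw [Form.pull_val _ _ (at_cc2 X v0 (z := (x, y)) hx hy)]
  have h1 := a.nat (u := cc X v0) (g := fun z : (Eu E × Eu E) × Eu E => z.1) (x := (x, y))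
    (at_cc X v0 hx'.1 hx'.2) (Sm.of_contDiff contDiff_fst _)
  refine h1.trans ?_
  rw [Q.pf]
  congr 1
  congr 1
  exact fderiv_fst

theorem val_p2 (a : Form (dUT E M)) {x : Eu E × Eu E} {y : Eu E} (hx : x ∈ dom E R)
    (hy : y ≠ 0) : (Form.pull Prod.snd map_p2 a : Form (dU2 E M)).val (cc2 X v0) (x, y) =
      Fm.pull G2 (a.val (cc X v0) (x.1, y)) := by
  have hx' := mem_dom.1 hx
  rw [Form.pull_val _ _ (at_cc2 X v0 (z := (x, y)) hx hy)]
  have h1 := a.nat (u := cc X v0) (g := fun z : (Eu E × Eu E) × Eu E => G2 z) (x := (x, y))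
    (at_cc X v0 (z := (x.1, y)) hx'.1 hy) (Sm.of_contDiff G2.contDiff _)
  refine h1.trans ?_
  congr 1
  congr 1
  exact G2.fderiv

/-! ### null lemmas -/

theorem II2_null2 {w : Form (dU2 E M)}
    (hn : ∀ x ∈ dom E R, ∀ y, y ≠ 0 → ∃ z, z ≠ 0 ∧ fderiv ℝ r y z = 0 ∧
      iprod ((0, z) : (Eu E × Eu E) × Eu E) (w.val (cc2 X v0) (x, y)) = 0) :
    II2 X v0 b hr hDR w = 0 := by
  rw [II2_apply]
  refine (setIntegral_congr_fun measurableSet_ball fun x hx => ?_).trans
    (integral_zero _ _)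
  have hxR : ‖x‖ < R := (mem_ball_zero_iff.1 hx).trans hDR
  have h1 : th2 X v0 b r w x = 0 := by
    have h2 : th2 X v0 b r w x = Q.phi volume b r (fun _ => (0 : Lam (Eu E × Eu E))) x :=
      Q.phi_congr volume b hr fun y hy =>
        phi_null volume b hr (hn (x, y) (mem_dom.2 ⟨hxR, hy⟩))
    rw [h2]
    have h3 := phi_smul volume (b : Fin k → Eu E) r 0 (fun _ => (0 : Lam (Eu E × Eu E))) x
    simp only [smul_zero, zero_smul] at h3
    exact h3
  change evalL (b : Fin k → Eu E) (th2 X v0 b r w x) = 0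
  rw [h1, map_zero]

theorem II2_null1 {w : Form (dU2 E M)}
    (hn : ∀ x ∈ dom E R, ∃ z, z ≠ 0 ∧ fderiv ℝ r x.2 z = 0 ∧ ∀ y, y ≠ 0 →
      iprod (((0, z), 0) : (Eu E × Eu E) × Eu E) (w.val (cc2 X v0) (x, y)) = 0) :
    II2 X v0 b hr hDR w = 0 := by
  rw [II2_apply]
  refine (setIntegral_congr_fun measurableSet_ball fun x hx => ?_).trans
    (integral_zero _ _)
  have hxR : ‖x‖ < R := (mem_ball_zero_iff.1 hx).trans hDR
  have h1 : th2 X v0 b r w x = 0 := by
    refine phi_null volume b hr fun y hy => ?_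
    have hxy : ((x, y) : Eu E × Eu E) ∈ dom E R := mem_dom.2 ⟨hxR, hy⟩
    obtain ⟨z, hz, hz1, hz2⟩ := hn (x, y) hxy
    refine ⟨z, hz, hz1, ?_⟩
    exact iprod_phi_eq_zero volume b hr (w := w.val (cc2 X v0)) (x := (x, y))
      (κ := ((0, z) : Eu E × Eu E)) (fun y' hy' => iprod_rad2 X v0 w hxy hy')
      fun y' hy' => ⟨0, hz2 y' hy'⟩
  change evalL (b : Fin k → Eu E) (th2 X v0 b r w x) = 0
  rw [h1, map_zero]

/-! ### the top degree -/

include hr in
theorem thi_part (m m' : ℕ) (hm : m + 1 = m' + k) (w : Form (dU2 E M)) {x : Eu E × Eu E}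
    (hx : x ∈ dom E R) :
    thi X v0 b r (Form.part m w) x = prt m' (thi X v0 b r w x) := by
  have h1 := Q.integrable_slice volume b hr (isOpen_dom' R) (contDiffOn_val2 X v0 w) hx
  have h2 := ContinuousLinearMap.integral_comp_comm (prtL (E := Eu E × Eu E) m') h1
  refine Eq.trans ?_ h2
  refine integral_congr_ae (Eventually.of_forall fun y => ?_)
  change slice b (Q.ps (dx (fderiv ℝ r y)) * prt m _) =
    prt m' (slice b (Q.ps (dx (fderiv ℝ r y)) * _))
  rw [prt_slice, ← hm, prt_ps_mul]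

include hr in
theorem th2_part (m : ℕ) (hm : m + 2 = k + k + k) (w : Form (dU2 E M)) {x : Eu E}
    (hx : x ∈ Metric.ball 0 R) :
    th2 X v0 b r (Form.part m w) x = prt k (th2 X v0 b r w x) := by
  rcases Nat.eq_zero_or_pos k with hk | hk
  · omega
  have h0 : th2 X v0 b r (Form.part m w) x =
      Q.phi volume b r (fun z => prt (k + k - 1) (thi X v0 b r w z)) x :=
    Q.phi_congr volume b hr fun y hy =>
      thi_part X v0 b hr m (k + k - 1) (by omega) w (mem_dom.2 ⟨mem_ball_zero_iff.1 hx, hy⟩)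
  rw [h0]
  have h1 := Q.integrable_slice volume b hr Metric.isOpen_ball (contDiffOn_thi X v0 b hr w) hx
  have h2 := ContinuousLinearMap.integral_comp_comm (prtL (E := Eu E) k) h1
  refine Eq.trans ?_ h2
  refine integral_congr_ae (Eventually.of_forall fun y => ?_)
  change slice b (Q.ps (dx (fderiv ℝ r y)) * prt (k + k - 1) _) =
    prt k (slice b (Q.ps (dx (fderiv ℝ r y)) * _))
  rw [prt_slice, show k + k = k + k - 1 + 1 by omega, prt_ps_mul, Nat.add_sub_cancel]

/-- the cycle only sees the part of top degree -/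
theorem II2_part {m : ℕ} (hm : m + 2 = k + k + k) (w : Form (dU2 E M)) :
    II2 X v0 b hr hDR w = II2 X v0 b hr hDR (Form.part m w) := by
  rw [II2_apply, II2_apply]
  refine setIntegral_congr_fun measurableSet_ball fun x hx => ?_
  have h := th2_part X v0 b hr m hm w (Metric.ball_subset_ball hDR.le hx)
  rw [h, evalForm_prt]

end

end Vale.Agent.P231.S2T
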