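import Vale.Agent.P231.S2T.Val2

/-!
# P231, stage 2, block S2-T (T3, part 4): the value of the cycle of `UT ×_M UT`
-/

set_option maxSynthPendingDepth 3
set_option linter.unusedSectionVars false
set_option linter.unusedVariables false

open Bundle Manifold Set Filter Module Topology MeasureTheory
open scoped ContDiff Manifold Topology

namespace Vale.Agent.P231.S2T

noncomputable section

open Vale.Agent.P234 Vale.Agent.P231 Vale.Agent.P231.Fm Vale.Agent.P231.W Vale.Agent.P231.H775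
  Vale.Agent.P231.WG Vale.Agent.P231.WR Vale.Agent.P231.WQ Vale.Agent.P231.WA

variable {E : Type*} [NormedAddCommGroup E] [NormedSpace ℝ E]
  {M : Type*} [MetricSpace M] [ChartedSpace E M]
  [RiemannianBundle (fun x : M => TangentSpace 𝓘(ℝ, E) x)]
  {e : ∀ x : M, TangentSpace 𝓘(ℝ, E) x → M}
  [FiniteDimensional ℝ E] [IsManifold 𝓘(ℝ, E) ∞ M]
  [IsContMDiffRiemannianBundle 𝓘(ℝ, E) ∞ E (fun x : M => TangentSpace 𝓘(ℝ, E) x)]
  [CompactSpace M] [ConnectedSpace M] [IsRiemannianManifold 𝓘(ℝ, E) M]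

variable {p : M} {R D : ℝ} (X : Fr e p R) (v0 : UT E M) {k : ℕ} (b : Basis (Fin k) ℝ (Eu E))
  {r : Eu E → ℝ} {K : Set (Eu E)} (hr : Q.Cut r K) (hDR : D < R)

/-- the form at the foot point -/
abbrev fo (Om : Form (dM E M)) : Form (dUT E M) := Form.pull foot map_foot Om

/-- the form at the antipodal point -/
abbrev fb (F : Facts e) (D : ℝ) (Om : Form (dM E M)) : Form (dUT E M) :=
  Form.pull (bar e D) (map_bar F D) Om

/-- the primitive -/
abbrev bz (F : Facts e) (D : ℝ) (Om : Form (dM E M)) : Form (dUT E M) :=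
  KT D (Form.pull (gm e) (map_gm F) Om)

/-- the null vector for polynomials -/
theorem exists_null_poly (F : Facts e) (hD : 0 < D) (hB : InjGE e D)
    (hdiam : ∀ p q : M, dist p q ≤ D) (hL : ∀ v : UT E M, ∃ q : Pr e D, q.v = v)
    (Om : Form (dM E M)) (hrad : ∀ y z : Eu E, (inner ℝ y z : ℝ) = 0 → fderiv ℝ r y z = 0)
    {x y : Eu E} (hx : ‖x‖ < R) (hy : y ≠ 0) :
    ∃ z : Eu E, z ≠ 0 ∧ fderiv ℝ r y z = 0 ∧ ∀ i j : ℕ, iprod ((0, z) : Eu E × Eu E)
      ((fo Om ^ i * fb F D Om ^ j).val (cc X v0) (x, y)) = 0 := by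
  obtain ⟨z, h1, h2, h3⟩ := Q2.exists_null X v0 F hD hB hdiam hL Om hrad hx hy
  refine ⟨z, h1, h2, fun i j => ?_⟩
  have hat := at_cc X v0 (z := (x, y)) hx hy
  rw [Form.mul_val, WQ.pow_val _ hat, WQ.pow_val _ hat]
  refine Q.iprod_mul_eq_zero (Q.iprod_pow_eq_zero ?_ i) (Q.iprod_pow_eq_zero h3 j)
  rw [WQ.val_foot X v0 F Om (z := (x, y)) hx hy]
  exact Q.iprod_vert_pf _ _

theorem II2_basic2 (F : Facts e) (hD : 0 < D) (hB : InjGE e D)
    (hdiam : ∀ p q : M, dist p q ≤ D) (hL : ∀ v : UT E M, ∃ q : Pr e D, q.v = v)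
    (Om : Form (dM E M)) (hrad : ∀ y z : Eu E, (inner ℝ y z : ℝ) = 0 → fderiv ℝ r y z = 0)
    (a : Form (dUT E M)) (i j : ℕ) :
    II2 X v0 b hr hDR (Form.pull Prod.fst map_p1 a * Form.pull Prod.snd map_p2
      (fo Om ^ i * fb F D Om ^ j)) = 0 := by
  refine II2_null2 X v0 b hr hDR fun x hx y hy => ?_
  have hx' := mem_dom.1 hx
  obtain ⟨z, h1, h2, h3⟩ := exists_null_poly X v0 F hD hB hdiam hL Om hrad (x := x.1) (y := y)
    hx'.1 hy
  refine ⟨z, h1, h2, ?_⟩
  rw [Form.mul_val, val_p1 X v0 a hx hy, val_p2 X v0 _ hx hy]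
  refine Q.iprod_mul_eq_zero (Q.iprod_vert_pf _ _) ?_
  rw [pull_iprod]
  have h4 : G2 ((0, z) : (Eu E × Eu E) × Eu E) = ((0, z) : Eu E × Eu E) := rfl
  rw [h4, h3 i j, map_zero]

theorem II2_basic1 (F : Facts e) (hD : 0 < D) (hB : InjGE e D)
    (hdiam : ∀ p q : M, dist p q ≤ D) (hL : ∀ v : UT E M, ∃ q : Pr e D, q.v = v)
    (Om : Form (dM E M)) (hrad : ∀ y z : Eu E, (inner ℝ y z : ℝ) = 0 → fderiv ℝ r y z = 0)
    (a : Form (dUT E M)) (i j : ℕ) :
    II2 X v0 b hr hDR (Form.pull Prod.fst map_p1 (fo Om ^ i * fb F D Om ^ j) *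
      Form.pull Prod.snd map_p2 a) = 0 := by
  refine II2_null1 X v0 b hr hDR fun x hx => ?_
  have hx' := mem_dom.1 hx
  obtain ⟨z, h1, h2, h3⟩ := exists_null_poly X v0 F hD hB hdiam hL Om hrad (x := x.1) (y := x.2)
    hx'.1 hx'.2
  refine ⟨z, h1, h2, fun y hy => ?_⟩
  rw [Form.mul_val, val_p1 X v0 _ hx hy, val_p2 X v0 _ hx hy]
  refine Q.iprod_mul_eq_zero ?_ ?_
  · rw [Q.pf, pull_iprod]
    have h4 : (ContinuousLinearMap.fst ℝ (Eu E × Eu E) (Eu E))
        (((0, z), 0) : (Eu E × Eu E) × Eu E) = ((0, z) : Eu E × Eu E) := rfl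
    rw [h4, h3 i j, map_zero]
  · rw [pull_iprod]
    have h4 : G2 (((0, z), 0) : (Eu E × Eu E) × Eu E) = 0 := rfl
    rw [h4, Q.iprod_zero_left, map_zero]

include hr in
/-- the inner fibre integral of a product -/
theorem thi_prod (a a' : Form (dUT E M)) {x : Eu E × Eu E} (hx : x ∈ dom E R) :
    thi X v0 b r (Form.pull Prod.snd map_p2 a' * Form.pull Prod.fst map_p1 a) x =
      Q.pf (th X v0 b r a' x.1) * a.val (cc X v0) x := by
  have h1 : thi X v0 b r (Form.pull Prod.snd map_p2 a' * Form.pull Prod.fst map_p1 a) x =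
      Q.phi volume b r (fun z => (Form.pull Prod.snd map_p2 a' : Form (dU2 E M)).val (cc2 X v0) z *
        Q.pf (a.val (cc X v0) z.1)) x :=
    Q.phi_congr volume b hr fun y hy => by
      rw [Form.mul_val, val_p1 X v0 a hx hy]
  rw [h1, Q.phi_mul_pf volume b hr (isOpen_dom' R) (contDiffOn_val2 X v0 _)
    (a.val (cc X v0)) hx]
  congr 1
  have h2 : Q.phi volume b r ((Form.pull Prod.snd map_p2 a' : Form (dU2 E M)).val (cc2 X v0)) x =
      Q.phi volume b r (fun z : (Eu E × Eu E) × Eu E => Fm.pull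
        ((ContinuousLinearMap.fst ℝ (Eu E) (Eu E)).prodMap (ContinuousLinearMap.id ℝ (Eu E)))
        (a'.val (cc X v0) ((ContinuousLinearMap.fst ℝ (Eu E) (Eu E)) z.1, z.2))) x :=
    Q.phi_congr volume b hr fun y hy => val_p2 X v0 a' hx hy
  rw [h2]
  exact phi_base volume b hr Metric.isOpen_ball (contDiffOn_val X v0 a')
    (ContinuousLinearMap.fst ℝ (Eu E) (Eu E)) (x := x)
    (mem_ball_zero_iff.2 (mem_dom.1 hx).1)

include hr in
/-- the degree zero part of the fibre integral of `B F^m` -/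
theorem aug_th (F : Facts e) (hD : 0 < D) (hB : InjGE e D)
    (hdiam : ∀ p q : M, dist p q ≤ D) (hL : ∀ v : UT E M, ∃ q : Pr e D, q.v = v)
    {Om : Form (dM E M)} {d : ℕ} (hd : Om.d = 0) (h2 : WF.IsDeg Om d) (hev : Even d)
    (htwo : 2 ≤ d) (m : ℕ)
    (hrad : ∀ y z : Eu E, (inner ℝ y z : ℝ) = 0 → fderiv ℝ r y z = 0) (hR : 0 < R)
    {Psi : Eu E → Lam (Eu E)}
    (hB0 : ∀ y ≠ 0, Fm.pull (ContinuousLinearMap.inr ℝ (Eu E) (Eu E))
      ((bz F D Om).val (cc X v0) (0, y)) = Psi y) {x : Eu E} (hx : ‖x‖ < R) :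
    aug (th X v0 b r (bz F D Om * fb F D Om ^ m) x) = Q.qv volume b r Psi m := by
  have dt := Q2.data X v0 F hD hB hdiam hL hd h2 hev htwo hrad
  have h3 : th X v0 b r (bz F D Om * fb F D Om ^ m) x =
      Q.phi volume b r (fun z => (bz F D Om).val (cc X v0) z * (fb F D Om).val (cc X v0) z ^ m)
        x := Q.phi_congr volume b hr fun y hy => by
    rw [Form.mul_val, WQ.pow_val _ (at_cc X v0 (z := (x, y)) hx hy)]
  rw [h3, dt.aug_phi_const volume b hr m (convex_ball (0 : Eu E) R).isPreconnected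
    (mem_ball_zero_iff.2 hx) (Metric.mem_ball_self hR),
    dt.aug_phi_value volume b hr m (Metric.mem_ball_self hR) hB0]
  rfl

/-- **the value of the cycle of `UT ×_M UT`** -/
theorem II2_val (F : Facts e) (hD : 0 < D) (hB : InjGE e D)
    (hdiam : ∀ p q : M, dist p q ≤ D) (hL : ∀ v : UT E M, ∃ q : Pr e D, q.v = v)
    {Om : Form (dM E M)} {d : ℕ} (hd : Om.d = 0) (h2 : WF.IsDeg Om d) (hev : Even d)
    (htwo : 2 ≤ d) {n : ℕ} (hn : 1 ≤ n) (hE : finrank ℝ E = d * n)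
    (hrad : ∀ y z : Eu E, (inner ℝ y z : ℝ) = 0 → fderiv ℝ r y z = 0)
    {Psi : Eu E → Lam (Eu E)} (hPsi : Q.Ang Psi) {f : Eu E → ℝ} {K' : Set (Eu E)}
    (hf : Q.Cut f K') (hK' : K' ⊆ Metric.ball (0 : Eu E) D)
    (hG : ∀ x ∈ Metric.ball (0 : Eu E) D, Om.val (ef e p) x = extd (fun z => f z • Psi z) x)
    (hB0 : ∀ y ≠ 0, Fm.pull (ContinuousLinearMap.inr ℝ (Eu E) (Eu E))
      ((bz F D Om).val (cc X v0) (0, y)) = Psi y) :
    II2 X v0 b hr hDR (Form.pull Prod.snd map_p2 (bz F D Om * fb F D Om ^ (n - 1)) *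
      Form.pull Prod.fst map_p1 (bz F D Om * (fo Om ^ n * fb F D Om ^ (n - 1)))) =
      Q.qv volume b r Psi (n - 1) ^ 3 := by
  obtain ⟨m, rfl⟩ : ∃ m, n = m + 1 := ⟨n - 1, by omega⟩
  rw [Nat.add_sub_cancel]
  have hR : 0 < R := hD.trans hDR
  have dt := Q2.data X v0 F hD hB hdiam hL hd h2 hev htwo hrad
  have hII := Q2.II_eq X v0 F hD hB hdiam hL hd h2 hev htwo hn hE b hr hrad hDR hPsi hf hK' hG hB0
  rw [Nat.add_sub_cancel] at hII
  set q := Q.qv volume b r Psi m with hq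
  set a := bz F D Om * (fo Om ^ (m + 1) * fb F D Om ^ m) with ha
  set a' := bz F D Om * fb F D Om ^ m with ha'
  -- the pointwise identity
  have key : ∀ x ∈ Metric.ball (0 : Eu E) R, th2 X v0 b r
      (Form.pull Prod.snd map_p2 a' * Form.pull Prod.fst map_p1 a) x =
      q • th X v0 b r a x := by
    intro x hx
    have hx' := mem_ball_zero_iff.1 hx
    have h1 : th2 X v0 b r (Form.pull Prod.snd map_p2 a' * Form.pull Prod.fst map_p1 a) x =
        Q.phi volume b r (fun z => q • a.val (cc X v0) z) x := by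
      refine Q.phi_congr volume b hr fun y hy => ?_
      rw [thi_prod X v0 b hr a a' (x := (x, y)) (mem_dom.2 ⟨hx', hy⟩)]
      set T := th X v0 b r a' x with hT
      have haug : Fm.aug T = q := aug_th X v0 b hr F hD hB hdiam hL hd h2 hev htwo m hrad hR hB0 hx'
      set g := Om.val (ef e p) x with hg
      have hgd : Q.IsDeg d g := dt.degG x hx
      have h5 : inv (Q.pf (F := Eu E) g) = Q.pf g := Q2.inv_even hev (hgd.pull _)
      have h6 : inv (Q.pf (F := Eu E) g ^ (m + 1)) = Q.pf g ^ (m + 1) := by rw [map_pow, h5]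
      have hk : finrank ℝ (Eu E) = d * (m + 1) := by
        rw [finrank_euclideanSpace, Fintype.card_fin, hE]
      have h4 : Q.IsDeg (finrank ℝ (Eu E)) (g ^ (m + 1)) := by
        rw [hk]
        exact hgd.pow (m + 1)
      have h7 : a.val (cc X v0) (x, y) = Q.pf (g ^ (m + 1)) *
          ((bz F D Om).val (cc X v0) (x, y) * (fb F D Om).val (cc X v0) (x, y) ^ m) := by
        rw [ha, WQ.val_eq X v0 F (m + 1) m (z := (x, y)) hx' hy, ← mul_assoc]
        congr 1
        have h10 : Q.pf (F := Eu E) (g ^ (m + 1)) = Q.pf g ^ (m + 1) := map_pow _ _ _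
        rw [h10]
        exact (mul_comm_of_even h6 _).symm
      have h8 : Q.pf (F := Eu E) T * Q.pf (g ^ (m + 1)) = q • Q.pf (g ^ (m + 1)) := by
        rw [Q.pf, Q.pf, ← map_mul, Q.mul_top h4, haug, map_smul]
      change Q.pf T * a.val (cc X v0) (x, y) = q • a.val (cc X v0) (x, y)
      rw [h7, ← mul_assoc, h8, smul_mul_assoc]
    rw [h1]
    exact phi_smul volume b r q (a.val (cc X v0)) x
  have h9 : II2 X v0 b hr hDR (Form.pull Prod.snd map_p2 a' * Form.pull Prod.fst map_p1 a) =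
      q * II X v0 b hr hDR a := by
    rw [II2_apply, II_apply, ← integral_const_mul]
    refine setIntegral_congr_fun measurableSet_ball fun x hx => ?_
    change evalForm _ b = q * evalForm _ b
    rw [key x (Metric.ball_subset_ball hDR.le hx), Q.evalForm_smul]
  rw [h9, hII]
  ring

end

end Vale.Agent.P231.S2T
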