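import Vale.Agent.P231.S2T.Val3
import Vale.Agent.P231.S2T.Alg
import Vale.Agent.P231.Co.Gys

/-!
# P231, stage 2, block S2-T (T3, part 5): all values of the cycle of `UT ×_M UT`
-/

set_option maxSynthPendingDepth 3
set_option linter.unusedSectionVars false
set_option linter.unusedVariables false

open Bundle Manifold Set Filter Module Topology MeasureTheory
open scoped ContDiff Manifold Topology

namespace Vale.Agent.P231.S2T

noncomputable section

open Vale.Agent.P234 Vale.Agent.P231 Vale.Agent.P231.Fm Vale.Agent.P231.W Vale.Agent.P231.H775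
  Vale.Agent.P231.WG Vale.Agent.P231.WR Vale.Agent.P231.WQ Vale.Agent.P231.WA
  Vale.Agent.P231.H584

/-! ### the numbers -/

section Num

theorem sum_trunc {f : ℕ → ℝ} {m n : ℕ} (hm : m ≤ n) (hf : ∀ t, m ≤ t → f t = 0) :
    ∑ t ∈ Finset.range n, f t = ∑ t ∈ Finset.range m, f t := by
  refine (Finset.sum_subset (Finset.range_subset_range.2 hm) fun t _ ht => hf t ?_).symm
  simpa using ht

/-- the relations determine the numbers -/
theorem NN_unique {n : ℕ} (hn : 2 ≤ n) {A : ℕ → ℕ → ℕ → ℝ} (h1 : ∀ i j l, n < i → A i j l = 0)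
    (h2 : ∀ i j l, n < j → A i j l = 0) (h3 : ∀ i j l, n < l → A i j l = 0)
    (hdeg : ∀ i j l, i + j + l + 2 ≠ 3 * n → A i j l = 0)
    (r1 : ∀ i l, ∑ t ∈ Finset.range (n + 1), A (i + t) (n - t) l = 0)
    (r2 : ∀ i j, ∑ t ∈ Finset.range (n + 1), A (i + t) j (n - t) = 0) (i j l : ℕ) :
    A i j l = A n (n - 1) (n - 1) * NN n i j l := by
  obtain ⟨m, rfl⟩ := Nat.exists_eq_add_of_le' hn
  have a0 : ∀ l, A (m + 2) (m + 2) l = 0 := fun l => by
    have h := r1 (m + 2) l
    rw [sum_trunc (m := 1) (by omega) fun t ht => h1 _ _ _ (by omega), Finset.sum_range_one] at h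
    exact h
  have b0 : ∀ j, A (m + 2) j (m + 2) = 0 := fun j => by
    have h := r2 (m + 2) j
    rw [sum_trunc (m := 1) (by omega) fun t ht => h1 _ _ _ (by omega), Finset.sum_range_one] at h
    exact h
  have a1 : ∀ l, A (m + 1) (m + 2) l + A (m + 2) (m + 1) l = 0 := fun l => by
    have h := r1 (m + 1) l
    rw [sum_trunc (m := 2) (by omega) fun t ht => h1 _ _ _ (by omega), Finset.sum_range_succ,
      Finset.sum_range_one] at h
    exact h
  have b1 : ∀ j, A (m + 1) j (m + 2) + A (m + 2) j (m + 1) = 0 := fun j => by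
    have h := r2 (m + 1) j
    rw [sum_trunc (m := 2) (by omega) fun t ht => h1 _ _ _ (by omega), Finset.sum_range_succ,
      Finset.sum_range_one] at h
    exact h
  have a2 : ∀ l, A m (m + 2) l + A (m + 1) (m + 1) l + A (m + 2) m l = 0 := fun l => by
    have h := r1 m l
    rw [sum_trunc (m := 3) (by omega) fun t ht => h1 _ _ _ (by omega), Finset.sum_range_succ,
      Finset.sum_range_succ, Finset.sum_range_one] at h
    exact h
  have e1 : m + 2 - 1 = m + 1 := by omega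
  rw [e1]
  set k := A (m + 2) (m + 1) (m + 1) with hk
  have c1 : A (m + 1) (m + 2) (m + 1) = -k := by linarith [a1 (m + 1)]
  have c2 : A (m + 1) (m + 1) (m + 2) = -k := by linarith [b1 (m + 1)]
  have c3 : A m (m + 2) (m + 2) = k := by linarith [a2 (m + 2), b0 m]
  rw [NN]
  by_cases hd : i + j + l + 2 = 3 * (m + 2)
  · rcases Nat.lt_or_ge (m + 2) i with hi | hi
    · rw [h1 _ _ _ hi, if_neg (by omega), if_neg (by omega), if_neg (by omega), if_neg (by omega)]
      ring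
    rcases Nat.lt_or_ge (m + 2) j with hj | hj
    · rw [h2 _ _ _ hj, if_neg (by omega), if_neg (by omega), if_neg (by omega), if_neg (by omega)]
      ring
    rcases Nat.lt_or_ge (m + 2) l with hl | hl
    · rw [h3 _ _ _ hl, if_neg (by omega), if_neg (by omega), if_neg (by omega), if_neg (by omega)]
      ring
    have hcases : (i = m ∧ j = m + 2 ∧ l = m + 2) ∨ (i = m + 2 ∧ j = m ∧ l = m + 2) ∨
        (i = m + 2 ∧ j = m + 2 ∧ l = m) ∨ (i = m + 1 ∧ j = m + 1 ∧ l = m + 2) ∨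
        (i = m + 1 ∧ j = m + 2 ∧ l = m + 1) ∨ (i = m + 2 ∧ j = m + 1 ∧ l = m + 1) := by omega
    rcases hcases with h | h | h | h | h | h <;> obtain ⟨rfl, rfl, rfl⟩ := h
    · rw [c3, if_pos ⟨rfl, rfl, rfl⟩, if_neg (by omega), if_neg (by omega), if_neg (by omega)]
      ring
    · rw [b0, if_neg (by omega), if_neg (by omega), if_neg (by omega), if_neg (by omega)]
      ring
    · rw [a0, if_neg (by omega), if_neg (by omega), if_neg (by omega), if_neg (by omega)]
      ring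
    · rw [c2, if_neg (by omega), if_pos ⟨rfl, rfl, rfl⟩, if_neg (by omega), if_neg (by omega)]
      ring
    · rw [c1, if_neg (by omega), if_neg (by omega), if_pos ⟨rfl, rfl, rfl⟩, if_neg (by omega)]
      ring
    · rw [← hk, if_neg (by omega), if_neg (by omega), if_neg (by omega), if_pos ⟨rfl, rfl, rfl⟩]
      ring
  · rw [hdeg _ _ _ hd, if_neg (by omega), if_neg (by omega), if_neg (by omega),
      if_neg (by omega)]
    ring

end Num

variable {E : Type*} [NormedAddCommGroup E] [NormedSpace ℝ E]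
  {M : Type*} [MetricSpace M] [ChartedSpace E M]
  [RiemannianBundle (fun x : M => TangentSpace 𝓘(ℝ, E) x)]
  {e : ∀ x : M, TangentSpace 𝓘(ℝ, E) x → M}
  [FiniteDimensional ℝ E] [IsManifold 𝓘(ℝ, E) ∞ M]
  [IsContMDiffRiemannianBundle 𝓘(ℝ, E) ∞ E (fun x : M => TangentSpace 𝓘(ℝ, E) x)]
  [CompactSpace M] [ConnectedSpace M] [IsRiemannianManifold 𝓘(ℝ, E) M]

variable {p : M} {R D : ℝ} (X : Fr e p R) (v0 : UT E M) {k : ℕ} (b : Basis (Fin k) ℝ (Eu E))
  {r : Eu E → ℝ} {K : Set (Eu E)} (hr : Q.Cut r K) (hDR : D < R)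

/-- pullback to `UT ×_M UT`, first factor -/
abbrev P1 : Form (dUT E M) →ₐ[ℝ] Form (dU2 E M) := Form.pullA Prod.fst map_p1

/-- pullback to `UT ×_M UT`, second factor -/
abbrev P2 : Form (dUT E M) →ₐ[ℝ] Form (dU2 E M) := Form.pullA Prod.snd map_p2

theorem P2_fo (Om : Form (dM E M)) : P2 (fo Om) = P1 (fo Om) :=
  Form.ext_val fun V _ _ _ u x h => by
    change (Form.pull Prod.snd map_p2 (fo Om) : Form (dU2 E M)).val u x =
      (Form.pull Prod.fst map_p1 (fo Om) : Form (dU2 E M)).val u x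
    rw [Form.pull_val _ _ h, Form.pull_val _ _ h,
      Form.pull_val _ _ (map_p2 h), Form.pull_val _ _ (map_p1 h)]
    refine Om.congr (map_foot (map_p2 h)) ?_
    filter_upwards [h.2] with y hy using hy.symm

theorem P1_d (a : Form (dUT E M)) : (P1 a).d = P1 a.d :=
  (Form.pull_d Prod.fst (map_p1 (dB := dUT E M) (f := foot)) a).symm

theorem P2_d (a : Form (dUT E M)) : (P2 a).d = P2 a.d :=
  (Form.pull_d Prod.snd (map_p2 (dB := dUT E M) (f := foot)) a).symm

theorem P1_sg (a : Form (dUT E M)) : (P1 a).sg = P1 a.sg :=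
  (Form.pull_sg Prod.fst (map_p1 (dB := dUT E M) (f := foot)) a).symm

/-- forms of the wrong degree -/
theorem II2_deg {j : ℕ} (hj : j + 2 ≠ k + k + k) {w : Form (dU2 E M)} (hw : Form.IsDeg j w) :
    II2 X v0 b hr hDR w = 0 := by
  rcases Nat.eq_zero_or_pos k with hk | hk
  · -- the fibre has dimension zero: no nonzero vector
    refine II2_null2 X v0 b hr hDR fun x hx y hy => ?_
    exfalso
    apply hy
    subst hk
    have := b.ext_elem (x := y) (y := 0) (fun i => i.elim0)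
    exact this
  · rw [II2_part X v0 b hr hDR (m := k + k + k - 2) (by omega) w,
      hw.part_eq_zero (by omega), map_zero]

section Vals

variable (F : Facts e) (hD : 0 < D) (hB : InjGE e D) (hdiam : ∀ p q : M, dist p q ≤ D)
  (hP : ∀ x y : M, dist x y = D → 2 ≤ finrank ℝ (H775.Pl e D x y)) {Om : Form (dM E M)} {d : ℕ}
  (hd : Om.d = 0) (hev : Even d) (htwo : 2 ≤ d) {n : ℕ}
  (hrad : ∀ y z : Eu E, (inner ℝ y z : ℝ) = 0 → fderiv ℝ r y z = 0)
  (hOd : Form.IsDeg d Om) (hOn : Om ^ (n + 1) = 0)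

/-- the numbers of the cycle -/
def AA (F : Facts e) (Om : Form (dM E M)) (i j l : ℕ) : ℝ :=
  II2 X v0 b hr hDR (P1 (bz F D Om * (fo Om ^ i * fb F D Om ^ j)) * P2 (bz F D Om * fb F D Om ^ l))

include F hD hB hdiam hP in
theorem exists_pr (v : UT E M) : ∃ q : Pr e D, q.v = v := by
  obtain ⟨w, hw⟩ := exists_isL F hD hB hdiam hP v
  exact ⟨⟨(v, w), hw⟩, rfl⟩

include hOd hev in
theorem Om_sg : Om.sg = Om := hOd.sg_of_even hev

include hd hOd hev hOn in
theorem pth : Pth n (fo Om) (fb F D Om) (bz F D Om) := by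
  have hm := pull_good hd (Om_sg hev hOd) hOn (map_gm F)
  have h := Pth.of_cyl D hm.1 hm.2.1 hm.2.2
  have h0 : at_ 0 (Form.pull (gm e) (map_gm F) Om) = fo Om :=
    pull_pull (Form.map_slice 0) (map_gm F) map_foot (fun v => gm_zero F v) Om
  have h1 : at_ D (Form.pull (gm e) (map_gm F) Om) = fb F D Om :=
    pull_pull (Form.map_slice D) (map_gm F) (map_bar F D) (fun v => rfl) Om
  rwa [h0, h1] at h

include F hD hB hdiam hP hd hev hrad hOd hOn in
theorem AA_r1 (i l : ℕ) :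
    ∑ t ∈ Finset.range (n + 1), AA X v0 b hr hDR F Om (i + t) (n - t) l = 0 := by
  have hL := exists_pr F hD hB hdiam hP
  have hp := pth F hd hev hOd hOn (D := D)
  obtain ⟨η, hη⟩ := hp.ex
  set β := bz F D Om * fb F D Om ^ l with hβ
  set ξ := fo Om ^ i * η with hξ
  have hfi : (fo Om ^ i).d = 0 := pow_closed hp.d₀ i
  have hfi' : (fo Om ^ i).sg = fo Om ^ i := pow_even hp.e₀ i
  have hξd : ξ.d = fo Om ^ i * η.d := by
    rw [hξ, Form.d_mul, hfi, zero_mul, zero_add, hfi']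
  have hβd : β.d = fo Om ^ 0 * fb F D Om ^ (l + 1) - fo Om ^ 1 * fb F D Om ^ l := by
    rw [hβ, Form.d_mul, hp.db, pow_closed hp.d₁ l, mul_zero, add_zero, pow_zero, one_mul, pow_one,
      sub_mul, pow_succ']
  have h1 : (P1 ξ * P2 β).d = P1 ξ.d * P2 β + P1 ξ.sg * P2 β.d := by
    rw [Form.d_mul, P1_d, P2_d, P1_sg]
  have h2 : II2 X v0 b hr hDR (P1 ξ * P2 β).d = 0 := by
    exact II2_d F hD hB hdiam hP X v0 b hr hDR _
  have h3 : II2 X v0 b hr hDR (P1 ξ.sg * P2 β.d) = 0 := by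
    rw [hβd, map_sub, mul_sub, map_sub]
    have h4 := II2_basic2 X v0 b hr hDR F hD hB hdiam hL Om hrad ξ.sg 0 (l + 1)
    have h5 := II2_basic2 X v0 b hr hDR F hD hB hdiam hL Om hrad ξ.sg 1 l
    exact (congrArg₂ (· - ·) h4 h5).trans (sub_zero _)
  rw [h1, map_add, h3, add_zero, hξd, ← hη] at h2
  rw [← h2]
  have h6 : fo Om ^ i * (bz F D Om * hh n (fo Om) (fb F D Om)) =
      ∑ t ∈ Finset.range (n + 1), bz F D Om * (fo Om ^ (i + t) * fb F D Om ^ (n - t)) := by
    rw [hh, Finset.mul_sum, Finset.mul_sum]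
    refine Finset.sum_congr rfl fun t _ => ?_
    rw [← mul_assoc, (even_comm hfi' (bz F D Om)).eq, mul_assoc, ← mul_assoc (fo Om ^ i),
      ← pow_add]
  rw [h6, map_sum, Finset.sum_mul, map_sum]
  rfl

include F hD hB hdiam hP hd hev hrad hOd hOn in
theorem AA_r2 (i j : ℕ) :
    ∑ t ∈ Finset.range (n + 1), AA X v0 b hr hDR F Om (i + t) j (n - t) = 0 := by
  have hL := exists_pr F hD hB hdiam hP
  have hp := pth F hd hev hOd hOn (D := D)
  obtain ⟨η, hη⟩ := hp.ex
  set α := bz F D Om * (fo Om ^ i * fb F D Om ^ j) with hα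
  have hff : (fo Om ^ i * fb F D Om ^ j).sg = fo Om ^ i * fb F D Om ^ j :=
    mul_even (pow_even hp.e₀ i) (pow_even hp.e₁ j)
  have hαs : α.sg = -α := by rw [hα, Form.sg_mul, hp.o, hff, neg_mul]
  have hαd : α.d = fo Om ^ i * fb F D Om ^ (j + 1) - fo Om ^ (i + 1) * fb F D Om ^ j := by
    rw [hα, Form.d_mul, hp.db, mul_closed (pow_closed hp.d₀ i) (pow_closed hp.d₁ j), mul_zero,
      add_zero, sub_mul, pow_succ', pow_succ', ← mul_assoc, mul_assoc (fo Om)]
    congr 1
    rw [(even_comm hp.e₁ (fo Om ^ i)).eq, mul_assoc]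
  have h1 : (P1 α * P2 η).d = P1 α.d * P2 η - P1 α * P2 η.d := by
    rw [Form.d_mul, P1_d, P2_d, P1_sg, hαs, map_neg, neg_mul, sub_eq_add_neg]
  have h2 : II2 X v0 b hr hDR (P1 α * P2 η).d = 0 := by
    exact II2_d F hD hB hdiam hP X v0 b hr hDR _
  have h3 : II2 X v0 b hr hDR (P1 α.d * P2 η) = 0 := by
    rw [hαd, map_sub, sub_mul, map_sub]
    have h4 := II2_basic1 X v0 b hr hDR F hD hB hdiam hL Om hrad η i (j + 1)
    have h5 := II2_basic1 X v0 b hr hDR F hD hB hdiam hL Om hrad η (i + 1) j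
    exact (congrArg₂ (· - ·) h4 h5).trans (sub_zero _)
  rw [h1, map_sub, h3, zero_sub, neg_eq_zero, ← hη] at h2
  rw [← h2]
  have h6 : P1 α * P2 (bz F D Om * hh n (fo Om) (fb F D Om)) =
      ∑ t ∈ Finset.range (n + 1), P1 (bz F D Om * (fo Om ^ (i + t) * fb F D Om ^ j)) *
        P2 (bz F D Om * fb F D Om ^ (n - t)) := by
    rw [hh, Finset.mul_sum, map_sum, Finset.mul_sum]
    refine Finset.sum_congr rfl fun t _ => ?_
    have h7 : bz F D Om * (fo Om ^ t * fb F D Om ^ (n - t)) =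
        fo Om ^ t * (bz F D Om * fb F D Om ^ (n - t)) := by
      rw [← mul_assoc, ← (even_comm (pow_even hp.e₀ t) (bz F D Om)).eq, mul_assoc]
    have h8 : α * fo Om ^ t = bz F D Om * (fo Om ^ (i + t) * fb F D Om ^ j) := by
      rw [hα, mul_assoc, mul_assoc, ← (even_comm (pow_even hp.e₀ t) (fb F D Om ^ j)).eq,
        ← mul_assoc (fo Om ^ i), ← pow_add]
    rw [h7, map_mul P2, map_pow, P2_fo, ← map_pow, ← mul_assoc, ← map_mul, h8]
  rw [h6, map_sum]
  rfl

end Vals

end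

end Vale.Agent.P231.S2T
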