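import Vale.Agent.P231.S2T.IV2

/-!
# P231, stage 2, block S2-T (T3, part 11): the values of the functional on the ring of `V ×_M V`
-/

set_option maxSynthPendingDepth 3
set_option linter.unusedSectionVars false
set_option linter.unusedVariables false

open Bundle Manifold Set Filter Module Topology MeasureTheory
open scoped ContDiff Manifold Topology

namespace Vale.Agent.P231.S2T

noncomputable section

open Vale.Agent.P234 Vale.Agent.P231 Vale.Agent.P231.Fm Vale.Agent.P231.W Vale.Agent.P231.H775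
  Vale.Agent.P231.WG Vale.Agent.P231.WR Vale.Agent.P231.X3 Vale.Agent.P231.ChW
open Vale.Agent.P231.Fm (Sm Dif Form Lam)

variable {E : Type*} [NormedAddCommGroup E] [NormedSpace ℝ E] [FiniteDimensional ℝ E]
  {M : Type*} [MetricSpace M] [ChartedSpace E M] [IsManifold 𝓘(ℝ, E) ∞ M]
  [RiemannianBundle (fun x : M => TangentSpace 𝓘(ℝ, E) x)]
  [IsContMDiffRiemannianBundle 𝓘(ℝ, E) ∞ E (fun x : M => TangentSpace 𝓘(ℝ, E) x)]
  [CompactSpace M] [ConnectedSpace M] [IsRiemannianManifold 𝓘(ℝ, E) M]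
  {e : ∀ x : M, TangentSpace 𝓘(ℝ, E) x → M} {D : ℝ} {l : ℕ} [NeZero l] (G : Geo e D l)
  {b0 : Form (dPr e D)} (hb : S2II.Orn G.F G.hD G.hB G.hdiam (l := l) b0) (hl : Odd l)
  {p : M} {R : ℝ} (X : WG.Fr e p R) (v0 : UT E M) {k : ℕ} (b : Basis (Fin k) ℝ (Eu E))
  {r : Eu E → ℝ} {K : Set (Eu E)} (hr : Q.Cut r K) (hDR : D < R)

theorem hom_sq {A B : Type*} [CommRing A] [CommRing B] [Algebra ℝ A] [Algebra ℝ B]
    (φ : A →ₐ[ℝ] B) {y z x x' : A} {c : ℝ} (h : y ^ 2 + z ^ 2 = (2 * c) • (x + x')) :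
    φ y ^ 2 + φ z ^ 2 = (2 * c) • (φ x + φ x') := by
  rw [← map_pow, ← map_pow, ← map_add, h, map_smul, map_add]

/-- the polynomial in the three closed forms -/
def W0 (F : Facts e) (D : ℝ) (Om : Form (dM E M)) (i j q : ℕ) : Form (dU2 E M) :=
  P1 (fo Om) ^ i * P1 (fb F D Om) ^ j * P2 (fb F D Om) ^ q

section

variable {Om : Form (dM E M)}

theorem IV_v0 {ν : Form (dPr e D)} (hν1 : Form.IsDeg 1 ν) (h3 : 3 ≤ l) (w : Form (dU2 E M)) :
    IV G hb hl X v0 b hr hDR (p₁ e D ν * (p₂ e D ν * p₀ e D w)) = 0 := by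
  rw [← mul_assoc, IV_prod, SL_eq_zero G hb hl hν1 h3, map_zero, zero_mul, zero_mul, map_zero]

theorem IV_v1 {ν : Form (dPr e D)} (hν1 : Form.IsDeg 1 ν) (h3 : 3 ≤ l) (w : Form (dU2 E M))
    {a : Form (dPr e D)} (ha : a.sg = a) :
    IV G hb hl X v0 b hr hDR (p₁ e D ν * (p₂ e D ν * (p₀ e D w * p₁ e D a ^ 2))) = 0 := by
  have ha2 : (p₁ e D (a ^ 2)).sg = p₁ e D (a ^ 2) := by
    change (Form.pull Prod.fst map_p1 (a ^ 2)).sg = Form.pull Prod.fst map_p1 (a ^ 2)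
    rw [← Form.pull_sg, H584.pow_even ha 2]
  have h1 : p₁ e D ν * (p₂ e D ν * (p₀ e D w * p₁ e D a ^ 2)) =
      p₁ e D (ν * a ^ 2) * p₂ e D ν * p₀ e D w := by
    rw [← map_pow, map_mul, mul_assoc, mul_assoc]
    congr 1
    rw [← mul_assoc (p₂ e D ν), ← (H584.even_comm ha2 (p₂ e D ν * p₀ e D w)).eq]
  rw [h1, IV_prod, SL_eq_zero G hb hl hν1 h3, map_zero, mul_zero, zero_mul, map_zero]

theorem IV_v2 {ν : Form (dPr e D)} (hν1 : Form.IsDeg 1 ν) (h3 : 3 ≤ l) (w : Form (dU2 E M))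
    {a : Form (dPr e D)} (ha : a.sg = a) :
    IV G hb hl X v0 b hr hDR (p₁ e D ν * (p₂ e D ν * (p₀ e D w * p₂ e D a ^ 2))) = 0 := by
  have ha2 : (p₂ e D (a ^ 2)).sg = p₂ e D (a ^ 2) := by
    change (Form.pull Prod.snd map_p2 (a ^ 2)).sg = Form.pull Prod.snd map_p2 (a ^ 2)
    rw [← Form.pull_sg, H584.pow_even ha 2]
  have h1 : p₁ e D ν * (p₂ e D ν * (p₀ e D w * p₂ e D a ^ 2)) =
      p₁ e D ν * p₂ e D (ν * a ^ 2) * p₀ e D w := by
    rw [← map_pow, map_mul, mul_assoc]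
    congr 1
    rw [← (H584.even_comm ha2 (p₀ e D w)).eq, mul_assoc]
  rw [h1, IV_prod, SL_eq_zero G hb hl hν1 h3, map_zero, zero_mul, zero_mul, map_zero]

theorem IV_v3 {a : Form (dPr e D)} (ha : a.sg = a) {s : ℝ}
    (hs : S2II.SL G.F G.hD G.hB G.hdiam G.hP hb hl a = s • 1) (u w : Form (dU2 E M)) :
    IV G hb hl X v0 b hr hDR (p₀ e D u * (p₁ e D a * (p₂ e D a * p₀ e D w))) =
      s * s * II2 X v0 b hr hDR (u * w) := by
  have ha1 : (p₁ e D a).sg = p₁ e D a := by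
    change (Form.pull Prod.fst map_p1 a).sg = Form.pull Prod.fst map_p1 a
    rw [← Form.pull_sg, ha]
  have ha2 : (p₂ e D a).sg = p₂ e D a := by
    change (Form.pull Prod.snd map_p2 a).sg = Form.pull Prod.snd map_p2 a
    rw [← Form.pull_sg, ha]
  have h1 : p₀ e D u * (p₁ e D a * (p₂ e D a * p₀ e D w)) =
      p₁ e D a * p₂ e D a * p₀ e D (u * w) := by
    rw [map_mul, ← mul_assoc, ← (H584.even_comm ha1 (p₀ e D u)).eq, mul_assoc, mul_assoc]
    congr 1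
    rw [← mul_assoc, ← (H584.even_comm ha2 (p₀ e D u)).eq, mul_assoc]
  have h2 : P1 (s • (1 : Form (dUT E M))) * P2 (s • (1 : Form (dUT E M))) * (u * w) =
      (s * s) • (u * w) := by
    rw [map_smul, map_smul, map_one, map_one, smul_mul_smul_comm, one_mul, smul_mul_assoc, one_mul]
  rw [h1, IV_prod, hs, h2, map_smul, smul_eq_mul]

end

section Values

variable {Om : Form (dM E M)} {d n : ℕ} (hd : Om.d = 0) (hev : Even d) (htwo : 2 ≤ d)
  (hE : finrank ℝ E = d * n)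
  (hrad : ∀ y z : Eu E, (inner ℝ y z : ℝ) = 0 → fderiv ℝ r y z = 0)
  (hOd : Form.IsDeg d Om) (hOn : Om ^ (n + 1) = 0)

include hd hOd hev hOn in
theorem II2_AA (i j q : ℕ) : II2 X v0 b hr hDR (P1 (bz G.F D Om) * P2 (bz G.F D Om) *
    W0 G.F D Om i j q) = AA X v0 b hr hDR G.F Om i j q := by
  have hp := pth G.F hd hev hOd hOn (D := D)
  have h1 : (P1 (fo Om ^ i * fb G.F D Om ^ j)).sg = P1 (fo Om ^ i * fb G.F D Om ^ j) := by
    rw [P1_sg, H584.mul_even (H584.pow_even hp.e₀ i) (H584.pow_even hp.e₁ j)]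
  have e1 : P1 (bz G.F D Om * (fo Om ^ i * fb G.F D Om ^ j)) =
      P1 (bz G.F D Om) * P1 (fo Om ^ i * fb G.F D Om ^ j) := map_mul P1 _ _
  have e2 : P2 (bz G.F D Om * fb G.F D Om ^ q) = P2 (bz G.F D Om) * P2 (fb G.F D Om ^ q) :=
    map_mul P2 _ _
  have e3 : P1 (fo Om) ^ i * P1 (fb G.F D Om) ^ j = P1 (fo Om ^ i * fb G.F D Om ^ j) := by
    rw [map_mul, map_pow, map_pow]
  have e4 : P2 (fb G.F D Om) ^ q = P2 (fb G.F D Om ^ q) := (map_pow P2 _ _).symm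
  rw [AA, W0, e3, e1, e2, e4]
  congr 1
  generalize P1 (fo Om ^ i * fb G.F D Om ^ j) = y at h1
  generalize P1 (bz G.F D Om) = x
  generalize P2 (bz G.F D Om) = z
  generalize P2 (fb G.F D Om ^ q) = u
  rw [mul_assoc, mul_assoc, ← mul_assoc z y u, ← (H584.even_comm h1 z).eq, mul_assoc y z u]

/-- the form `b₀` -/
abbrev bb (G : Geo e D l) (Om : Form (dM E M)) : Form (dPr e D) :=
  L3.b0P G.F G.hD G.hB G.hdiam Om

theorem J1_bz : J (R1 G.R) (fl1 G).map (2 * Real.pi) (p₀ e D (P1 (bz G.F D Om))) =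
    p₁ e D (bb G Om) := by
  rw [p₀_P1]
  exact J_nat (D := dVV e D) (D' := dPr e D) map_p1 (mapR1 G) G.map_R (fun _ _ => rfl) _ _

theorem J2_bz : J (R2 G.R) (fl2 G).map (2 * Real.pi) (p₀ e D (P2 (bz G.F D Om))) =
    p₂ e D (bb G Om) := by
  rw [p₀_P2]
  exact J_nat (D := dVV e D) (D' := dPr e D) map_p2 (mapR2 G) G.map_R (fun _ _ => rfl) _ _

/-- the class of a basic form on the first factor -/
abbrev m1 (a : H584.Bas G.R G.map_R) : Bas2 (R1 G.R) (R2 G.R) (mapR1 G) (mapR2 G) :=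
  basMap₁ (D := dVV e D) map_p1 (fun _ _ => rfl) (fun _ _ => rfl) a

/-- the class of a basic form on the second factor -/
abbrev m2 (a : H584.Bas G.R G.map_R) : Bas2 (R1 G.R) (R2 G.R) (mapR1 G) (mapR2 G) :=
  basMap₂ (D := dVV e D) map_p2 (fun _ _ => rfl) (fun _ _ => rfl) a

include hev htwo hE hrad hd hOd hOn in
/-- **the values of the functional** -/
theorem exists_val (hn : 2 ≤ n) (h3 : 3 ≤ l) {s : ℝ} (hs0 : s ≠ 0)
    (hs : S2II.SL G.F G.hD G.hB G.hdiam G.hP hb hl (bb G Om) = s • 1)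
    (hAA : AA X v0 b hr hDR G.F Om n (n - 1) (n - 1) ≠ 0) {ν : Form (dPr e D)}
    (hν : Form.pull G.R G.map_R ν = pr ν + dt) (hν1 : Form.IsDeg 1 ν) {κ c : ℝ} (hκ : κ ≠ 0)
    {Xf Xb Zb Yb : H584.Bas G.R G.map_R}
    (eXf : (Xf : Form (dPr e D)) = κ⁻¹ • Form.pull (fun p => foot p.v) G.map_foot Om)
    (eXb : (Xb : Form (dPr e D)) = κ⁻¹ • Form.pull (fun p => bar e D p.v) G.map_bar Om)
    (eZ : (Zb : Form (dPr e D)) = κ⁻¹ • bb G Om)
    (hsq : qm G.R G.map_R Yb ^ 2 + qm G.R G.map_R Zb ^ 2 =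
      (2 * c) • (qm G.R G.map_R Xf + qm G.R G.map_R Xb)) :
    ∃ (κ' : ℝ) (L : HV2 G →ₗ[ℝ] ℝ), κ' ≠ 0 ∧ Val n κ' (Q1 G (qm G.R G.map_R Xf))
      (Q1 G (qm G.R G.map_R Xb)) (Q2 G (qm G.R G.map_R Xb)) (Q1 G (qm G.R G.map_R Yb))
      (Q2 G (qm G.R G.map_R Yb)) L := by
  have hk : finrank ℝ E = k := by
    have h1 := finrank_eq_card_basis b
    rw [finrank_euclideanSpace, Fintype.card_fin, Fintype.card_fin] at h1
    exact h1
  have hk1 : 1 ≤ k := by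
    rw [← hk, hE]
    exact Nat.mul_pos (by omega) (by omega)
  have hP : ∀ x y : M, dist x y = D → 2 ≤ finrank ℝ (H775.Pl e D x y) := fun x y h => by
    rw [G.hP x y h]
    omega
  have hp := pth G.F hd hev hOd hOn (D := D)
  set S := two G hb hl X v0 b hr hDR hν hν1 hk hk1 (N := 3 * k + 2 * l - 5) (by omega) with hS
  -- the forms
  have efo : Form.pull (fun p : Pr e D => foot p.v) G.map_foot Om =
      Form.pull Pr.v map_v (fo Om) :=
    (H584.pull_pull (k := fun p : Pr e D => foot p.v) map_v map_foot G.map_foot (fun _ => rfl) Om).symm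
  have efb : Form.pull (fun p : Pr e D => bar e D p.v) G.map_bar Om =
      Form.pull Pr.v map_v (fb G.F D Om) :=
    (H584.pull_pull (k := fun p : Pr e D => bar e D p.v) map_v (map_bar G.F D) G.map_bar
      (fun _ => rfl) Om).symm
  rw [efo] at eXf
  rw [efb] at eXb
  have e₀ : (m1 G Xf : Form (dVV e D)) = κ⁻¹ • p₀ e D (P1 (fo Om)) := by
    rw [p₀_P1, ← map_smul]
    exact congrArg (p₁ e D) eXf
  have e₀' : (m2 G Xf : Form (dVV e D)) = κ⁻¹ • p₀ e D (P1 (fo Om)) := by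
    rw [← P2_fo, p₀_P2, ← map_smul]
    exact congrArg (p₂ e D) eXf
  have e₁ : (m1 G Xb : Form (dVV e D)) = κ⁻¹ • p₀ e D (P1 (fb G.F D Om)) := by
    rw [p₀_P1, ← map_smul]
    exact congrArg (p₁ e D) eXb
  have e₂ : (m2 G Xb : Form (dVV e D)) = κ⁻¹ • p₀ e D (P2 (fb G.F D Om)) := by
    rw [p₀_P2, ← map_smul]
    exact congrArg (p₂ e D) eXb
  have inv : ∀ {x : Bas2 (R1 G.R) (R2 G.R) (mapR1 G) (mapR2 G)} {y : Form (dVV e D)},
      (x : Form (dVV e D)) = κ⁻¹ • y → y.sg = y ∧ Basic (R1 G.R) (mapR1 G) y ∧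
        Basic (R2 G.R) (mapR2 G) y := by
    intro x y h
    have h1 : y = κ • (x : Form (dVV e D)) := by
      rw [h, smul_smul, mul_inv_cancel₀ hκ, one_smul]
    rw [h1]
    exact ⟨by rw [Form.sg_smul, x.2.1], H584.Basic.smul κ x.2.2.2.1, H584.Basic.smul κ x.2.2.2.2⟩
  have j1 := J1_bz (Om := Om) G
  have j2 := J2_bz (Om := Om) G
  have oB : ∀ {f : Form (dUT E M) →ₐ[ℝ] Form (dU2 E M)},
      (∀ a, (f a).sg = f a.sg) → (p₀ e D (f (bz G.F D Om))).sg = -p₀ e D (f (bz G.F D Om)) := by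
    intro f hf
    have h1 : (p₀ e D (f (bz G.F D Om))).sg = p₀ e D (f (bz G.F D Om)).sg :=
      (Form.pull_sg (pp Pr.v) map_ppv _).symm
    rw [h1, hf, hp.o, map_neg, map_neg]
  have hbe : (bb G Om).sg = bb G Om := by
    have h1 : (Form.pull Pr.v map_v (bz G.F D Om) : Form (dPr e D)).sg =
        -Form.pull Pr.v map_v (bz G.F D Om) := by
      rw [← Form.pull_sg, hp.o]
      exact map_neg (Form.pullA Pr.v map_v) _
    change (J G.R G.map_R (2 * Real.pi) (Form.pull Pr.v map_v (bz G.F D Om))).sg =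
      J G.R G.map_R (2 * Real.pi) (Form.pull Pr.v map_v (bz G.F D Om))
    rw [H584.J_def, H584.KT_sg, ← Form.pull_sg, h1]
    have h2 := map_neg (Form.pullA G.R G.map_R) (Form.pull Pr.v map_v (bz G.F D Om))
    change Form.pull G.R G.map_R _ = -Form.pull G.R G.map_R _ at h2
    rw [h2, H584.KT_neg, neg_neg]
  have hW : ∀ i j q : ℕ, p₀ e D (P1 (fo Om)) ^ i * p₀ e D (P1 (fb G.F D Om)) ^ j *
      p₀ e D (P2 (fb G.F D Om)) ^ q = p₀ e D (W0 G.F D Om i j q) := fun i j q => by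
    rw [W0, map_mul, map_mul, map_pow, map_pow, map_pow]
  have hs₁ := hom_sq (Q1 G) hsq
  have hs₂ := hom_sq (Q2 G) hsq
  have hx₀ : Q2 G (qm G.R G.map_R Xf) = Q1 G (qm G.R G.map_R Xf) := by
    change Ideal.Quotient.mk _ (m2 G Xf) = Ideal.Quotient.mk _ (m1 G Xf)
    congr 1
    exact Subtype.ext (e₀'.trans e₀.symm)
  rw [hx₀] at hs₂
  have hz₁ : (m1 G Zb : Form (dVV e D)) = κ⁻¹ • J (R1 G.R) (fl1 G).map (2 * Real.pi)
      (p₀ e D (P1 (bz G.F D Om))) := by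
    rw [j1, ← map_smul]
    exact congrArg (p₁ e D) eZ
  have hz₂ : (m2 G Zb : Form (dVV e D)) = κ⁻¹ • J (R2 G.R) (fl2 G).map (2 * Real.pi)
      (p₀ e D (P2 (bz G.F D Om))) := by
    rw [j2, ← map_smul]
    exact congrArg (p₂ e D) eZ
  have hv := S.val (n := n) (κ := κ) (c := c)
    (A := s * s * AA X v0 b hr hDR G.F Om n (n - 1) (n - 1))
    (X₀ := m1 G Xf) (X₁ := m1 G Xb) (X₂ := m2 G Xb) (Y₁ := m1 G Yb) (Y₂ := m2 G Yb)
    (Z₁ := m1 G Zb) (Z₂ := m2 G Zb) (B₁ := p₀ e D (P1 (bz G.F D Om)))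
    (B₂ := p₀ e D (P2 (bz G.F D Om))) e₀ e₁ e₂ (inv e₀).1 (inv e₁).1 (inv e₂).1 (inv e₀).2
    (inv e₁).2 (inv e₂).2 (oB P1_sg) (oB fun a =>
      (Form.pull_sg Prod.snd (map_p2 (dB := dUT E M) (f := foot)) a).symm)
    (by
      rw [p₀_P1]
      exact H584.basic_pull (D := dVV e D) (D' := dPr e D) (f := Prod.fst) map_p1
        (fun _ _ => rfl) _)
    (by
      rw [p₀_P2]
      exact H584.basic_pull (D := dVV e D) (D' := dPr e D) (f := Prod.snd) map_p2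
        (fun _ _ => rfl) _) hz₁ hz₂
    (by
      rw [j1]
      exact H584.basic_pull (D := dVV e D) (D' := dPr e D) (f := Prod.fst) map_p1
        (fun _ _ => rfl) _)
    (by
      rw [j2]
      exact H584.basic_pull (D := dVV e D) (D' := dPr e D) (f := Prod.snd) map_p2
        (fun _ _ => rfl) _) hs₁ hs₂
    (fun i j q => by
      rw [hW]
      exact IV_v0 G hb hl X v0 b hr hDR hν1 h3 _)
    (fun i j q => by
      rw [hW, j1]
      exact IV_v1 G hb hl X v0 b hr hDR hν1 h3 _ hbe)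
    (fun i j q => by
      rw [hW, j2]
      exact IV_v2 G hb hl X v0 b hr hDR hν1 h3 _ hbe)
    (fun i j q => by
      rw [hW, j1, j2, ← mul_assoc, ← map_mul, IV_v3 G hb hl X v0 b hr hDR hbe hs,
        II2_AA G X v0 b hr hDR hd hev hOd hOn, AA_eq X v0 b hr hDR G.F G.hD G.hB G.hdiam hP hd hev htwo
          hE hrad hOd hOn hn i j q]
      ring)
  refine ⟨_, S.L, ?_, hv⟩
  have hpi : (2 * Real.pi) ≠ 0 := Real.two_pi_pos.ne'
  exact mul_ne_zero (pow_ne_zero _ (inv_ne_zero hκ)) (mul_ne_zero (pow_ne_zero _ (inv_ne_zero hκ))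
    (mul_ne_zero hpi (mul_ne_zero hpi (mul_ne_zero (mul_ne_zero hs0 hs0) hAA))))

end Values

end

end Vale.Agent.P231.S2T
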